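/-
R302 / Poly / Defs  (owner: helper165)

Definitions for Section 4 ("Finite polynomials and the cost of assigning a color") of the paper
"Quadratic Strong Operator Paving over Arbitrary Maximal Abelian Subalgebras".

Conventions.
* `V` is an ARBITRARY type of sites (later: the measure space itself); finite principal sets are `S : Finset V`.
* `J` is the finite type of options (later `Fin r × Bool` = colour and sign).
* a site law is `p : V → J → ℝ` (probability vector at every site); independent choices.
* `B : J → V → V → ℂ` are the option kernels; the outcome matrix keeps the entries between sites with equal option.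
-/
import Mathlib

set_option autoImplicit false

namespace Claimed.Agent.R302

open Finset Polynomial
open scoped BigOperators ComplexConjugate

noncomputable section

section General

variable {V : Type*} [DecidableEq V] {J : Type*} [Fintype J] [DecidableEq J]

/-- Outcome matrix on the finite principal set `S` for the choice `ω`. -/
def pvOutMat (B : J → V → V → ℂ) (S : Finset V) (ω : S → J) : Matrix S S ℂ :=
  Matrix.of fun u v => if ω u = ω v then B (ω u) u v else 0

/-- Weight of the choice `ω` under the product law. -/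
def pvWt (p : V → J → ℝ) (S : Finset V) (ω : S → J) : ℂ := ∏ v : S, (p v (ω v) : ℂ)

/-- Multivariate expected characteristic function `P_S(Z) = E det(Z - B_ω)`. -/
def pvMix (p : V → J → ℝ) (B : J → V → V → ℂ) (S : Finset V) (z : V → ℂ) : ℂ :=
  ∑ ω : S → J, pvWt p S ω * (Matrix.diagonal (fun v : S => z v) - pvOutMat B S ω).det

/-- Univariate expected characteristic polynomial. -/
def pvPoly (p : V → J → ℝ) (B : J → V → V → ℂ) (S : Finset V) : ℂ[X] :=
  ∑ ω : S → J, C (pvWt p S ω) * (pvOutMat B S ω).charpoly

/-- `p` is a probability law at every site of `S`. -/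
def PvProb (p : V → J → ℝ) (S : Finset V) : Prop :=
  ∀ v ∈ S, (∀ j, 0 ≤ p v j) ∧ ∑ j, p v j = 1

/-- All option kernels are Hermitian. -/
def PvHerm (B : J → V → V → ℂ) : Prop := ∀ j u v, B j u v = conj (B j v u)

/-- `Im B_j ≤ h` on `S` (as quadratic forms). -/
def PvImLe (B : J → V → V → ℂ) (S : Finset V) (h : ℝ) : Prop :=
  ∀ (j : J) (x : V → ℂ),
    (∑ u ∈ S, ∑ v ∈ S, conj (x u) * B j u v * x v).im ≤ h * ∑ u ∈ S, ‖x u‖ ^ 2

end General

/-- Sum of the positive parts of the roots (with multiplicity). -/
def pvSPos (P : ℂ[X]) : ℝ := (P.roots.map fun x : ℂ => max x.re 0).sum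

/-- Sum of `f` over the roots (with multiplicity). -/
def pvRootSum (P : ℂ[X]) (f : ℝ → ℝ) : ℝ := (P.roots.map fun x : ℂ => f x.re).sum

/-- Number of roots (with multiplicity) strictly greater than `x`. -/
def pvCount (P : ℂ[X]) (x : ℝ) : ℕ := Multiset.card (P.roots.filter fun y : ℂ => x < y.re)

/-- `w` is the family of residues of `N / D`: nonnegative, supported on the roots of `D`,
`N / D = ∑ w μ / (z - μ)`. -/
def IsResW (D N : ℂ[X]) (w : ℂ → ℝ) : Prop :=
  (∀ μ, 0 ≤ w μ) ∧ (∀ μ, μ ∉ D.roots → w μ = 0) ∧
    ∀ z : ℂ, D.eval z ≠ 0 → N.eval z / D.eval z = ∑ μ ∈ D.roots.toFinset, (w μ : ℂ) / (z - μ)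

/-- The residues of `N / D` (junk if they do not exist). -/
def pvResW (D N : ℂ[X]) : ℂ → ℝ := Classical.epsilon (IsResW D N)

/-- Integration against the atomic measure `∑ w_μ δ_μ` of `N / D`. -/
def pvRho (D N : ℂ[X]) (f : ℝ → ℝ) : ℝ := ∑ μ ∈ D.roots.toFinset, pvResW D N μ * f μ.re

/-! ### The data of the paper -/

/-- Options: colour and sign (`true` = `+`). -/
abbrev PvOpt (r : ℕ) := Fin r × Bool

/-- Site data: matrix kernel `T`, weights `W`, partial colouring `c` (`none` = unassigned), shifts `τ`. -/
structure PvData (V : Type*) (r : ℕ) where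
  T : V → V → ℂ
  W : V → ℝ
  c : V → Option (Fin r)
  τ : V → ℝ

namespace PvData

variable {V : Type*} [DecidableEq V] {r : ℕ}

/-- Hermitian, zero diagonal, contraction on every finite set, positive weights. -/
structure Good (D : PvData V r) : Prop where
  herm : ∀ u v, D.T u v = conj (D.T v u)
  zdiag : ∀ v, D.T v v = 0
  contr : ∀ (S : Finset V) (x : V → ℂ),
    ‖∑ u ∈ S, ∑ v ∈ S, conj (x u) * D.T u v * x v‖ ≤ ∑ u ∈ S, ‖x u‖ ^ 2
  Wpos : ∀ v, 0 < D.W v

/-- Uniform law on the allowed pairs. -/
def law (D : PvData V r) (v : V) (j : PvOpt r) : ℝ :=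
  match D.c v with
  | none => 1 / (2 * (r : ℝ))
  | some i => if j.1 = i then 1 / 2 else 0

/-- `a_v = τ_v W_v`. -/
def a (D : PvData V r) (v : V) : ℝ := D.τ v * D.W v

/-- sign of an option -/
def sgn (j : PvOpt r) : ℂ := if j.2 then 1 else -1

/-- `B_j = σ D_W T D_W - diag(a)`. -/
def ker (D : PvData V r) (j : PvOpt r) (u v : V) : ℂ :=
  sgn j * ((Real.sqrt (D.W u) : ℂ) * D.T u v * (Real.sqrt (D.W v) : ℂ)) -
    (if u = v then (D.a v : ℂ) else 0)

/-- multivariate `P_S(Z)` -/
def P (D : PvData V r) (S : Finset V) (z : V → ℂ) : ℂ := pvMix D.law D.ker S z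

/-- univariate polynomial `P_S` -/
def poly (D : PvData V r) (S : Finset V) : ℂ[X] := pvPoly D.law D.ker S

/-- `F_{S,v}(z) = P_S(z) / P_{S - v}(z)` -/
def F (D : PvData V r) (S : Finset V) (v : V) (z : ℂ) : ℂ :=
  (D.poly S).eval z / (D.poly (S.erase v)).eval z

/-- `G_{S,v}(z) = P_{S - v}(z) / P_S(z)` -/
def G (D : PvData V r) (S : Finset V) (v : V) (z : ℂ) : ℂ :=
  (D.poly (S.erase v)).eval z / (D.poly S).eval z

/-- rooted measure `ρ_{S,v}` as a functional -/
def rho (D : PvData V r) (S : Finset V) (v : V) (f : ℝ → ℝ) : ℝ :=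
  pvRho (D.poly S) (D.poly (S.erase v)) f

/-- residue measure `κ_{S,v} = ∑ b_λ δ_λ` of `z + a_v - F_{S,v}` as a functional -/
def kap (D : PvData V r) (S : Finset V) (v : V) (f : ℝ → ℝ) : ℝ :=
  pvRho (D.poly (S.erase v)) ((X + C (D.a v : ℂ)) * D.poly (S.erase v) - D.poly S) f

/-- rooted cost `m_{S,v} = ∫ x_+ dρ` -/
def m (D : PvData V r) (S : Finset V) (v : V) : ℝ := D.rho S v fun x => max x 0

/-- deletion increment `d_{S,v} = s(P_S) - s(P_{S-v})` -/
def d (D : PvData V r) (S : Finset V) (v : V) : ℝ :=
  pvSPos (D.poly S) - pvSPos (D.poly (S.erase v))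

/-- generalised increment `d_{S,v}[f]` -/
def df (D : PvData V r) (S : Finset V) (v : V) (f : ℝ → ℝ) : ℝ :=
  pvRootSum (D.poly S) f - pvRootSum (D.poly (S.erase v)) f

/-- condition the colour at `v` to be `i` (shift unchanged): the option `0,i` of the paper -/
def cond (D : PvData V r) (v : V) (i : Fin r) : PvData V r :=
  { D with c := Function.update D.c v (some i) }

/-- permanent assignment of colour `i` at `v` with new shift `τ'` -/
def assign (D : PvData V r) (v : V) (i : Fin r) (τ' : ℝ) : PvData V r :=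
  { D with c := Function.update D.c v (some i), τ := Function.update D.τ v τ' }

/-- standard shifts: `t` at unassigned sites and `80 t` at assigned sites -/
def Std (D : PvData V r) (t : ℝ) : Prop :=
  ∀ v, D.τ v = if (D.c v).isNone then t else 80 * t

/-- multiply all weights by `s` -/
def scale (D : PvData V r) (s : ℝ) : PvData V r := { D with W := fun v => s * D.W v }

/-- rename the colours -/
def recolor (D : PvData V r) (σ : Equiv.Perm (Fin r)) : PvData V r :=
  { D with c := fun v => (D.c v).map σ }

/-- diagonal unitary gauge change -/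
def gauge (D : PvData V r) (θ : V → ℂ) : PvData V r :=
  { D with T := fun u v => θ u * D.T u v * conj (θ v) }

/-- the pinched kernel `T_c` -/
def Tc (D : PvData V r) (u v : V) : ℂ := if D.c u = D.c v then D.T u v else 0

end PvData

end

end Claimed.Agent.R302
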