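/-
R302 / Poly / Arrow  (owner: helper165; proofs: helper261)
Real symmetric arrow matrices: costs, interlacing, tails (paper Q, Lemma 4.4).
Everything here is plain finite dimensional Hermitian matrix analysis, independent of the mixed polynomials.
General tools (prefix arw_): coordinates of the spectral theorem, Parseval/Bessel, the variational
bound `arw_var_le` (Tr (A R) ≤ Tr A₊ for R = ∑ wᵢ wᵢᵀ ≤ 1), `arw_var_eq`, `arw_posTr_mono`.
-/
import Claimed.Agent.R302.Poly.Defs
import Claimed.Agent.Lib.SpecCountB

set_option autoImplicit false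
set_option linter.unusedSectionVars false
set_option linter.unusedVariables false

namespace Claimed.Agent.R302

open Finset Polynomial
open scoped BigOperators

noncomputable section

section Spectral

variable {n : Type*} [Fintype n] [DecidableEq n] {A : Matrix n n ℝ} (hA : A.IsHermitian)

/-- eigenvector equation in coordinates -/
theorem arw_eig (x j : n) :
    ∑ y, A x y * hA.eigenvectorBasis j y = hA.eigenvalues j * hA.eigenvectorBasis j x := by
  have h := congrFun (hA.mulVec_eigenvectorBasis j) x
  simpa [Matrix.mulVec, dotProduct] using h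

/-- rows of the eigenvector matrix are orthonormal -/
theorem arw_row (x y : n) :
    ∑ j, hA.eigenvectorBasis j x * hA.eigenvectorBasis j y = if x = y then 1 else 0 := by
  have h := congrFun (congrFun (Unitary.coe_mul_star_self hA.eigenvectorUnitary) x) y
  simpa [Matrix.mul_apply, Matrix.one_apply, Matrix.IsHermitian.eigenvectorUnitary_apply] using h

/-- columns of the eigenvector matrix are orthonormal -/
theorem arw_col (i j : n) :
    ∑ x, hA.eigenvectorBasis i x * hA.eigenvectorBasis j x = if i = j then 1 else 0 := by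
  have h := congrFun (congrFun (Unitary.coe_star_mul_self hA.eigenvectorUnitary) i) j
  simpa [Matrix.mul_apply, Matrix.one_apply, Matrix.IsHermitian.eigenvectorUnitary_apply] using h

/-- spectral decomposition of the entries -/
theorem arw_entry (x y : n) :
    ∑ j, hA.eigenvalues j * (hA.eigenvectorBasis j x * hA.eigenvectorBasis j y) = A x y := by
  calc ∑ j, hA.eigenvalues j * (hA.eigenvectorBasis j x * hA.eigenvectorBasis j y)
      = ∑ j, ∑ w, A x w * (hA.eigenvectorBasis j w * hA.eigenvectorBasis j y) := by
        refine Finset.sum_congr rfl fun j _ => ?_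
        rw [← mul_assoc, ← arw_eig hA x j, Finset.sum_mul]
        exact Finset.sum_congr rfl fun w _ => by ring
    _ = ∑ w, A x w * ∑ j, hA.eigenvectorBasis j w * hA.eigenvectorBasis j y := by
        rw [Finset.sum_comm]
        exact Finset.sum_congr rfl fun w _ => by rw [Finset.mul_sum]
    _ = A x y := by
        simp [arw_row]

/-- spectral decomposition of the entries of the square -/
theorem arw_entry_sq (x y : n) :
    ∑ j, hA.eigenvalues j ^ 2 * (hA.eigenvectorBasis j x * hA.eigenvectorBasis j y) =
      ∑ w, A x w * A y w := by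
  calc ∑ j, hA.eigenvalues j ^ 2 * (hA.eigenvectorBasis j x * hA.eigenvectorBasis j y)
      = ∑ j, ∑ w, A x w * (hA.eigenvalues j *
          (hA.eigenvectorBasis j y * hA.eigenvectorBasis j w)) := by
        refine Finset.sum_congr rfl fun j _ => ?_
        have : hA.eigenvalues j ^ 2 * (hA.eigenvectorBasis j x * hA.eigenvectorBasis j y) =
            (hA.eigenvalues j * hA.eigenvectorBasis j x) *
              (hA.eigenvalues j * hA.eigenvectorBasis j y) := by ring
        rw [this, ← arw_eig hA x j, Finset.sum_mul]
        exact Finset.sum_congr rfl fun w _ => by ring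
    _ = ∑ w, A x w * ∑ j, hA.eigenvalues j *
          (hA.eigenvectorBasis j y * hA.eigenvectorBasis j w) := by
        rw [Finset.sum_comm]
        exact Finset.sum_congr rfl fun w _ => by rw [Finset.mul_sum]
    _ = ∑ w, A x w * A y w := by
        simp only [arw_entry]

/-- quadratic form of an eigenvector -/
theorem arw_quad_self (j : n) :
    ∑ x, ∑ y, hA.eigenvectorBasis j x * A x y * hA.eigenvectorBasis j y = hA.eigenvalues j := by
  calc ∑ x, ∑ y, hA.eigenvectorBasis j x * A x y * hA.eigenvectorBasis j y
      = ∑ x, hA.eigenvectorBasis j x * ∑ y, A x y * hA.eigenvectorBasis j y := by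
        refine Finset.sum_congr rfl fun x _ => ?_
        rw [Finset.mul_sum]
        exact Finset.sum_congr rfl fun y _ => by ring
    _ = hA.eigenvalues j * ∑ x, hA.eigenvectorBasis j x * hA.eigenvectorBasis j x := by
        rw [Finset.mul_sum]
        refine Finset.sum_congr rfl fun x _ => ?_
        rw [arw_eig]; ring
    _ = hA.eigenvalues j := by
        rw [arw_col]; simp

/-- quadratic form in the eigenbasis -/
theorem arw_quad (w : n → ℝ) :
    ∑ x, ∑ y, w x * A x y * w y =
      ∑ j, hA.eigenvalues j * (∑ x, hA.eigenvectorBasis j x * w x) ^ 2 := by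
  symm
  calc ∑ j, hA.eigenvalues j * (∑ x, hA.eigenvectorBasis j x * w x) ^ 2
      = ∑ j, ∑ x, ∑ y, w x * (hA.eigenvalues j *
          (hA.eigenvectorBasis j x * hA.eigenvectorBasis j y)) * w y := by
        refine Finset.sum_congr rfl fun j _ => ?_
        rw [sq, Finset.sum_mul_sum, Finset.mul_sum]
        refine Finset.sum_congr rfl fun x _ => ?_
        rw [Finset.mul_sum]
        exact Finset.sum_congr rfl fun y _ => by ring
    _ = ∑ x, ∑ y, ∑ j, w x * (hA.eigenvalues j *
          (hA.eigenvectorBasis j x * hA.eigenvectorBasis j y)) * w y := by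
        rw [Finset.sum_comm]
        refine Finset.sum_congr rfl fun x _ => ?_
        rw [Finset.sum_comm]
    _ = ∑ x, ∑ y, w x * A x y * w y := by
        refine Finset.sum_congr rfl fun x _ => Finset.sum_congr rfl fun y _ => ?_
        rw [← arw_entry hA x y, Finset.mul_sum, Finset.sum_mul]

/-- Parseval -/
theorem arw_parseval (u : n → ℝ) :
    ∑ j, (∑ x, u x * hA.eigenvectorBasis j x) ^ 2 = ∑ x, u x ^ 2 := by
  calc ∑ j, (∑ x, u x * hA.eigenvectorBasis j x) ^ 2
      = ∑ j, ∑ x, ∑ y, u x * u y * (hA.eigenvectorBasis j x * hA.eigenvectorBasis j y) := by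
        refine Finset.sum_congr rfl fun j _ => ?_
        rw [sq, Finset.sum_mul_sum]
        exact Finset.sum_congr rfl fun x _ => Finset.sum_congr rfl fun y _ => by ring
    _ = ∑ x, ∑ y, ∑ j, u x * u y * (hA.eigenvectorBasis j x * hA.eigenvectorBasis j y) := by
        rw [Finset.sum_comm]
        refine Finset.sum_congr rfl fun x _ => ?_
        rw [Finset.sum_comm]
    _ = ∑ x, ∑ y, u x * u y * (if x = y then 1 else 0) := by
        refine Finset.sum_congr rfl fun x _ => Finset.sum_congr rfl fun y _ => ?_
        rw [← Finset.mul_sum, arw_row]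
    _ = ∑ x, u x ^ 2 := by
        refine Finset.sum_congr rfl fun x _ => ?_
        simp [sq]

/-- Bessel for a subfamily of the eigenbasis -/
theorem arw_bessel (s : Finset n) (u : n → ℝ) :
    ∑ j ∈ s, (∑ x, u x * hA.eigenvectorBasis j x) ^ 2 ≤ ∑ x, u x ^ 2 := by
  rw [← arw_parseval hA u]
  exact Finset.sum_le_sum_of_subset_of_nonneg (Finset.subset_univ s) fun _ _ _ => sq_nonneg _

/-- variational upper bound for the positive trace: `Tr (A R) ≤ Tr A₊` for `R = ∑ wᵢ wᵢᵀ ≤ 1` -/
theorem arw_var_le {ι : Type*} (s : Finset ι) (w : ι → n → ℝ)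
    (hw : ∀ u : n → ℝ, ∑ i ∈ s, (∑ x, u x * w i x) ^ 2 ≤ ∑ x, u x ^ 2) :
    ∑ i ∈ s, ∑ x, ∑ y, w i x * A x y * w i y ≤ ∑ j, max (hA.eigenvalues j) 0 := by
  calc ∑ i ∈ s, ∑ x, ∑ y, w i x * A x y * w i y
      = ∑ i ∈ s, ∑ j, hA.eigenvalues j * (∑ x, hA.eigenvectorBasis j x * w i x) ^ 2 :=
        Finset.sum_congr rfl fun i _ => arw_quad hA (w i)
    _ ≤ ∑ i ∈ s, ∑ j, max (hA.eigenvalues j) 0 * (∑ x, hA.eigenvectorBasis j x * w i x) ^ 2 :=
        Finset.sum_le_sum fun i _ => Finset.sum_le_sum fun j _ =>
          mul_le_mul_of_nonneg_right (le_max_left _ _) (sq_nonneg _)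
    _ = ∑ j, max (hA.eigenvalues j) 0 * ∑ i ∈ s, (∑ x, hA.eigenvectorBasis j x * w i x) ^ 2 := by
        rw [Finset.sum_comm]
        exact Finset.sum_congr rfl fun j _ => by rw [Finset.mul_sum]
    _ ≤ ∑ j, max (hA.eigenvalues j) 0 * 1 := by
        refine Finset.sum_le_sum fun j _ => mul_le_mul_of_nonneg_left ?_ (le_max_right _ _)
        refine (hw _).trans (le_of_eq ?_)
        have := arw_col hA j j
        simp only [if_true] at this
        rw [← this]
        exact Finset.sum_congr rfl fun x _ => by ring
    _ = ∑ j, max (hA.eigenvalues j) 0 := by simp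

/-- the positive trace is attained on the positive eigenvectors -/
theorem arw_var_eq :
    ∑ j, max (hA.eigenvalues j) 0 =
      ∑ j ∈ univ.filter (fun j => 0 < hA.eigenvalues j),
        ∑ x, ∑ y, hA.eigenvectorBasis j x * A x y * hA.eigenvectorBasis j y := by
  rw [Finset.sum_filter]
  refine Finset.sum_congr rfl fun j _ => ?_
  rw [arw_quad_self]
  split_ifs with h
  · exact max_eq_left h.le
  · exact max_eq_right (not_lt.mp h)

/-- monotonicity of the positive trace in the form order -/
theorem arw_posTr_mono {A' : Matrix n n ℝ} (hA' : A'.IsHermitian)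
    (h : ∀ w : n → ℝ, ∑ x, ∑ y, w x * A' x y * w y ≤ ∑ x, ∑ y, w x * A x y * w y) :
    ∑ j, max (hA'.eigenvalues j) 0 ≤ ∑ j, max (hA.eigenvalues j) 0 := by
  rw [arw_var_eq hA']
  refine (Finset.sum_le_sum fun j _ => h _).trans ?_
  exact arw_var_le hA _ _ fun u => arw_bessel hA' _ u

/-- the eigenvalues of a diagonal matrix, as a multiset -/
theorem arw_diag_multiset (d : n → ℝ) (hD : (Matrix.diagonal d).IsHermitian) :
    Multiset.map hD.eigenvalues univ.val = Multiset.map d univ.val := by
  have h1 := hD.roots_charpoly_eq_eigenvalues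
  rw [Matrix.charpoly_diagonal, Polynomial.roots_prod] at h1
  · simpa using h1.symm
  · simp [Finset.prod_ne_zero_iff, Polynomial.X_sub_C_ne_zero]

theorem arw_diag_sum (d : n → ℝ) (hD : (Matrix.diagonal d).IsHermitian) {M : Type*}
    [AddCommMonoid M] (f : ℝ → M) :
    ∑ j, f (hD.eigenvalues j) = ∑ j, f (d j) := by
  have h := congrArg (fun s => (Multiset.map f s).sum) (arw_diag_multiset d hD)
  simpa [Multiset.map_map] using h

end Spectral

variable {K : Type*} [Fintype K] [DecidableEq K]

/-- arrow matrix with first diagonal `-a`, couplings `√(b k)` and diagonal block `lam` -/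
def arrowMat (a : ℝ) (b lam : K → ℝ) : Matrix (Option K) (Option K) ℝ :=
  Matrix.of fun x y =>
    match x, y with
    | none, none => -a
    | none, some k => Real.sqrt (b k)
    | some k, none => Real.sqrt (b k)
    | some k, some l => if k = l then lam k else 0

@[simp] theorem arrowMat_none_none (a : ℝ) (b lam : K → ℝ) : arrowMat a b lam none none = -a := rfl
@[simp] theorem arrowMat_none_some (a : ℝ) (b lam : K → ℝ) (k : K) :
    arrowMat a b lam none (some k) = Real.sqrt (b k) := rfl
@[simp] theorem arrowMat_some_none (a : ℝ) (b lam : K → ℝ) (k : K) :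
    arrowMat a b lam (some k) none = Real.sqrt (b k) := rfl
@[simp] theorem arrowMat_some_some (a : ℝ) (b lam : K → ℝ) (k l : K) :
    arrowMat a b lam (some k) (some l) = if k = l then lam k else 0 := rfl

theorem arrowMat_isHermitian (a : ℝ) (b lam : K → ℝ) : (arrowMat a b lam).IsHermitian := by
  ext x y
  rcases x with _ | k <;> rcases y with _ | l <;> simp [Matrix.conjTranspose_apply]
  by_cases h : k = l
  · subst h; simp
  · simp [h, Ne.symm h]

/-- first coordinate spectral measure of the arrow matrix, as a functional -/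
def arrowRho (a : ℝ) (b lam : K → ℝ) (f : ℝ → ℝ) : ℝ :=
  ∑ k, f ((arrowMat_isHermitian a b lam).eigenvalues k) *
    ((arrowMat_isHermitian a b lam).eigenvectorBasis k none) ^ 2

/-- sum of `f` over the eigenvalues -/
def arrowTr (a : ℝ) (b lam : K → ℝ) (f : ℝ → ℝ) : ℝ :=
  ∑ k, f ((arrowMat_isHermitian a b lam).eigenvalues k)

/-- rooted cost -/
def arrowM (a : ℝ) (b lam : K → ℝ) : ℝ := arrowRho a b lam fun x => max x 0

/-- increment of the positive trace over the deletion block -/
def arrowInc (a : ℝ) (b lam : K → ℝ) : ℝ :=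
  arrowTr a b lam (fun x => max x 0) - ∑ k, max (lam k) 0

/-- determinant of an arrow matrix over a field, invertible diagonal block -/
theorem arw_det {F : Type*} [Field F] (α : F) (u w d : K → F) (hd : ∀ k, d k ≠ 0)
    (M : Matrix (Option K) (Option K) F)
    (h00 : M none none = α) (h0 : ∀ k, M none (some k) = u k) (h1 : ∀ k, M (some k) none = w k)
    (h2 : ∀ k l, M (some k) (some l) = if k = l then d k else 0) :
    M.det = α * ∏ k, d k - ∑ k, u k * w k * ∏ l ∈ univ.erase k, d l := by
  have hM : M.submatrix (Equiv.optionEquivSumPUnit.{0} K).symm (Equiv.optionEquivSumPUnit.{0} K).symm =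
      Matrix.fromBlocks (Matrix.diagonal d) (Matrix.of fun k _ => w k) (Matrix.of fun _ k => u k)
        (Matrix.of fun _ _ => α) := by
    ext x y
    rcases x with k | _ <;> rcases y with l | _ <;>
      simp [h00, h0, h1, h2, Matrix.diagonal_apply]
  rw [← Matrix.det_submatrix_equiv_self (Equiv.optionEquivSumPUnit.{0} K).symm M, hM]
  let _ : Invertible (Matrix.diagonal d) :=
    ⟨Matrix.diagonal fun k => (d k)⁻¹, by
      rw [Matrix.diagonal_mul_diagonal, ← Matrix.diagonal_one]
      congr 1; funext k; exact inv_mul_cancel₀ (hd k), by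
      rw [Matrix.diagonal_mul_diagonal, ← Matrix.diagonal_one]
      congr 1; funext k; exact mul_inv_cancel₀ (hd k)⟩
  rw [Matrix.det_fromBlocks₁₁, Matrix.det_diagonal, Matrix.det_unique]
  have hinv : ⅟(Matrix.diagonal d) = Matrix.diagonal fun k => (d k)⁻¹ := rfl
  rw [hinv]
  simp only [Matrix.sub_apply, Matrix.of_apply, Matrix.mul_apply, Matrix.diagonal_apply]
  have h3 : ∀ k : K, ∑ l, u l * (if l = k then (d l)⁻¹ else 0) = u k * (d k)⁻¹ := by
    intro k
    rw [Finset.sum_eq_single k]
    · simp
    · intro l _ hl; simp [hl]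
    · simp
  simp only [h3]
  rw [mul_sub, mul_comm, Finset.mul_sum]
  congr 1
  refine Finset.sum_congr rfl fun k _ => ?_
  rw [← Finset.mul_prod_erase univ d (Finset.mem_univ k)]
  have := hd k
  field_simp

theorem arrow_charpoly (a : ℝ) (b lam : K → ℝ) (hb : ∀ k, 0 ≤ b k) :
    (arrowMat a b lam).charpoly =
      (X + C a) * ∏ k, (X - C (lam k)) - ∑ k, C (b k) * ∏ l ∈ univ.erase k, (X - C (lam l)) := by
  apply Polynomial.eq_of_infinite_eval_eq
  have hfin : (Set.range lam).Finite := Set.finite_range lam
  refine Set.Infinite.mono ?_ hfin.infinite_compl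
  intro t ht
  have ht' : ∀ k, t - lam k ≠ 0 := by
    intro k h
    exact ht ⟨k, (sub_eq_zero.mp h).symm⟩
  show _ = _
  rw [Matrix.eval_charpoly,
    arw_det (t + a) (fun k => -Real.sqrt (b k)) (fun k => -Real.sqrt (b k)) (fun k => t - lam k) ht'
      _ (by simp) (by simp) (by simp) (by
        intro k l
        by_cases h : k = l
        · subst h; simp
        · simp [h])]
  simp only [eval_sub, eval_mul, eval_add, eval_X, eval_C, eval_prod, eval_finsetSum]
  congr 1
  refine Finset.sum_congr rfl fun k _ => ?_
  rw [neg_mul_neg, Real.mul_self_sqrt (hb k)]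

theorem arrowRho_one (a : ℝ) (b lam : K → ℝ) : arrowRho a b lam (fun _ => 1) = 1 := by
  have h := arw_row (arrowMat_isHermitian a b lam) none none
  simp only [if_true] at h
  unfold arrowRho
  refine Eq.trans (Finset.sum_congr rfl fun k _ => ?_) h
  ring

theorem arrowRho_id (a : ℝ) (b lam : K → ℝ) : arrowRho a b lam (fun x => x) = -a := by
  have h := arw_entry (arrowMat_isHermitian a b lam) none none
  rw [arrowMat_none_none] at h
  unfold arrowRho
  refine Eq.trans (Finset.sum_congr rfl fun k _ => ?_) h
  ring

theorem arrowRho_sq (a : ℝ) (b lam : K → ℝ) (hb : ∀ k, 0 ≤ b k) :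
    arrowRho a b lam (fun x => x ^ 2) = a ^ 2 + ∑ k, b k := by
  have h := arw_entry_sq (arrowMat_isHermitian a b lam) none none
  have h' : ∑ w, arrowMat a b lam none w * arrowMat a b lam none w = a ^ 2 + ∑ k, b k := by
    rw [Fintype.sum_option]
    simp only [arrowMat_none_none, arrowMat_none_some]
    have h2 : ∑ k, Real.sqrt (b k) * Real.sqrt (b k) = ∑ k, b k :=
      Finset.sum_congr rfl fun k _ => Real.mul_self_sqrt (hb k)
    rw [h2]; ring
  rw [h'] at h
  unfold arrowRho
  refine Eq.trans (Finset.sum_congr rfl fun k _ => ?_) h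
  ring

/-- first resolvent entry -/
theorem arrow_resolvent (a : ℝ) (b lam : K → ℝ) (hb : ∀ k, 0 ≤ b k) (z : ℂ) (hz : z.im ≠ 0) :
    (∑ k, (((arrowMat_isHermitian a b lam).eigenvectorBasis k none) ^ 2 : ℝ) /
        (z - (arrowMat_isHermitian a b lam).eigenvalues k) : ℂ) =
      1 / (z + a - ∑ k, (b k : ℂ) / (z - lam k)) := by
  set hA := arrowMat_isHermitian a b lam with hhA
  have hne : ∀ t : ℝ, z - (t : ℂ) ≠ 0 := by
    intro t h
    apply hz
    have := congrArg Complex.im h
    simpa using this
  -- the solution of `(z - A) g = e₀`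
  let g : Option K → ℂ := fun x =>
    ∑ j, ((hA.eigenvectorBasis j x * hA.eigenvectorBasis j none : ℝ) : ℂ) / (z - hA.eigenvalues j)
  have key : ∀ x, z * g x - ∑ y, (arrowMat a b lam x y : ℂ) * g y = if x = none then 1 else 0 := by
    intro x
    have h1 : ∑ y, (arrowMat a b lam x y : ℂ) * g y =
        ∑ j, ((hA.eigenvalues j * (hA.eigenvectorBasis j x * hA.eigenvectorBasis j none) : ℝ) : ℂ) /
          (z - hA.eigenvalues j) := by
      simp only [g, Finset.mul_sum]
      rw [Finset.sum_comm]
      refine Finset.sum_congr rfl fun j _ => ?_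
      rw [← mul_assoc, ← arw_eig hA x j, Finset.sum_mul]
      push_cast
      rw [Finset.sum_div]
      exact Finset.sum_congr rfl fun y _ => by ring
    rw [h1]
    simp only [g, Finset.mul_sum]
    rw [← Finset.sum_sub_distrib]
    have h2 : ∀ j, z * (((hA.eigenvectorBasis j x * hA.eigenvectorBasis j none : ℝ) : ℂ) /
          (z - hA.eigenvalues j)) -
        ((hA.eigenvalues j * (hA.eigenvectorBasis j x * hA.eigenvectorBasis j none) : ℝ) : ℂ) /
          (z - hA.eigenvalues j) =
        ((hA.eigenvectorBasis j x * hA.eigenvectorBasis j none : ℝ) : ℂ) := by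
      intro j
      have := hne (hA.eigenvalues j)
      push_cast
      field_simp
    simp only [h2]
    rw [← Complex.ofReal_sum, arw_row hA x none]
    split_ifs <;> simp
  have hsome : ∀ k, g (some k) = (Real.sqrt (b k) : ℂ) * g none / (z - lam k) := by
    intro k
    have h := key (some k)
    rw [Fintype.sum_option] at h
    simp only [arrowMat_some_none, arrowMat_some_some, reduceCtorEq, if_false] at h
    have h3 : ∑ l, ((if k = l then lam k else 0 : ℝ) : ℂ) * g (some l) = (lam k : ℂ) * g (some k) := by
      rw [Finset.sum_eq_single k]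
      · simp
      · intro l _ hl
        simp [Ne.symm hl]
      · simp
    rw [h3] at h
    have := hne (lam k)
    field_simp
    linear_combination h
  have hnone := key none
  rw [Fintype.sum_option] at hnone
  simp only [arrowMat_none_none, arrowMat_none_some, if_true] at hnone
  have h4 : ∑ k, (Real.sqrt (b k) : ℂ) * g (some k) = g none * ∑ k, (b k : ℂ) / (z - lam k) := by
    rw [Finset.mul_sum]
    refine Finset.sum_congr rfl fun k _ => ?_
    rw [hsome k]
    have h5 : (Real.sqrt (b k) : ℂ) * (Real.sqrt (b k) : ℂ) = (b k : ℂ) := by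
      rw [← Complex.ofReal_mul, Real.mul_self_sqrt (hb k)]
    have := hne (lam k)
    field_simp
    linear_combination (g none) * h5
  rw [h4] at hnone
  have h6 : g none * (z + a - ∑ k, (b k : ℂ) / (z - lam k)) = 1 := by
    push_cast at hnone
    linear_combination hnone
  have h7 : (∑ k, ((hA.eigenvectorBasis k none) ^ 2 : ℝ) / (z - hA.eigenvalues k) : ℂ) = g none := by
    simp only [g]
    refine Finset.sum_congr rfl fun k _ => ?_
    push_cast
    ring
  rw [h7]
  exact eq_one_div_of_mul_eq_one_left h6

/-! ### eigen equations of the arrow matrix -/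

theorem arw_eq_none (a : ℝ) (b lam : K → ℝ) (j : Option K) :
    ∑ k, Real.sqrt (b k) * (arrowMat_isHermitian a b lam).eigenvectorBasis j (some k) =
      ((arrowMat_isHermitian a b lam).eigenvalues j + a) *
        (arrowMat_isHermitian a b lam).eigenvectorBasis j none := by
  have h := arw_eig (arrowMat_isHermitian a b lam) none j
  rw [Fintype.sum_option] at h
  simp only [arrowMat_none_none, arrowMat_none_some] at h
  linarith

theorem arw_eq_some (a : ℝ) (b lam : K → ℝ) (j : Option K) (k : K) :
    Real.sqrt (b k) * (arrowMat_isHermitian a b lam).eigenvectorBasis j none =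
      ((arrowMat_isHermitian a b lam).eigenvalues j - lam k) *
        (arrowMat_isHermitian a b lam).eigenvectorBasis j (some k) := by
  have h := arw_eig (arrowMat_isHermitian a b lam) (some k) j
  rw [Fintype.sum_option] at h
  simp only [arrowMat_some_none, arrowMat_some_some] at h
  have h3 : ∑ l, (if k = l then lam k else 0) *
      (arrowMat_isHermitian a b lam).eigenvectorBasis j (some l) =
      lam k * (arrowMat_isHermitian a b lam).eigenvectorBasis j (some k) := by
    rw [Finset.sum_eq_single k]
    · simp
    · intro l _ hl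
      simp [Ne.symm hl]
    · simp
  rw [h3] at h
  linarith

theorem arw_norm (a : ℝ) (b lam : K → ℝ) (j : Option K) :
    (arrowMat_isHermitian a b lam).eigenvectorBasis j none ^ 2 +
      ∑ k, (arrowMat_isHermitian a b lam).eigenvectorBasis j (some k) ^ 2 = 1 := by
  have h := arw_col (arrowMat_isHermitian a b lam) j j
  rw [Fintype.sum_option] at h
  simp only [if_true] at h
  rw [← h]
  congr 1
  · ring
  · exact Finset.sum_congr rfl fun k _ => by ring

theorem arw_rownorm (a : ℝ) (b lam : K → ℝ) (x : Option K) :
    ∑ j, (arrowMat_isHermitian a b lam).eigenvectorBasis j x ^ 2 = 1 := by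
  have h := arw_row (arrowMat_isHermitian a b lam) x x
  simp only [if_true] at h
  rw [← h]
  exact Finset.sum_congr rfl fun k _ => by ring

/-- Cauchy interlacing in counting form -/
theorem arrow_count (a : ℝ) (b lam : K → ℝ) (x : ℝ) :
    (univ.filter fun k => x < lam k).card ≤
        (univ.filter fun k => x < (arrowMat_isHermitian a b lam).eigenvalues k).card ∧
      (univ.filter fun k => x < (arrowMat_isHermitian a b lam).eigenvalues k).card ≤
        (univ.filter fun k => x < lam k).card + 1 := by
  have hsub : (arrowMat a b lam).submatrix (some : K → Option K) some = Matrix.diagonal lam := by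
    ext k l
    simp [Matrix.diagonal_apply]
  have hB : ((arrowMat a b lam).submatrix (some : K → Option K) some).IsHermitian := by
    rw [hsub]; exact Matrix.isHermitian_diagonal _
  have hcount : (univ.filter fun k => x < hB.eigenvalues k).card =
      (univ.filter fun k => x < lam k).card := by
    have hD : (Matrix.diagonal lam).IsHermitian := Matrix.isHermitian_diagonal _
    have h1 : (univ.filter fun k => x < hB.eigenvalues k).card =
        (univ.filter fun k => x < hD.eigenvalues k).card := by
      have : hB.eigenvalues = hD.eigenvalues := by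
        rw [Matrix.IsHermitian.eigenvalues_eq_eigenvalues_iff, hsub]
      rw [this]
    rw [h1, Finset.card_filter, Finset.card_filter]
    exact arw_diag_sum lam hD fun t => if x < t then 1 else 0
  have he : Function.Injective (some : K → Option K) := Option.some_injective K
  have h1 := Claimed.Agent.Lib.spc_sub_card_gt (arrowMat_isHermitian a b lam) hB he x
  have h2 := Claimed.Agent.Lib.spc_card_gt_sub_add (arrowMat_isHermitian a b lam) hB he x
  rw [hcount] at h1 h2
  refine ⟨h1, h2.trans ?_⟩
  simp [Fintype.card_option]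

/-- Lemma 4.4, tail estimate -/
theorem arrow_tail (a : ℝ) (b lam : K → ℝ) (hb : ∀ k, 0 ≤ b k) (B : ℝ) (hB : 0 ≤ B) :
    arrowTr a b lam (fun x => max (x - B) 0) - ∑ k, max (lam k - B) 0 ≤
      2 * arrowRho a b lam (fun x => max (x - B) 0) +
        (a + B) * arrowRho a b lam (fun x => if B < x then 1 else 0) := by
  set hA := arrowMat_isHermitian a b lam with hhA
  -- pointwise identity
  have key : ∀ j, max (hA.eigenvalues j - B) 0 =
      2 * (max (hA.eigenvalues j - B) 0 * hA.eigenvectorBasis j none ^ 2) +
        (a + B) * ((if B < hA.eigenvalues j then 1 else 0) * hA.eigenvectorBasis j none ^ 2) +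
        ∑ k, (lam k - B) *
          ((if B < hA.eigenvalues j then 1 else 0) * hA.eigenvectorBasis j (some k) ^ 2) := by
    intro j
    by_cases hj : B < hA.eigenvalues j
    · rw [max_eq_left (by linarith)]
      simp only [hj, if_true, one_mul]
      have h1 := arw_norm a b lam j
      have h2 := arw_eq_none a b lam j
      have h3 : ∑ k, (lam k - B) * hA.eigenvectorBasis j (some k) ^ 2 =
          (hA.eigenvalues j - B) * ∑ k, hA.eigenvectorBasis j (some k) ^ 2 -
            hA.eigenvectorBasis j none *
              ∑ k, Real.sqrt (b k) * hA.eigenvectorBasis j (some k) := by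
        rw [Finset.mul_sum, Finset.mul_sum, ← Finset.sum_sub_distrib]
        refine Finset.sum_congr rfl fun k _ => ?_
        have h4 := arw_eq_some a b lam j k
        linear_combination (hA.eigenvectorBasis j (some k)) * h4
      rw [h3, h2]
      linear_combination (-(hA.eigenvalues j - B)) * h1
    · rw [max_eq_right (by linarith [not_lt.mp hj])]
      simp [hj]
  have hR : ∀ k, (lam k - B) * ∑ j,
      ((if B < hA.eigenvalues j then 1 else 0) * hA.eigenvectorBasis j (some k) ^ 2) ≤
      max (lam k - B) 0 := by
    intro k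
    have h0 : 0 ≤ ∑ j, ((if B < hA.eigenvalues j then (1:ℝ) else 0) *
        hA.eigenvectorBasis j (some k) ^ 2) :=
      Finset.sum_nonneg fun j _ => by split_ifs <;> positivity
    have h1 : ∑ j, ((if B < hA.eigenvalues j then (1:ℝ) else 0) *
        hA.eigenvectorBasis j (some k) ^ 2) ≤ 1 := by
      refine le_trans (Finset.sum_le_sum fun j _ => ?_) (le_of_eq (arw_rownorm a b lam (some k)))
      split_ifs
      · simp
      · simp only [zero_mul]; positivity
    rcases le_total (lam k - B) 0 with h | h
    · rw [max_eq_right h]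
      exact mul_nonpos_of_nonpos_of_nonneg h h0
    · rw [max_eq_left h]
      calc _ ≤ (lam k - B) * 1 := mul_le_mul_of_nonneg_left h1 h
        _ = _ := mul_one _
  have hsum : arrowTr a b lam (fun x => max (x - B) 0) =
      2 * arrowRho a b lam (fun x => max (x - B) 0) +
        (a + B) * arrowRho a b lam (fun x => if B < x then 1 else 0) +
        ∑ k, (lam k - B) * ∑ j,
          ((if B < hA.eigenvalues j then 1 else 0) * hA.eigenvectorBasis j (some k) ^ 2) := by
    unfold arrowTr arrowRho
    rw [Finset.sum_congr rfl fun j _ => key j, Finset.sum_add_distrib, Finset.sum_add_distrib,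
      ← Finset.mul_sum, ← Finset.mul_sum, Finset.sum_comm]
    congr 1
    exact Finset.sum_congr rfl fun k _ => by rw [Finset.mul_sum]
  rw [hsum]
  have := Finset.sum_le_sum fun k (_ : k ∈ univ) => hR k
  linarith

theorem arrowInc_nonneg (a : ℝ) (b lam : K → ℝ) : 0 ≤ arrowInc a b lam := by
  set hA := arrowMat_isHermitian a b lam with hhA
  unfold arrowInc arrowTr
  rw [sub_nonneg]
  have h1 : ∀ k, max (lam k) 0 ≤
      ∑ j, max (hA.eigenvalues j) 0 * hA.eigenvectorBasis j (some k) ^ 2 := by
    intro k
    apply max_le
    · have h := arw_entry hA (some k) (some k)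
      simp only [arrowMat_some_some, if_true] at h
      rw [← h]
      refine Finset.sum_le_sum fun j _ => ?_
      rw [← sq]
      exact mul_le_mul_of_nonneg_right (le_max_left _ _) (sq_nonneg _)
    · exact Finset.sum_nonneg fun j _ => mul_nonneg (le_max_right _ _) (sq_nonneg _)
  calc ∑ k, max (lam k) 0
      ≤ ∑ k, ∑ j, max (hA.eigenvalues j) 0 * hA.eigenvectorBasis j (some k) ^ 2 :=
        Finset.sum_le_sum fun k _ => h1 k
    _ = ∑ j, max (hA.eigenvalues j) 0 * ∑ k, hA.eigenvectorBasis j (some k) ^ 2 := by
        rw [Finset.sum_comm]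
        exact Finset.sum_congr rfl fun j _ => by rw [Finset.mul_sum]
    _ ≤ ∑ j, max (hA.eigenvalues j) 0 * 1 := by
        refine Finset.sum_le_sum fun j _ => mul_le_mul_of_nonneg_left ?_ (le_max_right _ _)
        have := arw_norm a b lam j
        nlinarith [sq_nonneg (hA.eigenvectorBasis j none)]
    _ = ∑ j, max (hA.eigenvalues j) 0 := by simp

theorem arrowInc_le (a : ℝ) (ha : 0 ≤ a) (b lam : K → ℝ) (hb : ∀ k, 0 ≤ b k) :
    arrowInc a b lam ≤ 2 * arrowM a b lam + a := by
  have h := arrow_tail a b lam hb 0 le_rfl
  simp only [sub_zero, add_zero] at h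
  have h1 : arrowRho a b lam (fun x => if 0 < x then 1 else 0) ≤ 1 := by
    refine le_trans ?_ (le_of_eq (arrowRho_one a b lam))
    unfold arrowRho
    refine Finset.sum_le_sum fun j _ => mul_le_mul_of_nonneg_right ?_ (sq_nonneg _)
    show (if _ then (1:ℝ) else 0) ≤ 1
    split_ifs <;> norm_num
  unfold arrowInc arrowM
  nlinarith

/-- monotonicity in the first diagonal entry -/
theorem arrowInc_anti {a a' : ℝ} (h : a ≤ a') (b lam : K → ℝ) :
    arrowInc a' b lam ≤ arrowInc a b lam := by
  unfold arrowInc arrowTr
  have := arw_posTr_mono (arrowMat_isHermitian a b lam) (arrowMat_isHermitian a' b lam) (by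
    intro w
    simp only [Fintype.sum_option, arrowMat_none_none, arrowMat_none_some, arrowMat_some_none,
      arrowMat_some_some]
    have : w none * -a' * w none ≤ w none * -a * w none := by
      nlinarith [mul_self_nonneg (w none)]
    linarith)
  linarith

end

end Claimed.Agent.R302
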