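/-
R302 / Poly / Mix  (owner: helper165)
Structural lemmas on `pvMix` / `pvPoly` and half-plane stability (paper Q, Lemma 4.2, first half).

PROOF PLAN for stability (simpler than the paper, no Gauss-Lucas, no differential formula):
 induction on the number of sites of `S` whose law is not a point mass.
 * all point masses: `pvMix = det (Z - B_ω)`; a null vector contradicts the imaginary part of the quadratic form.
 * step: `pvMix_cond` at a random site `v`: every conditioned function is affine in `z v` with the same slope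
   `pvMix p B (S.erase v) z ≠ 0` and zero free on the region, so it is `slope * (z v - ζ_j)` with `Im ζ_j ≤ h`;
   the convex combination is `slope * (z v - ∑ p_j ζ_j)`.
-/
import Claimed.Agent.R302.Poly.Defs

set_option autoImplicit false

namespace Claimed.Agent.R302

open Finset Polynomial
open scoped BigOperators ComplexConjugate

noncomputable section

variable {V : Type*} [DecidableEq V] {J : Type*} [Fintype J] [DecidableEq J]

/-- determinant is affine in a diagonal entry, with slope the principal minor -/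
theorem det_add_single_diag {n : Type*} [Fintype n] [DecidableEq n] (M : Matrix n n ℂ) (i : n) (x : ℂ) :
    (M + Matrix.single i i x).det =
      M.det + x * (M.submatrix (Subtype.val : {j // j ≠ i} → n) Subtype.val).det := by
  have h1 : M + Matrix.single i i x = M.updateRow i (M i + x • Pi.single i 1) := by
    ext a b
    by_cases ha : a = i
    · subst ha
      by_cases hb : b = a
      · subst hb; simp [Matrix.updateRow_apply]
      · simp [Matrix.updateRow_apply, Matrix.single_apply, hb, Ne.symm hb]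
    · simp [Matrix.updateRow_apply, Matrix.single_apply, ha, Ne.symm ha]
  rw [h1, Matrix.det_updateRow_add, Matrix.det_updateRow_smul, Matrix.updateRow_eq_self]
  congr 2
  rw [Matrix.twoBlockTriangular_det _ (fun j => j ≠ i)]
  · have h2 : (Matrix.toSquareBlockProp (M.updateRow i (Pi.single i 1)) fun j => ¬ (j ≠ i)).det = 1 := by
      haveI : Unique {j // ¬ (j ≠ i)} := ⟨⟨⟨i, by simp⟩⟩, fun a => Subtype.ext (by simpa using a.2)⟩
      rw [Matrix.det_unique]
      simp [Matrix.toSquareBlockProp, Matrix.updateRow_apply]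
      have : (default : {j // ¬ (j ≠ i)}).1 = i := by simpa using (default : {j // ¬ (j ≠ i)}).2
      simp [this]
    rw [h2, mul_one]
    congr 1
    ext a b
    simp [Matrix.toSquareBlockProp, Matrix.updateRow_apply, a.2]
  · intro a ha b hb
    have : a = i := by simpa using ha
    subst this
    simp [Matrix.updateRow_apply, hb]

/-- outcome matrix along an indexing `ι : n → V` -/
def pvOutT {n : Type*} (ι : n → V) (B : J → V → V → ℂ) (ω : n → J) : Matrix n n ℂ :=
  Matrix.of fun a b => if ω a = ω b then B (ω a) (ι a) (ι b) else 0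

/-- `pvMix` along an indexing `ι : n → V` -/
def pvMixT {n : Type*} [Fintype n] [DecidableEq n] (ι : n → V) (p : V → J → ℝ)
    (B : J → V → V → ℂ) (z : V → ℂ) : ℂ :=
  ∑ ω : n → J, (∏ i, (p (ι i) (ω i) : ℂ)) * (Matrix.diagonal (fun i => z (ι i)) - pvOutT ι B ω).det

theorem pvMix_eq_T (p : V → J → ℝ) (B : J → V → V → ℂ) (S : Finset V) (z : V → ℂ) :
    pvMix p B S z = pvMixT (Subtype.val : S → V) p B z := rfl

theorem pvMixT_equiv {n m : Type*} [Fintype n] [DecidableEq n] [Fintype m] [DecidableEq m]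
    (e : n ≃ m) (ι : m → V) (p : V → J → ℝ) (B : J → V → V → ℂ) (z : V → ℂ) :
    pvMixT (ι ∘ e) p B z = pvMixT ι p B z := by
  unfold pvMixT
  refine Fintype.sum_equiv (e.arrowCongr (Equiv.refl J)) _ _ fun ω => ?_
  congr 1
  · refine Fintype.prod_equiv e _ _ fun i => ?_
    simp [Equiv.arrowCongr]
  · rw [← Matrix.det_submatrix_equiv_self e]
    congr 1
    ext a b
    simp [pvOutT, Matrix.diagonal_apply, Equiv.arrowCongr, Matrix.sub_apply]

theorem pvMixT_split {n : Type*} [Fintype n] [DecidableEq n] (ι : n → V) (hι : Function.Injective ι)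
    (p : V → J → ℝ) (B : J → V → V → ℂ) (z : V → ℂ) (i : n) (hp : ∑ j, p (ι i) j = 1) (x : ℂ) :
    pvMixT ι p B (Function.update z (ι i) x) =
      pvMixT ι p B (Function.update z (ι i) 0) +
        x * pvMixT (fun a : {j // j ≠ i} => ι a) p B z := by
  unfold pvMixT
  have key : ∀ ω : n → J,
      (Matrix.diagonal (fun a => Function.update z (ι i) x (ι a)) - pvOutT ι B ω).det =
        (Matrix.diagonal (fun a => Function.update z (ι i) 0 (ι a)) - pvOutT ι B ω).det +
          x * (Matrix.diagonal (fun a : {j // j ≠ i} => z (ι a)) -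
            pvOutT (fun a : {j // j ≠ i} => ι a) B (fun a => ω a)).det := by
    intro ω
    have h1 : Matrix.diagonal (fun a => Function.update z (ι i) x (ι a)) - pvOutT ι B ω =
        (Matrix.diagonal (fun a => Function.update z (ι i) 0 (ι a)) - pvOutT ι B ω) +
          Matrix.single i i x := by
      ext a b
      by_cases ha : a = i
      · subst ha
        by_cases hb : b = a
        · subst hb; simp; ring
        · simp [Matrix.diagonal_apply, Ne.symm hb, hb]
      · have : ι a ≠ ι i := fun h => ha (hι h)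
        simp [Matrix.diagonal_apply, Function.update_apply, this, ha, Ne.symm ha]
    rw [h1, det_add_single_diag]
    congr 3
    ext a b
    have : ι a.1 ≠ ι i := fun h => a.2 (hι h)
    simp [Matrix.diagonal_apply, pvOutT, Function.update_apply, this, Subtype.ext_iff]
  simp_rw [key, mul_add, Finset.sum_add_distrib]
  congr 1
  rw [Finset.mul_sum, ← (Equiv.funSplitAt i J).symm.sum_comp, Fintype.sum_prod_type, Finset.sum_comm]
  refine Finset.sum_congr rfl fun ω' _ => ?_
  have hw : ∀ j : J, (∏ a, (p (ι a) ((Equiv.funSplitAt i J).symm (j, ω') a) : ℂ)) =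
      (p (ι i) j : ℂ) * ∏ a : {j // j ≠ i}, (p (ι a) (ω' a) : ℂ) := by
    intro j
    rw [Fintype.prod_eq_mul_prod_subtype_ne _ i]
    congr 1
    · simp [Equiv.funSplitAt, Equiv.piSplitAt]
    · refine Finset.prod_congr rfl fun a _ => ?_
      simp [Equiv.funSplitAt, Equiv.piSplitAt, a.2]
  have hm : ∀ j : J, (fun a : {j // j ≠ i} => (Equiv.funSplitAt i J).symm (j, ω') a) = ω' := by
    intro j; ext a; simp [Equiv.funSplitAt, Equiv.piSplitAt, a.2]
  simp_rw [hw, hm]
  have hp' : (∑ j, (p (ι i) j : ℂ)) = 1 := by exact_mod_cast hp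
  generalize (Matrix.diagonal (fun a : {j // j ≠ i} => z (ι a)) -
            pvOutT (fun a : {j // j ≠ i} => ι a) B ω').det = Dt
  generalize (∏ a : {j // j ≠ i}, (p (ι a) (ω' a) : ℂ)) = Wt
  have h3 : ∀ j : J, (p (ι i) j : ℂ) * Wt * (x * Dt) = (p (ι i) j : ℂ) * (Wt * (x * Dt)) := by
    intro j; ring
  simp_rw [h3, ← Finset.sum_mul, hp']
  ring

/-- `↥(S.erase v) ≃ {u : ↥S // u ≠ v}` -/
def eraseEquiv (S : Finset V) (v : V) (hv : v ∈ S) :
    (S.erase v : Finset V) ≃ {j : S // j ≠ ⟨v, hv⟩} where
  toFun a := ⟨⟨a.1, Finset.mem_of_mem_erase a.2⟩, fun h => (Finset.ne_of_mem_erase a.2) (congrArg Subtype.val h)⟩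
  invFun a := ⟨a.1.1, Finset.mem_erase.2 ⟨fun h => a.2 (Subtype.ext h), a.1.2⟩⟩
  left_inv _ := rfl
  right_inv _ := rfl

theorem pvMix_empty (p : V → J → ℝ) (B : J → V → V → ℂ) (z : V → ℂ) : pvMix p B ∅ z = 1 := by
  simp [pvMix, pvWt]

theorem pvMix_congr {p p' : V → J → ℝ} {B B' : J → V → V → ℂ} {S : Finset V} {z z' : V → ℂ}
    (hp : ∀ v ∈ S, p v = p' v) (hB : ∀ j, ∀ u ∈ S, ∀ v ∈ S, B j u v = B' j u v)
    (hz : ∀ v ∈ S, z v = z' v) : pvMix p B S z = pvMix p' B' S z' := by
  unfold pvMix pvWt
  refine Finset.sum_congr rfl fun ω _ => ?_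
  congr 1
  · exact Finset.prod_congr rfl fun v _ => by rw [hp v v.2]
  · congr 1
    ext a b
    simp only [Matrix.sub_apply, Matrix.diagonal_apply, pvOutMat, Matrix.of_apply]
    rw [hz a a.2, hB _ a a.2 b b.2]

theorem pvMix_update_z (p : V → J → ℝ) (B : J → V → V → ℂ) {S : Finset V} (z : V → ℂ) {v : V}
    (hv : v ∈ S) (hp : ∑ j, p v j = 1) (x : ℂ) :
    pvMix p B S (Function.update z v x) =
      pvMix p B S (Function.update z v 0) + x * pvMix p B (S.erase v) z := by
  have h := pvMixT_split (Subtype.val : S → V) Subtype.val_injective p B z ⟨v, hv⟩ hp x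
  have h2 := pvMixT_equiv (eraseEquiv S v hv) (fun a : {j : S // j ≠ ⟨v, hv⟩} => (a.1.1 : V)) p B z
  rw [pvMix_eq_T, pvMix_eq_T, pvMix_eq_T, h, ← h2]
  rfl

theorem pvMix_update_add (p : V → J → ℝ) (B : J → V → V → ℂ) {S : Finset V} (z : V → ℂ) {v : V}
    (hv : v ∈ S) (hp : ∑ j, p v j = 1) (x : ℂ) :
    pvMix p B S (Function.update z v (z v + x)) = pvMix p B S z + x * pvMix p B (S.erase v) z := by
  have h1 := pvMix_update_z p B z hv hp (z v + x)
  have h2 := pvMix_update_z p B z hv hp (z v)
  rw [Function.update_eq_self] at h2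
  rw [h1, h2]; ring

theorem pvWt_split (p : V → J → ℝ) {S : Finset V} {v : V} (hv : v ∈ S) (ω : S → J) :
    pvWt p S ω = (p v (ω ⟨v, hv⟩) : ℂ) * ∏ u ∈ (univ : Finset S).erase ⟨v, hv⟩, (p u (ω u) : ℂ) := by
  unfold pvWt
  rw [← Finset.mul_prod_erase univ _ (Finset.mem_univ (⟨v, hv⟩ : S))]

theorem pvMix_cond (p : V → J → ℝ) (B : J → V → V → ℂ) {S : Finset V} (z : V → ℂ) {v : V}
    (hv : v ∈ S) :
    pvMix p B S z = ∑ j, (p v j : ℂ) * pvMix (Function.update p v (Pi.single j 1)) B S z := by
  unfold pvMix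
  simp_rw [Finset.mul_sum]
  rw [Finset.sum_comm]
  refine Finset.sum_congr rfl fun ω _ => ?_
  simp_rw [← mul_assoc, ← Finset.sum_mul]
  congr 1
  rw [pvWt_split p hv]
  have : ∀ j : J, pvWt (Function.update p v (Pi.single j 1)) S ω =
      (if ω ⟨v, hv⟩ = j then 1 else 0) * ∏ u ∈ (univ : Finset S).erase ⟨v, hv⟩, (p u (ω u) : ℂ) := by
    intro j
    rw [pvWt_split _ hv]
    congr 1
    · simp only [Function.update_self, Pi.single_apply]; split_ifs <;> simp
    · refine Finset.prod_congr rfl fun u hu => ?_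
      have : (u : V) ≠ v := fun h => (Finset.ne_of_mem_erase hu) (Subtype.ext h)
      simp [Function.update_apply, this]
  simp_rw [this, ← mul_assoc, ← Finset.sum_mul]
  congr 1
  simp

theorem pvMix_det (p : V → J → ℝ) (B : J → V → V → ℂ) (S : Finset V) (z : V → ℂ) (ω₀ : V → J)
    (hp : ∀ v ∈ S, p v = Pi.single (ω₀ v) 1) :
    pvMix p B S z =
      (Matrix.diagonal (fun v : S => z v) - pvOutMat B S (fun v => ω₀ v)).det := by
  unfold pvMix
  rw [Finset.sum_eq_single (fun v : S => ω₀ v)]
  · have : pvWt p S (fun v : S => ω₀ v) = 1 := by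
      unfold pvWt
      refine Finset.prod_eq_one fun v _ => ?_
      rw [hp v v.2]; simp
    rw [this, one_mul]
  · intro ω _ hω
    have : ∃ v : S, ω v ≠ ω₀ v := by
      by_contra hcon
      exact hω (funext fun v => by_contra fun h => hcon ⟨v, h⟩)
    obtain ⟨v, hv⟩ := this
    have : pvWt p S ω = 0 := by
      unfold pvWt
      refine Finset.prod_eq_zero (Finset.mem_univ v) ?_
      rw [hp v v.2]; simp [Pi.single_apply, hv]
    rw [this, zero_mul]
  · intro h; exact absurd (Finset.mem_univ _) h

theorem pvMix_scale (p : V → J → ℝ) (B : J → V → V → ℂ) (S : Finset V) (z : V → ℂ) (s t : V → ℂ) :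
    pvMix p (fun j u v => s u * B j u v * t v) S (fun v => s v * z v * t v) =
      (∏ v ∈ S, s v * t v) * pvMix p B S z := by
  unfold pvMix
  rw [Finset.mul_sum]
  refine Finset.sum_congr rfl fun ω _ => ?_
  have : (Matrix.diagonal (fun v : S => s v * z v * t v) -
      pvOutMat (fun j u v => s u * B j u v * t v) S ω) =
      Matrix.diagonal (fun v : S => s v) * (Matrix.diagonal (fun v : S => z v) - pvOutMat B S ω) *
        Matrix.diagonal (fun v : S => t v) := by
    ext a b
    rw [Matrix.mul_diagonal, Matrix.diagonal_mul]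
    by_cases hab : a = b
    · subst hab; simp [pvOutMat]; ring
    · simp [pvOutMat, Matrix.diagonal_apply, hab]
  rw [this, Matrix.det_mul, Matrix.det_mul, Matrix.det_diagonal, Matrix.det_diagonal,
    Finset.prod_mul_distrib, ← Finset.prod_coe_sort S s, ← Finset.prod_coe_sort S t]
  ring

theorem pvMix_relabel (p : V → J → ℝ) (B : J → V → V → ℂ) (S : Finset V) (z : V → ℂ)
    (e : Equiv.Perm J) :
    pvMix (fun v j => p v (e j)) (fun j => B (e j)) S z = pvMix p B S z := by
  unfold pvMix
  refine Fintype.sum_equiv ((Equiv.refl S).arrowCongr e) _ _ fun ω => ?_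
  congr 1
  congr 1
  ext a b
  simp [pvOutMat, Equiv.arrowCongr]

theorem pvMixT_sum {n m : Type*} [Fintype n] [DecidableEq n] [Fintype m] [DecidableEq m]
    (ι₁ : n → V) (ι₂ : m → V) (p : V → J → ℝ) (B : J → V → V → ℂ) (z : V → ℂ)
    (h : ∀ j a b, B j (ι₁ a) (ι₂ b) = 0 ∧ B j (ι₂ b) (ι₁ a) = 0) :
    pvMixT (Sum.elim ι₁ ι₂) p B z = pvMixT ι₁ p B z * pvMixT ι₂ p B z := by
  unfold pvMixT
  rw [Finset.sum_mul_sum, ← (Equiv.sumArrowEquivProdArrow n m J).symm.sum_comp, Fintype.sum_prod_type]
  refine Finset.sum_congr rfl fun ω₁ _ => Finset.sum_congr rfl fun ω₂ _ => ?_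
  have hd : (Matrix.diagonal (fun i => z (Sum.elim ι₁ ι₂ i)) -
      pvOutT (Sum.elim ι₁ ι₂) B ((Equiv.sumArrowEquivProdArrow n m J).symm (ω₁, ω₂))) =
      Matrix.fromBlocks (Matrix.diagonal (fun i => z (ι₁ i)) - pvOutT ι₁ B ω₁) 0 0
        (Matrix.diagonal (fun i => z (ι₂ i)) - pvOutT ι₂ B ω₂) := by
    ext a b
    rcases a with a | a <;> rcases b with b | b
    · by_cases hh : ω₁ a = ω₁ b <;>
        simp [pvOutT, Matrix.diagonal_apply, Equiv.sumArrowEquivProdArrow, hh]
    · simp [pvOutT, Equiv.sumArrowEquivProdArrow, (h _ _ _).1]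
    · simp [pvOutT, Equiv.sumArrowEquivProdArrow, (h _ _ _).2]
    · by_cases hh : ω₂ a = ω₂ b <;>
        simp [pvOutT, Matrix.diagonal_apply, Equiv.sumArrowEquivProdArrow, hh]
  rw [hd, Matrix.det_fromBlocks_zero₂₁, Fintype.prod_sum_type]
  simp only [Equiv.sumArrowEquivProdArrow, Equiv.coe_fn_symm_mk, Sum.elim_inl, Sum.elim_inr]
  ring

theorem pvMix_union (p : V → J → ℝ) (B : J → V → V → ℂ) {S₁ S₂ : Finset V} (z : V → ℂ)
    (hd : Disjoint S₁ S₂) (h : ∀ j, ∀ u ∈ S₁, ∀ v ∈ S₂, B j u v = 0 ∧ B j v u = 0) :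
    pvMix p B (S₁ ∪ S₂) z = pvMix p B S₁ z * pvMix p B S₂ z := by
  rw [pvMix_eq_T, pvMix_eq_T, pvMix_eq_T,
    ← pvMixT_sum (Subtype.val : S₁ → V) (Subtype.val : S₂ → V) p B z (fun j a b => h j a a.2 b b.2),
    ← pvMixT_equiv (Equiv.Finset.union S₁ S₂ hd)]
  congr 1
  ext a
  rcases a with a | a <;> simp

theorem pvMix_add_aux (p : V → J → ℝ) (B : J → V → V → ℂ) (h : V → ℂ) (A : Finset V) :
    ∀ (S : Finset V) (z : V → ℂ), A ⊆ S → (∀ v ∈ S, ∑ j, p v j = 1) →
      pvMix p B S (fun v => if v ∈ A then z v + h v else z v) =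
        ∑ R ∈ A.powerset, (∏ v ∈ R, h v) * pvMix p B (S \ R) z := by
  induction A using Finset.induction_on with
  | empty => intro S z _ _; simp
  | insert a A ha ih =>
    intro S z hAS hp
    have haS : a ∈ S := hAS (Finset.mem_insert_self _ _)
    have hAS' : A ⊆ S := fun x hx => hAS (Finset.mem_insert_of_mem hx)
    have h1 : (fun v => if v ∈ insert a A then z v + h v else z v) =
        Function.update (fun v => if v ∈ A then z v + h v else z v) a
          ((fun v => if v ∈ A then z v + h v else z v) a + h a) := by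
      ext v
      by_cases hva : v = a
      · subst hva; simp [ha]
      · simp [Function.update_apply, hva]
    rw [h1, pvMix_update_add p B _ haS (hp a haS), ih S z hAS' hp,
      ih (S.erase a) z (fun x hx => Finset.mem_erase.2 ⟨fun hxa => ha (hxa ▸ hx), hAS' hx⟩)
        (fun v hv => hp v (Finset.mem_of_mem_erase hv)),
      Finset.sum_powerset_insert ha, Finset.mul_sum]
    congr 1
    refine Finset.sum_congr rfl fun R hR => ?_
    have haR : a ∉ R := fun hh => ha (Finset.mem_powerset.1 hR hh)
    rw [Finset.prod_insert haR]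
    have : S.erase a \ R = S \ insert a R := by
      ext x; simp only [Finset.mem_sdiff, Finset.mem_erase, Finset.mem_insert]; tauto
    rw [this]; ring

theorem pvMix_add (p : V → J → ℝ) (B : J → V → V → ℂ) (S : Finset V) (z h : V → ℂ)
    (hp : ∀ v ∈ S, ∑ j, p v j = 1) :
    pvMix p B S (z + h) = ∑ R ∈ S.powerset, (∏ v ∈ R, h v) * pvMix p B (S \ R) z := by
  rw [← pvMix_add_aux p B h S S z (Finset.Subset.refl _) hp]
  exact pvMix_congr (fun _ _ => rfl) (fun _ _ _ _ _ => rfl) (fun v hv => by simp [hv])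

theorem PvImLe.mono {B : J → V → V → ℂ} {S S' : Finset V} {h : ℝ} (hB : PvImLe B S h)
    (hS : S' ⊆ S) : PvImLe B S' h := by
  intro j x
  have := hB j (fun v => if v ∈ S' then x v else 0)
  have e1 : (∑ u ∈ S, ∑ v ∈ S, conj ((fun v => if v ∈ S' then x v else 0) u) * B j u v *
      (fun v => if v ∈ S' then x v else 0) v) = ∑ u ∈ S', ∑ v ∈ S', conj (x u) * B j u v * x v := by
    rw [← Finset.sum_subset hS]
    · refine Finset.sum_congr rfl fun u hu => ?_
      rw [← Finset.sum_subset hS]
      · refine Finset.sum_congr rfl fun v hv => ?_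
        simp [hu, hv]
      · intro v _ hv; simp [hv]
    · intro u _ hu; simp [hu]
  have e2 : (∑ u ∈ S, ‖(fun v => if v ∈ S' then x v else 0) u‖ ^ 2) = ∑ u ∈ S', ‖x u‖ ^ 2 := by
    rw [← Finset.sum_subset hS]
    · refine Finset.sum_congr rfl fun u hu => ?_
      simp [hu]
    · intro u _ hu; simp [hu]
  rw [e1, e2] at this
  exact this

theorem pvOut_det_ne_zero {B : J → V → V → ℂ} {S : Finset V} (ω : S → J) {z : V → ℂ} {h : ℝ}
    (hB : PvImLe B S h) (hz : ∀ v ∈ S, h < (z v).im) :
    (Matrix.diagonal (fun v : S => z v) - pvOutMat B S ω).det ≠ 0 := by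
  intro hdet
  obtain ⟨x, hx0, hx⟩ := Matrix.exists_mulVec_eq_zero_iff.mpr hdet
  -- the quadratic form
  have hq : ∑ a : S, conj (x a) * (z a * x a) =
      ∑ a : S, ∑ b : S, conj (x a) * pvOutMat B S ω a b * x b := by
    have h0 : ∀ a : S, conj (x a) * ((Matrix.diagonal (fun v : S => z v) - pvOutMat B S ω).mulVec x a) = 0 := by
      intro a; rw [hx]; simp
    have h1 : ∀ a : S, conj (x a) * (z a * x a) - ∑ b : S, conj (x a) * pvOutMat B S ω a b * x b = 0 := by
      intro a
      rw [← h0 a, Matrix.sub_mulVec, Pi.sub_apply, Matrix.mulVec_diagonal, mul_sub]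
      congr 1
      simp only [Matrix.mulVec, dotProduct, Finset.mul_sum, mul_assoc]
    have h2 := Finset.sum_eq_zero (s := (univ : Finset S)) (fun a _ => h1 a)
    rw [Finset.sum_sub_distrib] at h2
    exact sub_eq_zero.mp h2
  -- extension of the pieces of x
  let X : J → V → ℂ := fun j v => if hv : v ∈ S then (if ω ⟨v, hv⟩ = j then x ⟨v, hv⟩ else 0) else 0
  have hX : ∀ j (a : S), X j a = if ω a = j then x a else 0 := by
    intro j a; simp [X, a.2]
  have hsum : ∑ a : S, ∑ b : S, conj (x a) * pvOutMat B S ω a b * x b =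
      ∑ j, ∑ u ∈ S, ∑ v ∈ S, conj (X j u) * B j u v * X j v := by
    have : ∀ j, ∑ u ∈ S, ∑ v ∈ S, conj (X j u) * B j u v * X j v =
        ∑ a : S, ∑ b : S, conj (X j a) * B j a b * X j b := by
      intro j
      rw [← Finset.sum_coe_sort S (fun u => ∑ v ∈ S, conj (X j u) * B j u v * X j v)]
      refine Finset.sum_congr rfl fun a _ => ?_
      rw [← Finset.sum_coe_sort S (fun v => conj (X j a) * B j a v * X j v)]
    simp_rw [this]
    conv_rhs => rw [Finset.sum_comm]
    refine Finset.sum_congr rfl fun a _ => ?_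
    conv_rhs => rw [Finset.sum_comm]
    refine Finset.sum_congr rfl fun b _ => ?_
    simp_rw [hX]
    rw [Finset.sum_eq_single (ω a)]
    · by_cases hab : ω a = ω b
      · simp [pvOutMat, hab]
      · simp [pvOutMat, hab, Ne.symm hab]
    · intro j _ hj; simp [Ne.symm hj]
    · intro hh; exact absurd (Finset.mem_univ _) hh
  have hnorm : ∑ j, ∑ u ∈ S, ‖X j u‖ ^ 2 = ∑ a : S, ‖x a‖ ^ 2 := by
    have : ∀ j, ∑ u ∈ S, ‖X j u‖ ^ 2 = ∑ a : S, ‖X j a‖ ^ 2 := by
      intro j; rw [← Finset.sum_coe_sort S (fun u => ‖X j u‖ ^ 2)]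
    simp_rw [this]
    rw [Finset.sum_comm]
    refine Finset.sum_congr rfl fun a _ => ?_
    simp_rw [hX]
    rw [Finset.sum_eq_single (ω a)]
    · simp
    · intro j _ hj; simp [Ne.symm hj]
    · intro hh; exact absurd (Finset.mem_univ _) hh
  have him : (∑ a : S, conj (x a) * (z a * x a)).im ≤ h * ∑ a : S, ‖x a‖ ^ 2 := by
    rw [hq, hsum, Complex.im_sum, ← hnorm, Finset.mul_sum]
    exact Finset.sum_le_sum fun j _ => hB j (X j)
  have him2 : (∑ a : S, conj (x a) * (z a * x a)).im = ∑ a : S, (z a).im * ‖x a‖ ^ 2 := by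
    rw [Complex.im_sum]
    refine Finset.sum_congr rfl fun a _ => ?_
    have : conj (x a) * (z a * x a) = z a * ((‖x a‖ ^ 2 : ℝ) : ℂ) := by
      push_cast
      rw [← Complex.conj_mul' (x a)]; ring
    rw [this, Complex.im_mul_ofReal]
  rw [him2, Finset.mul_sum] at him
  obtain ⟨a₀, ha₀⟩ : ∃ a, x a ≠ 0 := by
    by_contra hcon
    exact hx0 (funext fun a => by_contra fun hh => hcon ⟨a, hh⟩)
  have hlt : ∑ a : S, h * ‖x a‖ ^ 2 < ∑ a : S, (z a).im * ‖x a‖ ^ 2 := by
    refine Finset.sum_lt_sum (fun a _ => ?_) ⟨a₀, Finset.mem_univ _, ?_⟩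
    · exact mul_le_mul_of_nonneg_right (hz a a.2).le (by positivity)
    · exact mul_lt_mul_of_pos_right (hz a₀ a₀.2) (by positivity)
  exact absurd him (not_le.mpr hlt)

theorem PvProb.mono {p : V → J → ℝ} {S S' : Finset V} (hp : PvProb p S) (hS : S' ⊆ S) :
    PvProb p S' := fun v hv => hp v (hS hv)

theorem PvProb.update {p : V → J → ℝ} {S : Finset V} (hp : PvProb p S) (v : V) (j : J) :
    PvProb (Function.update p v (Pi.single j 1)) S := by
  intro u hu
  by_cases huv : u = v
  · subst huv
    simp only [Function.update_self]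
    refine ⟨fun i => ?_, by simp⟩
    by_cases hij : i = j
    · subst hij; simp
    · simp [Pi.single_apply, hij]
  · simpa [Function.update_apply, huv] using hp u hu

open Classical in
/-- the sites of `S` whose law is not a point mass -/
def pvRnd (p : V → J → ℝ) (S : Finset V) : Finset V := S.filter fun v => ¬ ∃ j, p v = Pi.single j 1

theorem affine_root_im {c s : ℂ} (hs : s ≠ 0) {h : ℝ} (hnz : ∀ x : ℂ, h < x.im → c + x * s ≠ 0) :
    (-c / s).im ≤ h := by
  by_contra hcon
  refine hnz (-c / s) (not_le.mp hcon) ?_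
  field_simp
  ring

theorem pvMix_ne_zero_aux {B : J → V → V → ℂ} {h : ℝ} (n : ℕ) :
    ∀ (p : V → J → ℝ) (S : Finset V), (pvRnd p S).card = n → PvProb p S → PvImLe B S h →
      ∀ z : V → ℂ, (∀ v ∈ S, h < (z v).im) → pvMix p B S z ≠ 0 := by
  induction n using Nat.strong_induction_on with
  | _ n ih =>
    intro p S hn hp hB z hz
    by_cases hemp : pvRnd p S = ∅
    · -- deterministic
      have hdet : ∀ v ∈ S, ∃ j, p v = Pi.single j 1 := by
        intro v hv
        by_contra hcon
        have : v ∈ pvRnd p S := by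
          unfold pvRnd
          exact Finset.mem_filter.2 ⟨hv, hcon⟩
        rw [hemp] at this
        exact absurd this (Finset.notMem_empty _)
      by_cases hS : S = ∅
      · subst hS; simp [pvMix, pvWt]
      obtain ⟨v₀, hv₀⟩ := Finset.nonempty_iff_ne_empty.2 hS
      obtain ⟨j₀, -⟩ := hdet v₀ hv₀
      let ω₀ : V → J := fun v => if hv : v ∈ S then (hdet v hv).choose else j₀
      have hω₀ : ∀ v ∈ S, p v = Pi.single (ω₀ v) 1 := by
        intro v hv
        simp only [ω₀, hv, dif_pos]
        exact (hdet v hv).choose_spec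
      rw [pvMix_det p B S z ω₀ hω₀]
      exact pvOut_det_ne_zero _ hB hz
    · obtain ⟨v, hv⟩ := Finset.nonempty_iff_ne_empty.2 hemp
      have hvS : v ∈ S := by
        unfold pvRnd at hv
        exact (Finset.mem_filter.1 hv).1
      have hcard : ((pvRnd p S).erase v).card < n := by
        rw [← hn]; exact Finset.card_erase_lt_of_mem hv
      -- slope
      have hr1 : pvRnd p (S.erase v) = (pvRnd p S).erase v := by
        unfold pvRnd
        ext u
        simp only [Finset.mem_filter, Finset.mem_erase]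
        tauto
      have hs : pvMix p B (S.erase v) z ≠ 0 :=
        ih _ hcard p (S.erase v) (congrArg Finset.card hr1) (hp.mono (Finset.erase_subset _ _))
          (hB.mono (Finset.erase_subset _ _)) z (fun u hu => hz u (Finset.mem_of_mem_erase hu))
      set s := pvMix p B (S.erase v) z with hsdef
      have hr2 : ∀ j, pvRnd (Function.update p v (Pi.single j 1)) S = (pvRnd p S).erase v := by
        intro j
        unfold pvRnd
        ext u
        simp only [Finset.mem_filter, Finset.mem_erase]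
        by_cases huv : u = v
        · subst huv
          simp only [Function.update_self, ne_eq, not_true_eq_false, false_and, iff_false, not_and,
            not_not]
          exact fun _ => ⟨j, rfl⟩
        · simp [Function.update_apply, huv]
      have hsj : ∀ j, pvMix (Function.update p v (Pi.single j 1)) B (S.erase v) z = s := by
        intro j
        refine pvMix_congr (fun u hu => ?_) (fun _ _ _ _ _ => rfl) (fun _ _ => rfl)
        simp [Function.update_apply, Finset.ne_of_mem_erase hu]
      have hone : ∀ j : J, ∑ i, (Function.update p v (Pi.single j 1)) v i = 1 := by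
        intro j; simp
      let c : J → ℂ := fun j => pvMix (Function.update p v (Pi.single j 1)) B S (Function.update z v 0)
      have hζ : ∀ j, (-(c j) / s).im ≤ h := by
        intro j
        refine affine_root_im hs fun x hx => ?_
        have := pvMix_update_z (Function.update p v (Pi.single j 1)) B z hvS (hone j) x
        rw [hsj j] at this
        rw [← this]
        refine ih _ hcard _ S (congrArg Finset.card (hr2 j)) (hp.update v j) hB _ fun u hu => ?_
        by_cases huv : u = v
        · subst huv; simpa using hx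
        · simpa [Function.update_apply, huv] using hz u hu
      have hval : ∀ j, pvMix (Function.update p v (Pi.single j 1)) B S z = c j + z v * s := by
        intro j
        have := pvMix_update_z (Function.update p v (Pi.single j 1)) B z hvS (hone j) (z v)
        rw [hsj j, Function.update_eq_self] at this
        exact this
      rw [pvMix_cond p B z hvS]
      simp_rw [hval]
      have hp1 : (∑ j, (p v j : ℂ)) = 1 := by exact_mod_cast (hp v hvS).2
      have hfac : ∑ j, (p v j : ℂ) * (c j + z v * s) = s * (z v - ∑ j, (p v j : ℂ) * (-(c j) / s)) := by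
        have : ∀ j, (p v j : ℂ) * (c j + z v * s) = s * ((p v j : ℂ) * z v - (p v j : ℂ) * (-(c j) / s)) := by
          intro j; field_simp; ring
        simp_rw [this]
        rw [← Finset.mul_sum, Finset.sum_sub_distrib, ← Finset.sum_mul, hp1, one_mul]
      rw [hfac]
      refine mul_ne_zero hs fun h0 => ?_
      have him : (z v - ∑ j, (p v j : ℂ) * (-(c j) / s)).im = 0 := by rw [h0]; simp
      rw [Complex.sub_im, Complex.im_sum] at him
      have hle : ∑ j, ((p v j : ℂ) * (-(c j) / s)).im ≤ h := by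
        calc ∑ j, ((p v j : ℂ) * (-(c j) / s)).im = ∑ j, p v j * (-(c j) / s).im := by
              refine Finset.sum_congr rfl fun j _ => ?_
              rw [Complex.im_ofReal_mul]
          _ ≤ ∑ j, p v j * h :=
              Finset.sum_le_sum fun j _ => mul_le_mul_of_nonneg_left (hζ j) ((hp v hvS).1 j)
          _ = h := by rw [← Finset.sum_mul, (hp v hvS).2, one_mul]
      have := hz v hvS
      linarith

theorem pvMix_ne_zero {p : V → J → ℝ} {B : J → V → V → ℂ} {S : Finset V} {z : V → ℂ} {h : ℝ}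
    (hp : PvProb p S) (hB : PvImLe B S h) (hz : ∀ v ∈ S, h < (z v).im) : pvMix p B S z ≠ 0 :=
  pvMix_ne_zero_aux _ p S rfl hp hB z hz

theorem pvMix_quot_im {p : V → J → ℝ} {B : J → V → V → ℂ} {S : Finset V} {z : V → ℂ} {h : ℝ}
    (hp : PvProb p S) (hB : PvImLe B S h) (hz : ∀ v ∈ S, h < (z v).im) {v : V} (hv : v ∈ S) :
    (z v).im - h ≤ (pvMix p B S z / pvMix p B (S.erase v) z).im := by
  have hs : pvMix p B (S.erase v) z ≠ 0 :=
    pvMix_ne_zero (hp.mono (Finset.erase_subset _ _)) (hB.mono (Finset.erase_subset _ _))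
      (fun u hu => hz u (Finset.mem_of_mem_erase hu))
  have hζ : (-(pvMix p B S (Function.update z v 0)) / pvMix p B (S.erase v) z).im ≤ h := by
    refine affine_root_im hs fun x hx => ?_
    rw [← pvMix_update_z p B z hv (hp v hv).2 x]
    refine pvMix_ne_zero hp hB fun u hu => ?_
    by_cases huv : u = v
    · subst huv; simpa using hx
    · simpa [Function.update_apply, huv] using hz u hu
  have h1 := pvMix_update_z p B z hv (hp v hv).2 (z v)
  rw [Function.update_eq_self] at h1
  have h2 : pvMix p B S z / pvMix p B (S.erase v) z =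
      z v - (-(pvMix p B S (Function.update z v 0)) / pvMix p B (S.erase v) z) := by
    rw [h1]; field_simp; ring
  rw [h2, Complex.sub_im]
  linarith

theorem pvPoly_eval (p : V → J → ℝ) (B : J → V → V → ℂ) (S : Finset V) (x : ℂ) :
    (pvPoly p B S).eval x = pvMix p B S (fun _ => x) := by
  unfold pvPoly pvMix
  rw [Polynomial.eval_finset_sum]
  refine Finset.sum_congr rfl fun ω _ => ?_
  rw [Polynomial.eval_mul, Polynomial.eval_C, Matrix.eval_charpoly]
  rfl

theorem pvWt_sum {p : V → J → ℝ} {S : Finset V} (hp : ∀ v ∈ S, ∑ j, p v j = 1) :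
    ∑ ω : S → J, pvWt p S ω = 1 := by
  unfold pvWt
  have := (Finset.prod_univ_sum (fun _ : S => (univ : Finset J)) (fun (v : S) j => (p v j : ℂ))).symm
  rw [Fintype.piFinset_univ] at this
  rw [this]
  refine Finset.prod_eq_one fun v _ => ?_
  exact_mod_cast hp v v.2

theorem pvPoly_natDegree_le (p : V → J → ℝ) (B : J → V → V → ℂ) (S : Finset V) :
    (pvPoly p B S).natDegree ≤ S.card := by
  unfold pvPoly
  refine Polynomial.natDegree_sum_le_of_forall_le _ _ fun ω _ => ?_
  refine (Polynomial.natDegree_C_mul_le _ _).trans ?_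
  rw [Matrix.charpoly_natDegree_eq_dim]
  simp

theorem pvPoly_coeff_card {p : V → J → ℝ} (B : J → V → V → ℂ) {S : Finset V}
    (hp : ∀ v ∈ S, ∑ j, p v j = 1) : (pvPoly p B S).coeff S.card = 1 := by
  unfold pvPoly
  rw [Polynomial.finset_sum_coeff, ← pvWt_sum hp]
  refine Finset.sum_congr rfl fun ω _ => ?_
  rw [Polynomial.coeff_C_mul]
  have h1 : (pvOutMat B S ω).charpoly.natDegree = S.card := by
    rw [Matrix.charpoly_natDegree_eq_dim]; simp
  have h2 := (Matrix.charpoly_monic (pvOutMat B S ω)).coeff_natDegree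
  rw [h1] at h2
  rw [h2, mul_one]

theorem pvPoly_monic {p : V → J → ℝ} (B : J → V → V → ℂ) {S : Finset V}
    (hp : ∀ v ∈ S, ∑ j, p v j = 1) : (pvPoly p B S).Monic :=
  Polynomial.monic_of_natDegree_le_of_coeff_eq_one _ (pvPoly_natDegree_le p B S)
    (pvPoly_coeff_card B hp)

theorem pvPoly_natDegree {p : V → J → ℝ} (B : J → V → V → ℂ) {S : Finset V}
    (hp : ∀ v ∈ S, ∑ j, p v j = 1) : (pvPoly p B S).natDegree = S.card :=
  Polynomial.natDegree_eq_of_le_of_coeff_ne_zero (pvPoly_natDegree_le p B S)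
    (by rw [pvPoly_coeff_card B hp]; exact one_ne_zero)

theorem pvOutMat_isHermitian {B : J → V → V → ℂ} (hB : PvHerm B) (S : Finset V) (ω : S → J) :
    (pvOutMat B S ω).IsHermitian := by
  ext a b
  simp only [Matrix.conjTranspose_apply, pvOutMat, Matrix.of_apply]
  by_cases hab : ω a = ω b
  · rw [if_pos hab, if_pos hab.symm, hB (ω a) a b, hab]; rfl
  · rw [if_neg hab, if_neg (Ne.symm hab)]; simp

theorem pvPoly_conj {p : V → J → ℝ} {B : J → V → V → ℂ} (S : Finset V) (hB : PvHerm B) (z : ℂ) :
    (pvPoly p B S).eval (conj z) = conj ((pvPoly p B S).eval z) := by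
  rw [pvPoly_eval, pvPoly_eval]
  unfold pvMix
  rw [map_sum]
  refine Finset.sum_congr rfl fun ω _ => ?_
  rw [map_mul]
  congr 1
  · unfold pvWt
    rw [map_prod]
    exact Finset.prod_congr rfl fun v _ => (Complex.conj_ofReal _).symm
  · have : (Matrix.diagonal (fun _ : S => conj z) - pvOutMat B S ω) =
        (Matrix.diagonal (fun _ : S => z) - pvOutMat B S ω).conjTranspose := by
      rw [Matrix.conjTranspose_sub, (pvOutMat_isHermitian hB S ω).eq, Matrix.diagonal_conjTranspose]
      rfl
    rw [this, Matrix.det_conjTranspose]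
    rfl

theorem PvHerm.imLe {B : J → V → V → ℂ} (hB : PvHerm B) (S : Finset V) : PvImLe B S 0 := by
  intro j x
  have : conj (∑ u ∈ S, ∑ v ∈ S, conj (x u) * B j u v * x v) =
      ∑ u ∈ S, ∑ v ∈ S, conj (x u) * B j u v * x v := by
    rw [map_sum]
    simp_rw [map_sum]
    rw [Finset.sum_comm]
    refine Finset.sum_congr rfl fun u _ => Finset.sum_congr rfl fun v _ => ?_
    rw [map_mul, map_mul, Complex.conj_conj, ← hB j u v]
    ring
  have him := Complex.conj_eq_iff_im.mp this
  rw [him]; simp

theorem pvPoly_roots_real {p : V → J → ℝ} {B : J → V → V → ℂ} {S : Finset V}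
    (hp : PvProb p S) (hB : PvHerm B) : ∀ x ∈ (pvPoly p B S).roots, x.im = 0 := by
  intro x hx
  have hroot : (pvPoly p B S).eval x = 0 := (Polynomial.mem_roots'.mp hx).2
  by_contra him
  rcases lt_or_gt_of_ne him with hneg | hpos
  · have h2 : (pvPoly p B S).eval (conj x) = 0 := by rw [pvPoly_conj S hB, hroot]; simp
    rw [pvPoly_eval] at h2
    exact pvMix_ne_zero hp (hB.imLe S) (fun v _ => by simpa using hneg) h2
  · rw [pvPoly_eval] at hroot
    exact pvMix_ne_zero hp (hB.imLe S) (fun v _ => hpos) hroot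

theorem pvPoly_derivative {p : V → J → ℝ} (B : J → V → V → ℂ) {S : Finset V}
    (hp : ∀ v ∈ S, ∑ j, p v j = 1) :
    derivative (pvPoly p B S) = ∑ v ∈ S, pvPoly p B (S.erase v) := by
  refine Polynomial.funext fun x => ?_
  have ht : Polynomial.taylor x (pvPoly p B S) =
      ∑ R ∈ S.powerset, C (pvMix p B (S \ R) fun _ => x) * X ^ R.card := by
    refine Polynomial.funext fun h => ?_
    rw [Polynomial.taylor_eval, pvPoly_eval, Polynomial.eval_finsetSum]
    have := pvMix_add p B S (fun _ => x) (fun _ => h) hp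
    have e : ((fun _ => x) + fun _ => h : V → ℂ) = fun _ => h + x := by ext; simp [add_comm]
    rw [e] at this
    rw [this]
    refine Finset.sum_congr rfl fun R _ => ?_
    rw [Finset.prod_const, Polynomial.eval_mul, Polynomial.eval_C, Polynomial.eval_pow,
      Polynomial.eval_X, mul_comm]
  have h1 : (Polynomial.taylor x (pvPoly p B S)).coeff 1 = (derivative (pvPoly p B S)).eval x :=
    Polynomial.taylor_coeff_one _ _
  rw [← h1, ht, Polynomial.finsetSum_coeff, Polynomial.eval_finsetSum]
  simp_rw [Polynomial.coeff_C_mul, Polynomial.coeff_X_pow, pvPoly_eval]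
  have h2 : ∀ R ∈ S.powerset, (pvMix p B (S \ R) fun _ => x) * (if 1 = R.card then 1 else 0) =
      if R.card = 1 then (pvMix p B (S \ R) fun _ => x) else 0 := by
    intro R _
    by_cases hR : R.card = 1
    · simp [hR]
    · simp [hR, Ne.symm hR]
  rw [Finset.sum_congr rfl h2, ← Finset.sum_filter]
  have h3 : (S.powerset.filter fun R => R.card = 1) = S.image fun v => ({v} : Finset V) := by
    ext R
    simp only [Finset.mem_filter, Finset.mem_powerset, Finset.mem_image]
    constructor
    · rintro ⟨hRS, hR⟩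
      obtain ⟨a, rfl⟩ := Finset.card_eq_one.mp hR
      exact ⟨a, hRS (Finset.mem_singleton_self a), rfl⟩
    · rintro ⟨a, ha, rfl⟩
      exact ⟨Finset.singleton_subset_iff.mpr ha, Finset.card_singleton a⟩
  rw [h3, Finset.sum_image (fun a _ b _ hab => Finset.singleton_injective hab)]
  refine Finset.sum_congr rfl fun v _ => ?_
  rw [Finset.sdiff_singleton_eq_erase]

end

end Claimed.Agent.R302
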