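/-
R302 / Poly / Pick  (architect: helper165; proofs: helper283)
Partial fractions of real rational functions with a sign of the imaginary part on the upper half plane.
Used twice: for `G = Q / P` (rooted measure) and for `z + a - F = ((X + a) Q - P) / Q` (residue measure).

PROOF PLAN. Cancel the gcd: D = R * D₁, N = R * N₁ with N₁, D₁ coprime.  At a root μ of D₁ of multiplicity n,
 (z-μ)^n N₁/D₁ → c ≠ 0 (real).  With z = μ + ε e^{iθ}: Im (c e^{-inθ}) ≤ 0 for all θ in (0,π).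
 n ≥ 2: θ = π/(2n) and θ = 3π/(2n) give c = 0, contradiction.  n = 1: c ≥ 0.
 Then D₁ is squarefree and Lagrange interpolation gives N₁/D₁ = ∑ N₁(μ)/D₁'(μ) / (z-μ).
-/
import Claimed.Agent.R302.Poly.Defs

set_option autoImplicit false

namespace Claimed.Agent.R302

open Finset Polynomial
open scoped BigOperators ComplexConjugate Topology

noncomputable section

/-- local analysis at a real point: approach `μ` along the ray `μ + ε u`. -/
theorem pvPick_local {g : ℂ → ℂ} {μ : ℂ} (hμ : μ.im = 0) (hg : ContinuousAt g μ) (k : ℕ)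
    (h : ∀ z : ℂ, 0 < z.im → (g z / (z - μ) ^ k).im ≤ 0) (u : ℂ) (hu : 0 < u.im) :
    (g μ / u ^ k).im ≤ 0 := by
  have hpath : Filter.Tendsto (fun ε : ℝ => μ + (ε : ℂ) * u) (𝓝[>] 0) (𝓝 μ) := by
    have hc : Continuous (fun ε : ℝ => μ + (ε : ℂ) * u) := by fun_prop
    have h0 := hc.tendsto 0
    simp only [Complex.ofReal_zero, zero_mul, add_zero] at h0
    exact h0.mono_left nhdsWithin_le_nhds
  have hlim : Filter.Tendsto (fun ε : ℝ => (g (μ + (ε : ℂ) * u) / u ^ k).im) (𝓝[>] 0)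
      (𝓝 (g μ / u ^ k).im) :=
    (Complex.continuous_im.tendsto _).comp ((hg.tendsto.comp hpath).div_const _)
  refine le_of_tendsto hlim ?_
  filter_upwards [self_mem_nhdsWithin] with ε hε
  have hε : 0 < ε := hε
  have hz : 0 < (μ + (ε : ℂ) * u).im := by
    simp only [Complex.add_im, hμ, Complex.mul_im, Complex.ofReal_re, Complex.ofReal_im, zero_mul,
      add_zero, zero_add]
    positivity
  have h1 := h _ hz
  have e : g (μ + (ε : ℂ) * u) / (μ + (ε : ℂ) * u - μ) ^ k =
      (((ε ^ k)⁻¹ : ℝ) : ℂ) * (g (μ + (ε : ℂ) * u) / u ^ k) := by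
    rw [add_sub_cancel_left, mul_pow]
    push_cast
    field_simp
  rw [e, Complex.im_ofReal_mul] at h1
  have hpos : 0 < (ε ^ k)⁻¹ := by positivity
  by_contra hcon
  have := mul_pos hpos (not_le.1 hcon)
  linarith

/-- simple pole: the residue is real and nonnegative -/
theorem pvPick_alg_one {c : ℂ} (h : ∀ u : ℂ, 0 < u.im → (c / u).im ≤ 0) : c.im = 0 ∧ 0 ≤ c.re := by
  have key : ∀ t : ℝ, c.im * t - c.re ≤ 0 := by
    intro t
    have h1 := h (⟨t, 1⟩ : ℂ) (by norm_num)
    rw [Complex.div_im] at h1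
    have hn : 0 < Complex.normSq (⟨t, 1⟩ : ℂ) := by
      rw [Complex.normSq_mk]; nlinarith [mul_self_nonneg t]
    have h2 : (c.im * t - c.re) / Complex.normSq (⟨t, 1⟩ : ℂ) ≤ 0 := by
      have : (c.im * t - c.re) / Complex.normSq (⟨t, 1⟩ : ℂ) =
          c.im * t / Complex.normSq (⟨t, 1⟩ : ℂ) - c.re * 1 / Complex.normSq (⟨t, 1⟩ : ℂ) := by ring
      rw [this]; exact h1
    by_contra hcon
    have := div_pos (not_le.1 hcon) hn
    linarith
  constructor
  · by_contra hb
    have := key ((c.re + 1) / c.im)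
    rw [mul_div_cancel₀ _ hb] at this
    linarith
  · have := key 0
    linarith

/-- pole of order at least two: impossible -/
theorem pvPick_alg_two {c : ℂ} {k : ℕ} (hk : 2 ≤ k) (h : ∀ u : ℂ, 0 < u.im → (c / u ^ k).im ≤ 0) :
    c = 0 := by
  have hk0 : (0 : ℝ) < k := by positivity
  have hE : ∀ φ : ℝ, 0 < φ → φ < 2 * Real.pi → c.im * Real.cos φ - c.re * Real.sin φ ≤ 0 := by
    intro φ h0 h1
    have hu : 0 < (Complex.exp (((φ / k : ℝ) : ℂ) * Complex.I)).im := by
      rw [Complex.exp_ofReal_mul_I_im]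
      apply Real.sin_pos_of_pos_of_lt_pi (by positivity)
      rw [div_lt_iff₀ hk0]
      have : (2 : ℝ) ≤ k := by exact_mod_cast hk
      nlinarith [Real.pi_pos]
    have h2 := h _ hu
    rw [← Complex.exp_nat_mul] at h2
    have e : (k : ℂ) * (((φ / k : ℝ) : ℂ) * Complex.I) = (φ : ℂ) * Complex.I := by
      have hkc : (k : ℂ) ≠ 0 := by exact_mod_cast hk0.ne'
      push_cast
      field_simp
    rw [e, Complex.div_im, Complex.exp_ofReal_mul_I_re, Complex.exp_ofReal_mul_I_im,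
      Complex.normSq_apply, Complex.exp_ofReal_mul_I_re, Complex.exp_ofReal_mul_I_im] at h2
    have h3 : Real.cos φ * Real.cos φ + Real.sin φ * Real.sin φ = 1 := by
      nlinarith [Real.sin_sq_add_cos_sq φ]
    rw [h3, div_one, div_one] at h2
    exact h2
  have hpi := Real.pi_pos
  have h1 := hE (Real.pi / 2) (by positivity) (by linarith)
  have h2 := hE (Real.pi / 2 + Real.pi) (by positivity) (by linarith)
  have h3 := hE (Real.pi / 4) (by positivity) (by linarith)
  have h4 := hE (Real.pi / 4 + Real.pi) (by positivity) (by linarith)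
  rw [Real.cos_add_pi, Real.sin_add_pi] at h2 h4
  rw [Real.cos_pi_div_two, Real.sin_pi_div_two] at h1 h2
  rw [Real.cos_pi_div_four, Real.sin_pi_div_four] at h3 h4
  have ha : c.re = 0 := by linarith
  have hs : (0 : ℝ) < Real.sqrt 2 / 2 := by positivity
  have hb : c.im = 0 := by
    rw [ha] at h3 h4
    nlinarith
  exact Complex.ext ha hb

/-- `(z - μ) ∑ c_ν / (z - ν)`, extended continuously to `z = μ`. -/
def pvPickG (s : Finset ℂ) (c : ℂ → ℂ) (μ z : ℂ) : ℂ :=
  c μ + ∑ ν ∈ s.erase μ, c ν * (z - μ) / (z - ν)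

theorem pvPickG_self (s : Finset ℂ) (c : ℂ → ℂ) (μ : ℂ) : pvPickG s c μ μ = c μ := by
  simp [pvPickG]

theorem pvPickG_continuousAt (s : Finset ℂ) (c : ℂ → ℂ) (μ : ℂ) : ContinuousAt (pvPickG s c μ) μ := by
  unfold pvPickG
  refine continuousAt_const.add (tendsto_finsetSum _ fun ν hν => ?_)
  have hne : μ - ν ≠ 0 := sub_ne_zero.2 (Finset.ne_of_mem_erase hν).symm
  exact ContinuousAt.div (by fun_prop) (by fun_prop) hne

theorem pvPickG_eq (s : Finset ℂ) (c : ℂ → ℂ) {μ z : ℂ} (hμ : μ ∈ s) (hz : z ≠ μ) :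
    ∑ ν ∈ s, c ν / (z - ν) = pvPickG s c μ z / (z - μ) := by
  have h0 : z - μ ≠ 0 := sub_ne_zero.2 hz
  rw [← Finset.add_sum_erase s _ hμ, pvPickG, add_div, Finset.sum_div]
  congr 1
  refine Finset.sum_congr rfl fun ν _ => ?_
  by_cases h1 : z - ν = 0
  · simp [h1]
  · field_simp

/-- the residues are determined by the function -/
theorem pvPick_residue_zero (s : Finset ℂ) (c : ℂ → ℂ)
    (h : ∀ z, z ∉ s → ∑ ν ∈ s, c ν / (z - ν) = 0) {μ : ℂ} (hμ : μ ∈ s) : c μ = 0 := by
  have hev : ∀ᶠ z in 𝓝[≠] μ, pvPickG s c μ z = 0 := by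
    have h1 : ∀ᶠ z in 𝓝[≠] μ, z ∉ s := by
      have : ((s.erase μ : Finset ℂ) : Set ℂ)ᶜ ∈ 𝓝 μ :=
        (s.erase μ).finite_toSet.isClosed.isOpen_compl.mem_nhds (by simp)
      filter_upwards [nhdsWithin_le_nhds this, self_mem_nhdsWithin] with z hz hz'
      intro hzs
      exact hz (Finset.mem_coe.2 (Finset.mem_erase.2 ⟨hz', hzs⟩))
    filter_upwards [h1, self_mem_nhdsWithin] with z hz hz'
    have h2 := h z hz
    rw [pvPickG_eq s c hμ hz', div_eq_zero_iff] at h2
    exact h2.resolve_right (sub_ne_zero.2 hz')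
  have hlim : Filter.Tendsto (pvPickG s c μ) (𝓝[≠] μ) (𝓝 (c μ)) := by
    have := (pvPickG_continuousAt s c μ).tendsto
    rw [pvPickG_self] at this
    exact this.mono_left nhdsWithin_le_nhds
  have hlim0 : Filter.Tendsto (pvPickG s c μ) (𝓝[≠] μ) (𝓝 0) :=
    Filter.Tendsto.congr' (Filter.EventuallyEq.symm hev) tendsto_const_nhds
  exact tendsto_nhds_unique hlim hlim0

/-- poles have order at most one -/
theorem pvPick_mult_le (D N : ℂ[X]) (hD : D ≠ 0) (hN : N ≠ 0)
    (him : ∀ z : ℂ, 0 < z.im → (N.eval z / D.eval z).im ≤ 0) {μ : ℂ} (hμ : μ.im = 0) :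
    D.rootMultiplicity μ ≤ N.rootMultiplicity μ + 1 := by
  by_contra hcon
  obtain ⟨D₀, hD₀, hD₀'⟩ := exists_eq_pow_rootMultiplicity_mul_and_not_dvd D hD μ
  obtain ⟨N₀, hN₀, hN₀'⟩ := exists_eq_pow_rootMultiplicity_mul_and_not_dvd N hN μ
  set n := D.rootMultiplicity μ
  set m := N.rootMultiplicity μ
  rw [dvd_iff_isRoot, IsRoot.def] at hD₀' hN₀'
  obtain ⟨k, hk⟩ : ∃ k, n = m + k := Nat.exists_eq_add_of_le (by omega)
  have hk2 : 2 ≤ k := by omega
  have hg : ContinuousAt (fun z => N₀.eval z / D₀.eval z) μ :=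
    ContinuousAt.div N₀.continuous.continuousAt D₀.continuous.continuousAt hD₀'
  have h1 : ∀ z : ℂ, 0 < z.im → ((N₀.eval z / D₀.eval z) / (z - μ) ^ k).im ≤ 0 := by
    intro z hz
    have hne : z - μ ≠ 0 := by
      intro h0
      have : z = μ := sub_eq_zero.1 h0
      rw [this, hμ] at hz
      exact lt_irrefl _ hz
    have h2 := him z hz
    rw [hD₀, hN₀, hk] at h2
    simp only [eval_mul, eval_pow, eval_sub, eval_X, eval_C] at h2
    have e : (z - μ) ^ m * eval z N₀ / ((z - μ) ^ (m + k) * eval z D₀) =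
        (N₀.eval z / D₀.eval z) / (z - μ) ^ k := by
      by_cases h3 : eval z D₀ = 0
      · simp [h3]
      · rw [pow_add]; field_simp
    rwa [e] at h2
  have h3 := pvPick_alg_two hk2 (pvPick_local hμ hg k h1)
  rw [div_eq_zero_iff] at h3
  exact h3.elim hN₀' hD₀'

theorem exists_isResW (D N : ℂ[X]) (hD : D.Monic) (hroots : ∀ x ∈ D.roots, x.im = 0)
    (hdeg : N.degree < D.degree) (hreal : ∀ z : ℂ, N.eval (conj z) = conj (N.eval z))
    (him : ∀ z : ℂ, 0 < z.im → (N.eval z / D.eval z).im ≤ 0) : ∃ w, IsResW D N w := by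
  classical
  rcases eq_or_ne N 0 with rfl | hN
  · exact ⟨0, fun _ => le_rfl, fun _ _ => rfl, fun z _ => by simp⟩
  have hD0 : D ≠ 0 := hD.ne_zero
  set s := D.roots.toFinset with hs
  set S : ℂ[X] := Lagrange.nodal s id with hS
  have hSm : S.Monic := Lagrange.nodal_monic
  -- `D ∣ N * S`
  have hdvd : D ∣ N * S := by
    conv_lhs => rw [(IsAlgClosed.splits D).eq_prod_roots_of_monic hD]
    rw [prod_multiset_root_eq_finset_root]
    refine Finset.prod_dvd_of_coprime (fun a _ b _ h => ?_) fun a ha => ?_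
    · exact (pairwise_coprime_X_sub_C (Function.injective_id) h).pow
    · have ha' : a ∈ D.roots := Multiset.mem_toFinset.1 ha
      refine (pow_dvd_pow _ (pvPick_mult_le D N hD0 hN him (hroots a ha'))).trans ?_
      rw [pow_succ]
      refine mul_dvd_mul (pow_rootMultiplicity_dvd N a) ?_
      rw [hS, Lagrange.nodal_eq]
      exact Finset.dvd_prod_of_mem (fun i => X - C (id i)) ha
  obtain ⟨Q, hQ⟩ := hdvd
  have hQ0 : Q ≠ 0 := by
    rintro rfl
    rw [mul_zero] at hQ
    exact (mul_ne_zero hN hSm.ne_zero) hQ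
  have hQdeg : Q.degree < s.card := by
    rw [← natDegree_lt_iff_degree_lt hQ0]
    have h1 := congrArg natDegree hQ
    rw [natDegree_mul hN hSm.ne_zero, natDegree_mul hD0 hQ0, hS, Lagrange.natDegree_nodal] at h1
    have h2 : N.natDegree < D.natDegree := natDegree_lt_natDegree hN hdeg
    omega
  set W : ℂ → ℂ := fun μ => Lagrange.nodalWeight s id μ * Q.eval μ with hW
  have hmem : ∀ z, D.eval z ≠ 0 → ∀ i ∈ s, z ≠ id i := by
    rintro z hz i hi rfl
    exact hz ((mem_roots hD0).1 (Multiset.mem_toFinset.1 hi))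
  have hpf : ∀ z, D.eval z ≠ 0 → N.eval z / D.eval z = ∑ μ ∈ s, W μ / (z - μ) := by
    intro z hz
    have h1 := Lagrange.eval_interpolate_not_at_node (fun i => Q.eval (id i)) (hmem z hz)
    rw [← Lagrange.eq_interpolate (Set.injOn_id _) hQdeg] at h1
    have hSz : S.eval z ≠ 0 := by
      rw [hS, Lagrange.eval_nodal, Finset.prod_ne_zero_iff]
      exact fun i hi => sub_ne_zero.2 (hmem z hz i hi)
    have h2 := congrArg (eval z) hQ
    rw [eval_mul, eval_mul, h1] at h2
    rw [div_eq_iff hz]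
    have h3 : eval z N = (∑ μ ∈ s, W μ / (z - μ)) * eval z D := by
      apply mul_right_cancel₀ hSz
      rw [h2]
      have : ∑ i ∈ s, Lagrange.nodalWeight s id i * (z - id i)⁻¹ * eval (id i) Q =
          ∑ μ ∈ s, W μ / (z - μ) :=
        Finset.sum_congr rfl fun i _ => by simp only [hW, id]; ring
      rw [this]; ring
    exact h3
  have hWreal : ∀ μ ∈ s, (W μ).im = 0 ∧ 0 ≤ (W μ).re := by
    intro μ hμ
    have hμ0 : μ.im = 0 := hroots μ (Multiset.mem_toFinset.1 hμ)
    apply pvPick_alg_one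
    intro u hu
    have := pvPick_local hμ0 (pvPickG_continuousAt s W μ) 1 (fun z hz => ?_) u hu
    · rwa [pvPickG_self, pow_one] at this
    · have hDz : D.eval z ≠ 0 := by
        intro h0
        have := hroots z ((mem_roots hD0).2 h0)
        rw [this] at hz
        exact lt_irrefl _ hz
      have hne : z ≠ μ := by
        rintro rfl
        rw [hμ0] at hz
        exact lt_irrefl _ hz
      rw [pow_one, ← pvPickG_eq s W hμ hne, ← hpf z hDz]
      exact him z hz
  refine ⟨fun μ => if μ ∈ s then (W μ).re else 0, fun μ => ?_, fun μ hμ => ?_, fun z hz => ?_⟩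
  · by_cases h : μ ∈ s
    · simp only [h, if_true]; exact (hWreal μ h).2
    · simp [h]
  · have : μ ∉ s := fun h => hμ (Multiset.mem_toFinset.1 h)
    simp [this]
  · rw [hpf z hz]
    refine Finset.sum_congr rfl fun μ hμ => ?_
    have e : ((fun μ => if μ ∈ s then (W μ).re else 0) μ : ℝ) = (W μ).re := if_pos hμ
    rw [e]
    congr 1
    exact Complex.ext rfl (by simp [(hWreal μ hμ).1])

theorem isResW_unique {D N : ℂ[X]} {w w' : ℂ → ℝ} (h : IsResW D N w) (h' : IsResW D N w') :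
    w = w' := by
  classical
  funext μ
  by_cases hμ : μ ∈ D.roots
  · have hD0 : D ≠ 0 := by
      rintro rfl
      simp at hμ
    have key := pvPick_residue_zero D.roots.toFinset (fun ν => ((w ν : ℂ) - (w' ν : ℂ)))
      (fun z hz => by
        have hDz : D.eval z ≠ 0 := fun h0 => hz (Multiset.mem_toFinset.2 ((mem_roots hD0).2 h0))
        have h1 := h.2.2 z hDz
        have h2 := h'.2.2 z hDz
        simp only [sub_div, Finset.sum_sub_distrib]
        rw [← h1, ← h2, sub_self]) (Multiset.mem_toFinset.2 hμ)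
    have : (w μ : ℂ) = (w' μ : ℂ) := sub_eq_zero.1 key
    exact_mod_cast this
  · rw [h.2.1 μ hμ, h'.2.1 μ hμ]

theorem isResW_pvResW {D N : ℂ[X]} (h : ∃ w, IsResW D N w) : IsResW D N (pvResW D N) :=
  Classical.epsilon_spec h

/-- the polynomial form of the partial fraction decomposition -/
theorem isResW_poly {D N : ℂ[X]} {w : ℂ → ℝ} (h : IsResW D N w) (hD0 : D ≠ 0) :
    N * ∏ μ ∈ D.roots.toFinset, (X - C μ) =
      D * ∑ μ ∈ D.roots.toFinset, C (w μ : ℂ) * ∏ ν ∈ D.roots.toFinset.erase μ, (X - C ν) := by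
  classical
  set s := D.roots.toFinset with hs
  rw [← sub_eq_zero]
  apply eq_zero_of_infinite_isRoot
  have hfin : ((s : Set ℂ)ᶜ).Infinite := s.finite_toSet.infinite_compl
  refine hfin.mono fun z hz => ?_
  have hzs : z ∉ s := hz
  have hDz : D.eval z ≠ 0 := fun h0 => hzs (Multiset.mem_toFinset.2 ((mem_roots hD0).2 h0))
  have h1 := h.2.2 z hDz
  rw [div_eq_iff hDz] at h1
  show IsRoot _ z
  rw [IsRoot.def, eval_sub, eval_mul, eval_mul, h1, sub_eq_zero, eval_finsetSum, eval_prod]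
  simp only [eval_mul, eval_C, eval_prod, eval_sub, eval_X]
  rw [mul_comm (∑ μ ∈ s, (w μ : ℂ) / (z - μ)), mul_assoc, Finset.sum_mul]
  congr 1
  refine Finset.sum_congr rfl fun μ hμ => ?_
  have hne : z - μ ≠ 0 := sub_ne_zero.2 fun h0 => hzs (h0 ▸ hμ)
  rw [← Finset.mul_prod_erase s _ hμ]
  field_simp

/-- total mass = leading coefficient ratio -/
theorem isResW_sum {D N : ℂ[X]} {w : ℂ → ℝ} (h : IsResW D N w) (hD : D.Monic)
    (hdeg : N.natDegree + 1 = D.natDegree) :
    ((∑ μ ∈ D.roots.toFinset, w μ : ℝ) : ℂ) = N.leadingCoeff := by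
  classical
  have hD0 : D ≠ 0 := hD.ne_zero
  have hpoly := isResW_poly h hD0
  set s := D.roots.toFinset with hs
  have hcard : 0 < s.card := by
    rw [Finset.card_pos]
    have hdeg' : D.degree ≠ 0 := by
      rw [degree_eq_natDegree hD0]
      have : D.natDegree ≠ 0 := by omega
      exact_mod_cast this
    obtain ⟨z, hz⟩ := IsAlgClosed.exists_root D hdeg'
    exact ⟨z, Multiset.mem_toFinset.2 ((mem_roots hD0).2 hz)⟩
  have hS : (∏ μ ∈ s, (X - C μ) : ℂ[X]).Monic := monic_prod_of_monic _ _ fun μ _ => monic_X_sub_C μ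
  have hSdeg : (∏ μ ∈ s, (X - C μ) : ℂ[X]).natDegree = s.card := by
    rw [natDegree_prod_of_monic _ _ fun μ _ => monic_X_sub_C μ]
    simp
  have hEm : ∀ μ ∈ s, (∏ ν ∈ s.erase μ, (X - C ν) : ℂ[X]).Monic := fun μ _ =>
    monic_prod_of_monic _ _ fun ν _ => monic_X_sub_C ν
  have hEdeg : ∀ μ ∈ s, (∏ ν ∈ s.erase μ, (X - C ν) : ℂ[X]).natDegree = s.card - 1 := by
    intro μ hμ
    rw [natDegree_prod_of_monic _ _ fun ν _ => monic_X_sub_C ν]
    simp [Finset.card_erase_of_mem hμ]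
  have hLdeg : (∑ μ ∈ s, C (w μ : ℂ) * ∏ ν ∈ s.erase μ, (X - C ν) : ℂ[X]).natDegree ≤ s.card - 1 := by
    refine natDegree_sum_le_of_forall_le _ _ fun μ hμ => ?_
    exact (natDegree_C_mul_le _ _).trans (hEdeg μ hμ).le
  have h1 := congrArg (fun p : ℂ[X] => p.coeff (N.natDegree + s.card)) hpoly
  simp only at h1
  rw [coeff_mul_add_eq_of_natDegree_le le_rfl hSdeg.le] at h1
  have e : N.natDegree + s.card = D.natDegree + (s.card - 1) := by omega
  rw [e, coeff_mul_add_eq_of_natDegree_le le_rfl hLdeg, finsetSum_coeff] at h1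
  have h2 : (∏ μ ∈ s, (X - C μ) : ℂ[X]).coeff s.card = 1 := by
    rw [← hSdeg]; exact hS.coeff_natDegree
  rw [h2, mul_one, hD.coeff_natDegree, one_mul] at h1
  rw [leadingCoeff, h1]
  push_cast
  refine Finset.sum_congr rfl fun μ hμ => ?_
  rw [coeff_C_mul, ← hEdeg μ hμ, (hEm μ hμ).coeff_natDegree, mul_one]

/-- moments are Laurent coefficients: for `|z|` larger than all roots,
`N / D = ∑_k (∑ w μ^k) z^{-k-1}` -/
theorem isResW_hasSum {D N : ℂ[X]} {w : ℂ → ℝ} (h : IsResW D N w) {L : ℝ}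
    (hL : ∀ μ ∈ D.roots, ‖μ‖ ≤ L) {z : ℂ} (hz : L < ‖z‖) :
    HasSum (fun k : ℕ => (∑ μ ∈ D.roots.toFinset, (w μ : ℂ) * μ ^ k) / z ^ (k + 1))
      (N.eval z / D.eval z) := by
  classical
  rcases eq_or_ne D 0 with rfl | hD0
  · simp
  have hDz : D.eval z ≠ 0 := by
    intro h0
    have := hL z ((mem_roots hD0).2 h0)
    linarith
  rw [h.2.2 z hDz]
  simp only [Finset.sum_div]
  refine hasSum_sum fun μ hμ => ?_
  have hμL : ‖μ‖ < ‖z‖ := lt_of_le_of_lt (hL μ (Multiset.mem_toFinset.1 hμ)) hz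
  have hz0 : z ≠ 0 := norm_pos_iff.1 (lt_of_le_of_lt (norm_nonneg μ) hμL)
  have hq : ‖μ / z‖ < 1 := by
    rw [norm_div, div_lt_one (norm_pos_iff.2 hz0)]
    exact hμL
  have hg := (hasSum_geometric_of_norm_lt_one hq).mul_left ((w μ : ℂ) / z)
  have hne : z - μ ≠ 0 := by
    intro h0
    rw [sub_eq_zero.1 h0] at hμL
    exact lt_irrefl _ hμL
  have e1 : (w μ : ℂ) / z * (1 - μ / z)⁻¹ = (w μ : ℂ) / (z - μ) := by
    have : 1 - μ / z = (z - μ) / z := by field_simp
    rw [this, inv_div]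
    field_simp
  rw [e1] at hg
  have e2 : (fun k : ℕ => (w μ : ℂ) * μ ^ k / z ^ (k + 1)) =
      fun k : ℕ => (w μ : ℂ) / z * (μ / z) ^ k := by
    funext k
    rw [div_pow, pow_succ]
    field_simp
  rw [e2]
  exact hg

/-- common factors do not matter -/
theorem pvRho_mul_left {D N R : ℂ[X]} (hR : R ≠ 0) (hD : D ≠ 0) (h : ∃ w, IsResW D N w) (f : ℝ → ℝ) :
    pvRho (R * D) (R * N) f = pvRho D N f := by
  classical
  have hw := isResW_pvResW h
  set w := pvResW D N with hwdef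
  have hRD : R * D ≠ 0 := mul_ne_zero hR hD
  have hsub : D.roots.toFinset ⊆ (R * D).roots.toFinset := by
    intro μ hμ
    rw [Multiset.mem_toFinset] at hμ ⊢
    rw [roots_mul hRD]
    exact Multiset.mem_add.2 (Or.inr hμ)
  have hw' : IsResW (R * D) (R * N) w := by
    refine ⟨hw.1, fun μ hμ => hw.2.1 μ fun h0 => hμ ?_, fun z hz => ?_⟩
    · exact Multiset.mem_toFinset.1 (hsub (Multiset.mem_toFinset.2 h0))
    · rw [eval_mul] at hz
      have hRz : R.eval z ≠ 0 := left_ne_zero_of_mul hz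
      have hDz : D.eval z ≠ 0 := right_ne_zero_of_mul hz
      rw [eval_mul, eval_mul, mul_div_mul_left _ _ hRz, hw.2.2 z hDz]
      refine Finset.sum_subset hsub fun μ _ hμ => ?_
      rw [hw.2.1 μ fun h0 => hμ (Multiset.mem_toFinset.2 h0)]
      simp
  have e : pvResW (R * D) (R * N) = w := isResW_unique (isResW_pvResW ⟨w, hw'⟩) hw'
  unfold pvRho
  rw [e, ← hwdef]
  symm
  refine Finset.sum_subset hsub fun μ _ hμ => ?_
  rw [hw.2.1 μ fun h0 => hμ (Multiset.mem_toFinset.2 h0), zero_mul]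

end

end Claimed.Agent.R302
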