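/-
R302 / Poly / Root  (owner: helper165)
General theory for Hermitian option kernels `B` and probability laws `p` (paper Q, Lemma 4.2 second half):
Pick property of the quotient, rooted measure, residue measure, link with the arrow matrix, interlacing, largest roots.
-/
import Claimed.Agent.R302.Poly.Mix
import Claimed.Agent.R302.Poly.Pick
import Claimed.Agent.R302.Poly.Arrow

set_option autoImplicit false

namespace Claimed.Agent.R302

open Finset Polynomial
open scoped BigOperators ComplexConjugate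

noncomputable section

/-! ### complements on residues -/

/-- evaluation of the partial fraction numerator -/
theorem pvPF_eval (s : Finset ℂ) (w : ℂ → ℂ) {z : ℂ} (hz : z ∉ s) :
    (∑ μ ∈ s, C (w μ) * ∏ ν ∈ s.erase μ, (X - C ν)).eval z =
      (∑ μ ∈ s, w μ / (z - μ)) * (∏ μ ∈ s, (X - C μ)).eval z := by
  rw [eval_finsetSum, eval_prod, Finset.sum_mul]
  refine Finset.sum_congr rfl fun μ hμ => ?_
  have hne : z - μ ≠ 0 := sub_ne_zero.2 fun h0 => hz (h0 ▸ hμ)
  rw [← Finset.mul_prod_erase s _ hμ]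
  simp only [eval_mul, eval_C, eval_prod, eval_sub, eval_X]
  field_simp

theorem pvNodal_eval_ne (s : Finset ℂ) {z : ℂ} (hz : z ∉ s) : (∏ μ ∈ s, (X - C μ)).eval z ≠ 0 := by
  rw [eval_prod, Finset.prod_ne_zero_iff]
  intro μ hμ
  simp only [eval_sub, eval_X, eval_C]
  exact sub_ne_zero.2 fun h0 => hz (h0 ▸ hμ)

/-- converse of `isResW_poly` -/
theorem isResW_of_poly {D N : ℂ[X]} {w : ℂ → ℝ} (hD0 : D ≠ 0) (h0 : ∀ μ, 0 ≤ w μ)
    (h1 : ∀ μ, μ ∉ D.roots → w μ = 0)
    (hpoly : N * ∏ μ ∈ D.roots.toFinset, (X - C μ) =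
      D * ∑ μ ∈ D.roots.toFinset, C (w μ : ℂ) * ∏ ν ∈ D.roots.toFinset.erase μ, (X - C ν)) :
    IsResW D N w := by
  refine ⟨h0, h1, fun z hz => ?_⟩
  have hzs : z ∉ D.roots.toFinset := fun h => hz ((mem_roots hD0).1 (Multiset.mem_toFinset.1 h))
  have h2 := congrArg (Polynomial.eval z) hpoly
  rw [eval_mul, eval_mul, pvPF_eval _ (fun μ => (w μ : ℂ)) hzs] at h2
  have h3 := pvNodal_eval_ne _ hzs
  rw [div_eq_iff hz]
  have h4 : N.eval z * (∏ μ ∈ D.roots.toFinset, (X - C μ)).eval z =
      ((∑ μ ∈ D.roots.toFinset, (w μ : ℂ) / (z - μ)) * D.eval z) *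
        (∏ μ ∈ D.roots.toFinset, (X - C μ)).eval z := by rw [h2]; ring
  exact mul_right_cancel₀ h3 h4

/-- it suffices to check the partial fraction identity off the real axis -/
theorem isResW_of_im {D N : ℂ[X]} {w : ℂ → ℝ} (hD0 : D ≠ 0) (h0 : ∀ μ, 0 ≤ w μ)
    (h1 : ∀ μ, μ ∉ D.roots → w μ = 0)
    (h : ∀ z : ℂ, 0 < z.im → D.eval z ≠ 0 →
      N.eval z / D.eval z = ∑ μ ∈ D.roots.toFinset, (w μ : ℂ) / (z - μ)) :
    IsResW D N w := by
  refine isResW_of_poly hD0 h0 h1 ?_
  set s := D.roots.toFinset with hs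
  rw [← sub_eq_zero]
  apply eq_zero_of_infinite_isRoot
  have hinf : ({z : ℂ | 0 < z.im} \ (s : Set ℂ)).Infinite := by
    refine Set.Infinite.sdiff ?_ s.finite_toSet
    have : Set.InjOn (fun n : ℕ => ((n : ℂ) + 1) * Complex.I) Set.univ := by
      intro a _ b _ hab
      have := congrArg Complex.im hab
      simpa using this
    refine (Set.infinite_univ.image this).mono ?_
    rintro _ ⟨n, _, rfl⟩
    simp only [Set.mem_ofPred_eq, Complex.mul_im, Complex.add_re, Complex.natCast_re, Complex.one_re,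
      Complex.I_im, mul_one, Complex.add_im, Complex.natCast_im, Complex.one_im, add_zero,
      Complex.I_re, mul_zero]
    positivity
  refine hinf.mono fun z hz => ?_
  have hzs : z ∉ s := hz.2
  have hDz : D.eval z ≠ 0 := fun h0 => hzs (Multiset.mem_toFinset.2 ((mem_roots hD0).2 h0))
  have h2 := h z hz.1 hDz
  rw [div_eq_iff hDz] at h2
  show IsRoot _ z
  rw [IsRoot.def, eval_sub, eval_mul, eval_mul, pvPF_eval _ (fun μ => (w μ : ℂ)) hzs, h2]
  ring

/-- total mass in general: the coefficient of degree `deg D - 1` -/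
theorem isResW_sum_coeff {D N : ℂ[X]} {w : ℂ → ℝ} (h : IsResW D N w) (hD : D.Monic)
    (hdeg : N.degree < D.degree) :
    ((∑ μ ∈ D.roots.toFinset, w μ : ℝ) : ℂ) = N.coeff (D.natDegree - 1) := by
  classical
  have hD0 : D ≠ 0 := hD.ne_zero
  have hpoly := isResW_poly h hD0
  rcases Nat.eq_zero_or_pos D.natDegree with h0 | hDpos
  · have h1 : D = 1 := by
      rw [eq_C_of_natDegree_eq_zero h0, ← h0, hD.coeff_natDegree, C_1]
    rw [h1, degree_one] at hdeg
    have h2 : N = 0 := by
      rw [← degree_eq_bot]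
      exact Nat.WithBot.lt_zero_iff.1 hdeg
    rw [h1, h2]; simp
  have hNdeg : N.natDegree ≤ D.natDegree - 1 := by
    rcases eq_or_ne N 0 with rfl | hN
    · simp
    · have := natDegree_lt_natDegree hN hdeg
      omega
  set s := D.roots.toFinset with hs
  have hcard : 0 < s.card := by
    rw [Finset.card_pos]
    have hdeg' : D.degree ≠ 0 := by
      rw [degree_eq_natDegree hD0]
      have : D.natDegree ≠ 0 := by omega
      exact_mod_cast this
    obtain ⟨z, hz⟩ := IsAlgClosed.exists_root D hdeg'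
    exact ⟨z, Multiset.mem_toFinset.2 ((mem_roots hD0).2 hz)⟩
  have hS : (∏ μ ∈ s, (X - C μ) : ℂ[X]).Monic := monic_prod_of_monic _ _ fun μ _ => monic_X_sub_C μ
  have hSdeg : (∏ μ ∈ s, (X - C μ) : ℂ[X]).natDegree = s.card := by
    rw [natDegree_prod_of_monic _ _ fun μ _ => monic_X_sub_C μ]
    simp
  have hEm : ∀ μ ∈ s, (∏ ν ∈ s.erase μ, (X - C ν) : ℂ[X]).Monic := fun μ _ =>
    monic_prod_of_monic _ _ fun ν _ => monic_X_sub_C ν
  have hEdeg : ∀ μ ∈ s, (∏ ν ∈ s.erase μ, (X - C ν) : ℂ[X]).natDegree = s.card - 1 := by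
    intro μ hμ
    rw [natDegree_prod_of_monic _ _ fun ν _ => monic_X_sub_C ν]
    simp [Finset.card_erase_of_mem hμ]
  have hLdeg : (∑ μ ∈ s, C (w μ : ℂ) * ∏ ν ∈ s.erase μ, (X - C ν) : ℂ[X]).natDegree ≤ s.card - 1 := by
    refine natDegree_sum_le_of_forall_le _ _ fun μ hμ => ?_
    exact (natDegree_C_mul_le _ _).trans (hEdeg μ hμ).le
  have h1 := congrArg (fun p : ℂ[X] => p.coeff ((D.natDegree - 1) + s.card)) hpoly
  simp only at h1
  rw [coeff_mul_add_eq_of_natDegree_le hNdeg hSdeg.le] at h1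
  have e : (D.natDegree - 1) + s.card = D.natDegree + (s.card - 1) := by omega
  rw [e, coeff_mul_add_eq_of_natDegree_le le_rfl hLdeg, finsetSum_coeff] at h1
  have h2 : (∏ μ ∈ s, (X - C μ) : ℂ[X]).coeff s.card = 1 := by
    rw [← hSdeg]; exact hS.coeff_natDegree
  rw [h2, mul_one, hD.coeff_natDegree, one_mul] at h1
  rw [h1]
  push_cast
  refine Finset.sum_congr rfl fun μ hμ => ?_
  rw [coeff_C_mul, ← hEdeg μ hμ, (hEm μ hμ).coeff_natDegree, mul_one]

theorem isResW_derivative (D : ℂ[X]) :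
    IsResW D (derivative D) (fun μ => (D.roots.count μ : ℝ)) := by
  refine ⟨fun μ => by positivity, fun μ hμ => by simp [Multiset.count_eq_zero_of_notMem hμ],
    fun z hz => ?_⟩
  rw [(IsAlgClosed.splits D).eval_derivative_div_eval_of_ne_zero hz, Finset.sum_multiset_map_count]
  refine Finset.sum_congr rfl fun μ _ => ?_
  rw [nsmul_eq_mul]
  push_cast
  ring

theorem isResW_finset_sum {ι : Type*} (t : Finset ι) {D : ℂ[X]} {N : ι → ℂ[X]} {w : ι → ℂ → ℝ}
    (h : ∀ i ∈ t, IsResW D (N i) (w i)) : IsResW D (∑ i ∈ t, N i) (fun μ => ∑ i ∈ t, w i μ) := by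
  refine ⟨fun μ => Finset.sum_nonneg fun i hi => (h i hi).1 μ,
    fun μ hμ => Finset.sum_eq_zero fun i hi => (h i hi).2.1 μ hμ, fun z hz => ?_⟩
  rw [eval_finsetSum, Finset.sum_div]
  push_cast
  simp_rw [Finset.sum_div]
  rw [Finset.sum_comm]
  exact Finset.sum_congr rfl fun i hi => (h i hi).2.2 z hz

theorem isResW_smul {D N : ℂ[X]} {w : ℂ → ℝ} (h : IsResW D N w) {c : ℝ} (hc : 0 ≤ c) :
    IsResW D (C (c : ℂ) * N) (fun μ => c * w μ) := by
  refine ⟨fun μ => mul_nonneg hc (h.1 μ), fun μ hμ => by simp [h.2.1 μ hμ], fun z hz => ?_⟩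
  rw [eval_mul, eval_C, mul_div_assoc, h.2.2 z hz, Finset.mul_sum]
  refine Finset.sum_congr rfl fun μ _ => ?_
  push_cast
  ring

theorem pvRootSum_eq_count (D : ℂ[X]) (f : ℝ → ℝ) :
    pvRootSum D f = ∑ μ ∈ D.roots.toFinset, (D.roots.count μ : ℝ) * f μ.re := by
  unfold pvRootSum
  rw [Finset.sum_multiset_map_count]
  exact Finset.sum_congr rfl fun μ _ => by rw [nsmul_eq_mul]

theorem pvCount_eq (P : ℂ[X]) (x : ℝ) :
    (pvCount P x : ℝ) = pvRootSum P (fun y => if x < y then 1 else 0) := by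
  unfold pvCount pvRootSum
  induction P.roots using Multiset.induction_on with
  | empty => simp
  | cons a s ih =>
    rw [Multiset.map_cons, Multiset.sum_cons, ← ih, Multiset.filter_cons]
    by_cases h : x < a.re
    · simp [h]; ring
    · simp [h]

/-! ### abstract link with the arrow matrix -/

/-- complexified characteristic polynomial of the arrow matrix with poles `s` and residues `w` -/
theorem arrow_charpoly_map (s : Finset ℂ) (a : ℝ) (w : ℂ → ℝ) (hw : ∀ μ, 0 ≤ w μ)
    (hs : ∀ μ ∈ s, μ.im = 0) :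
    ((arrowMat a (fun k : s => w k) (fun k : s => (k : ℂ).re)).charpoly).map (algebraMap ℝ ℂ) =
      (X + C (a : ℂ)) * ∏ μ ∈ s, (X - C μ) -
        ∑ μ ∈ s, C (w μ : ℂ) * ∏ ν ∈ s.erase μ, (X - C ν) := by
  have hre : ∀ k : s, (((k : ℂ).re : ℝ) : ℂ) = k := fun k => Complex.ext rfl (by simp [hs k k.2])
  rw [arrow_charpoly a (fun k : s => w k) (fun k : s => (k : ℂ).re) (fun k => hw k)]
  simp only [Polynomial.map_sub, Polynomial.map_mul, Polynomial.map_add, Polynomial.map_X,
    Polynomial.map_C, Polynomial.map_prod, Polynomial.map_sum, Complex.coe_algebraMap, hre]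
  have h1 : ∏ k : s, (X - C (k : ℂ)) = ∏ μ ∈ s, (X - C μ) :=
    Finset.prod_coe_sort s (fun μ => (X - C μ : ℂ[X]))
  have h3 : ∀ k : s, ∏ l ∈ (univ : Finset s).erase k, (X - C (l : ℂ)) =
      ∏ ν ∈ s.erase (k : ℂ), (X - C ν : ℂ[X]) := by
    intro k
    have h2 : (X - C (k : ℂ)) * ∏ l ∈ (univ : Finset s).erase k, (X - C (l : ℂ)) =
        (X - C (k : ℂ)) * ∏ ν ∈ s.erase (k : ℂ), (X - C ν) := by
      rw [Finset.mul_prod_erase univ (fun l : s => (X - C (l : ℂ) : ℂ[X])) (Finset.mem_univ k),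
        Finset.mul_prod_erase s (fun ν => (X - C ν : ℂ[X])) k.2, h1]
    exact mul_left_cancel₀ (X_sub_C_ne_zero _) h2
  simp_rw [h3]
  rw [h1, Finset.sum_coe_sort s (fun μ => C (w μ : ℂ) * ∏ ν ∈ s.erase μ, (X - C ν))]

theorem arrow_charpoly_map_eig {K : Type*} [Fintype K] [DecidableEq K] (a : ℝ) (b lam : K → ℝ) :
    ((arrowMat a b lam).charpoly).map (algebraMap ℝ ℂ) =
      ∏ i, (X - C (((arrowMat_isHermitian a b lam).eigenvalues i : ℝ) : ℂ)) := by
  rw [(arrowMat_isHermitian a b lam).charpoly_eq]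
  simp [Polynomial.map_prod]


theorem pv_fiber_sum {ι R : Type*} [Fintype ι] [CommSemiring R] (t : Finset ℂ) (e : ι → ℂ)
    (he : ∀ i, e i ∈ t) (c : ι → R) (g : ℂ → R) :
    ∑ μ ∈ t, (∑ i, if e i = μ then c i else 0) * g μ = ∑ i, c i * g (e i) := by
  simp_rw [Finset.sum_mul]
  rw [Finset.sum_comm]
  refine Finset.sum_congr rfl fun i _ => ?_
  simp_rw [ite_mul, zero_mul]
  rw [Finset.sum_ite_eq t (e i), if_pos (he i)]

/-- residues of the first resolvent entry of the arrow matrix -/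
def arrowW {K : Type*} [Fintype K] [DecidableEq K] (a : ℝ) (b lam : K → ℝ) (μ : ℂ) : ℝ :=
  ∑ i, if (((arrowMat_isHermitian a b lam).eigenvalues i : ℝ) : ℂ) = μ then
    ((arrowMat_isHermitian a b lam).eigenvectorBasis i none) ^ 2 else 0

theorem arrow_isResW (s : Finset ℂ) (a : ℝ) (w : ℂ → ℝ) (hw : ∀ μ, 0 ≤ w μ)
    (hs : ∀ μ ∈ s, μ.im = 0) :
    IsResW (((arrowMat a (fun k : s => w k) (fun k : s => (k : ℂ).re)).charpoly).map (algebraMap ℝ ℂ))
      (∏ μ ∈ s, (X - C μ)) (arrowW a (fun k : s => w k) (fun k : s => (k : ℂ).re)) := by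
  have hre : ∀ k : s, (((k : ℂ).re : ℝ) : ℂ) = k := fun k => Complex.ext rfl (by simp [hs k k.2])
  set b : s → ℝ := fun k : s => w k with hb
  set lam : s → ℝ := fun k : s => (k : ℂ).re with hlam
  set χ := ((arrowMat a b lam).charpoly).map (algebraMap ℝ ℂ) with hχ
  have h1 : χ = ∏ i, (X - C (((arrowMat_isHermitian a b lam).eigenvalues i : ℝ) : ℂ)) :=
    arrow_charpoly_map_eig a b lam
  have h2 : χ = (X + C (a : ℂ)) * ∏ μ ∈ s, (X - C μ) -
        ∑ μ ∈ s, C (w μ : ℂ) * ∏ ν ∈ s.erase μ, (X - C ν) := arrow_charpoly_map s a w hw hs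
  have hχ0 : χ ≠ 0 := by
    rw [h1]; exact (monic_prod_of_monic _ _ fun i _ => monic_X_sub_C _).ne_zero
  have hmem : ∀ i, (((arrowMat_isHermitian a b lam).eigenvalues i : ℝ) : ℂ) ∈ χ.roots.toFinset := by
    intro i
    rw [Multiset.mem_toFinset, mem_roots hχ0, IsRoot.def, h1, eval_prod]
    exact Finset.prod_eq_zero (Finset.mem_univ i) (by simp)
  refine isResW_of_im hχ0 ?_ ?_ ?_
  · intro μ
    unfold arrowW
    refine Finset.sum_nonneg fun i _ => ?_
    split_ifs
    · positivity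
    · exact le_rfl
  · intro μ hμ
    unfold arrowW
    refine Finset.sum_eq_zero fun i _ => ?_
    rw [if_neg]
    rintro rfl
    exact hμ (Multiset.mem_toFinset.1 (hmem i))
  · intro z hz hχz
    have hzs : z ∉ s := fun h => by
      have := hs z h
      linarith
    have hQz := pvNodal_eval_ne s hzs
    have h3 : ∑ μ ∈ χ.roots.toFinset, ((arrowW a b lam μ : ℝ) : ℂ) / (z - μ) =
        ∑ i, ((((arrowMat_isHermitian a b lam).eigenvectorBasis i none) ^ 2 : ℝ) : ℂ) /
          (z - (arrowMat_isHermitian a b lam).eigenvalues i) := by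
      have := pv_fiber_sum χ.roots.toFinset
        (fun i => (((arrowMat_isHermitian a b lam).eigenvalues i : ℝ) : ℂ)) hmem
        (fun i => ((((arrowMat_isHermitian a b lam).eigenvectorBasis i none) ^ 2 : ℝ) : ℂ))
        (fun μ => (z - μ)⁻¹)
      simp only [div_eq_mul_inv]
      rw [← this]
      refine Finset.sum_congr rfl fun μ _ => ?_
      congr 1
      unfold arrowW
      push_cast
      refine Finset.sum_congr rfl fun i _ => ?_
      split_ifs <;> simp
    rw [h3, arrow_resolvent a b lam (fun k => hw k) z hz.ne']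
    have h4 : ∑ k : s, ((b k : ℝ) : ℂ) / (z - lam k) = ∑ μ ∈ s, (w μ : ℂ) / (z - μ) := by
      rw [← Finset.sum_coe_sort s (fun μ => (w μ : ℂ) / (z - μ))]
      refine Finset.sum_congr rfl fun k _ => ?_
      rw [hlam, hre k]
    rw [h4]
    have h5 : χ.eval z = (z + a - ∑ μ ∈ s, (w μ : ℂ) / (z - μ)) * (∏ μ ∈ s, (X - C μ)).eval z := by
      rw [h2, eval_sub, eval_mul, pvPF_eval s (fun μ => (w μ : ℂ)) hzs]
      simp only [eval_add, eval_X, eval_C]
      ring
    rw [h5] at hχz ⊢
    have h6 := left_ne_zero_of_mul hχz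
    field_simp


theorem pvRootSum_mul {A B : ℂ[X]} (h : A * B ≠ 0) (f : ℝ → ℝ) :
    pvRootSum (A * B) f = pvRootSum A f + pvRootSum B f := by
  unfold pvRootSum
  rw [roots_mul h, Multiset.map_add, Multiset.sum_add]

theorem pvRootSum_prod {ι : Type*} (t : Finset ι) (e : ι → ℂ) (f : ℝ → ℝ) :
    pvRootSum (∏ i ∈ t, (X - C (e i))) f = ∑ i ∈ t, f (e i).re := by
  unfold pvRootSum
  have : (∏ i ∈ t, (X - C (e i))).roots = t.val.map e := by
    have h := Polynomial.roots_multiset_prod_X_sub_C (t.val.map e)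
    rw [Multiset.map_map] at h
    exact h
  rw [this, Multiset.map_map]
  rfl

/-- ABSTRACT LINK with the arrow matrix. -/
theorem arrow_link_abs {P Q : ℂ[X]} {a : ℝ} {w : ℂ → ℝ} (hQ : Q.Monic)
    (hQr : ∀ μ ∈ Q.roots, μ.im = 0) (hw : IsResW Q ((X + C (a : ℂ)) * Q - P) w) (f : ℝ → ℝ) :
    pvRho P Q f = arrowRho a (fun k : Q.roots.toFinset => w k)
        (fun k : Q.roots.toFinset => (k : ℂ).re) f ∧
      pvRootSum P f - pvRootSum Q f =
        arrowTr a (fun k : Q.roots.toFinset => w k) (fun k : Q.roots.toFinset => (k : ℂ).re) f -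
          ∑ k : Q.roots.toFinset, f (k : ℂ).re := by
  set s := Q.roots.toFinset with hs
  have hsr : ∀ μ ∈ s, μ.im = 0 := fun μ hμ => hQr μ (Multiset.mem_toFinset.1 hμ)
  set b : s → ℝ := fun k : s => w k with hb
  set lam : s → ℝ := fun k : s => (k : ℂ).re with hlam
  set χ := ((arrowMat a b lam).charpoly).map (algebraMap ℝ ℂ) with hχ
  have h1 : χ = ∏ i, (X - C (((arrowMat_isHermitian a b lam).eigenvalues i : ℝ) : ℂ)) :=
    arrow_charpoly_map_eig a b lam
  have h2 : χ = (X + C (a : ℂ)) * ∏ μ ∈ s, (X - C μ) -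
        ∑ μ ∈ s, C (w μ : ℂ) * ∏ ν ∈ s.erase μ, (X - C ν) := arrow_charpoly_map s a w hw.1 hsr
  have hres : IsResW χ (∏ μ ∈ s, (X - C μ)) (arrowW a b lam) := arrow_isResW s a w hw.1 hsr
  have hχ0 : χ ≠ 0 := by
    rw [h1]; exact (monic_prod_of_monic _ _ fun i _ => monic_X_sub_C _).ne_zero
  have hQ1 : (∏ μ ∈ s, (X - C μ) : ℂ[X]) ≠ 0 :=
    (monic_prod_of_monic _ _ fun i _ => monic_X_sub_C _).ne_zero
  have hpoly := isResW_poly hw hQ.ne_zero
  rw [← hs] at hpoly
  -- `Q₁ ∣ Q`
  obtain ⟨R, hR⟩ : (∏ μ ∈ s, (X - C μ) : ℂ[X]) ∣ Q := by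
    have hsplit : Q = (Q.roots.map fun μ => X - C μ).prod :=
      (IsAlgClosed.splits Q).eq_prod_roots_of_monic hQ
    have h3 : (∏ μ ∈ s, (X - C μ) : ℂ[X]) = (s.val.map fun μ => X - C μ).prod := rfl
    rw [h3]
    conv_rhs => rw [hsplit]
    exact Multiset.prod_dvd_prod_of_le (Multiset.map_le_map (Multiset.dedup_le _))
  have hR0 : R ≠ 0 := by
    rintro rfl
    rw [mul_zero] at hR
    exact hQ.ne_zero hR
  have hP : P = R * χ := by
    have h4 : (∏ μ ∈ s, (X - C μ) : ℂ[X]) * P = (∏ μ ∈ s, (X - C μ) : ℂ[X]) * (R * χ) := by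
      have h5 : Q * χ = P * ∏ μ ∈ s, (X - C μ) := by
        rw [h2, mul_sub, ← hpoly]; ring
      rw [← mul_assoc, ← hR, h5, mul_comm]
    exact mul_left_cancel₀ hQ1 h4
  have hQ' : Q = R * ∏ μ ∈ s, (X - C μ) := by rw [hR, mul_comm]
  constructor
  · rw [hP]
    conv_lhs => rw [hQ']
    rw [pvRho_mul_left hR0 hχ0 ⟨_, hres⟩]
    have hu : pvResW χ (∏ μ ∈ s, (X - C μ)) = arrowW a b lam :=
      isResW_unique (isResW_pvResW ⟨_, hres⟩) hres
    unfold pvRho arrowRho
    rw [hu]
    have hmem : ∀ i, (((arrowMat_isHermitian a b lam).eigenvalues i : ℝ) : ℂ) ∈ χ.roots.toFinset := by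
      intro i
      rw [Multiset.mem_toFinset, mem_roots hχ0, IsRoot.def, h1, eval_prod]
      exact Finset.prod_eq_zero (Finset.mem_univ i) (by simp)
    have := pv_fiber_sum χ.roots.toFinset
        (fun i => (((arrowMat_isHermitian a b lam).eigenvalues i : ℝ) : ℂ)) hmem
        (fun i => (((arrowMat_isHermitian a b lam).eigenvectorBasis i none) ^ 2 : ℝ))
        (fun μ => f μ.re)
    unfold arrowW
    rw [this]
    refine Finset.sum_congr rfl fun i _ => ?_
    rw [Complex.ofReal_re, mul_comm]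
  · rw [hP]
    conv_lhs => rw [hQ']
    rw [pvRootSum_mul (mul_ne_zero hR0 hχ0), pvRootSum_mul (mul_ne_zero hR0 hQ1), h1,
      pvRootSum_prod, pvRootSum_prod]
    unfold arrowTr
    simp only [Complex.ofReal_re]
    rw [Finset.sum_coe_sort s (fun μ => f μ.re)]
    ring

/-- abstract interlacing in counting form -/
theorem count_interlace_abs {P Q : ℂ[X]} {a : ℝ} {w : ℂ → ℝ} (hQ : Q.Monic)
    (hQr : ∀ μ ∈ Q.roots, μ.im = 0) (hw : IsResW Q ((X + C (a : ℂ)) * Q - P) w) (x : ℝ) :
    pvCount Q x ≤ pvCount P x ∧ pvCount P x ≤ pvCount Q x + 1 := by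
  have h := (arrow_link_abs hQ hQr hw (fun y => if x < y then 1 else 0)).2
  rw [← pvCount_eq, ← pvCount_eq] at h
  unfold arrowTr at h
  rw [Finset.sum_boole, Finset.sum_boole] at h
  have h2 := arrow_count a (fun k : Q.roots.toFinset => w k) (fun k : Q.roots.toFinset => (k : ℂ).re) x
  have h3 : ((pvCount P x : ℝ) + ((univ.filter fun k : Q.roots.toFinset => x < (k : ℂ).re).card : ℝ)) =
      (pvCount Q x : ℝ) + ((univ.filter fun i => x < (arrowMat_isHermitian a
        (fun k : Q.roots.toFinset => w k) (fun k : Q.roots.toFinset => (k : ℂ).re)).eigenvalues i).card : ℝ) := by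
    linarith
  have h4 : pvCount P x + (univ.filter fun k : Q.roots.toFinset => x < (k : ℂ).re).card =
      pvCount Q x + (univ.filter fun i => x < (arrowMat_isHermitian a
        (fun k : Q.roots.toFinset => w k) (fun k : Q.roots.toFinset => (k : ℂ).re)).eigenvalues i).card := by
    exact_mod_cast h3
  omega

/-- a monic polynomial with real roots is positive to the right of its roots -/
theorem monic_eval_pos {P : ℂ[X]} (hP : P.Monic) (hr : ∀ y ∈ P.roots, y.im = 0) {x : ℝ}
    (hx : ∀ y ∈ P.roots, y.re < x) : 0 < (P.eval (x : ℂ)).re ∧ (P.eval (x : ℂ)).im = 0 := by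
  rw [(IsAlgClosed.splits P).eval_eq_prod_roots, hP.leadingCoeff, one_mul]
  generalize P.roots = m at hr hx
  induction m using Multiset.induction_on with
  | empty => simp
  | cons a s ih =>
    have h1 := ih (fun y hy => hr y (Multiset.mem_cons_of_mem hy))
      (fun y hy => hx y (Multiset.mem_cons_of_mem hy))
    have h2 := hr a (Multiset.mem_cons_self a s)
    have h3 := hx a (Multiset.mem_cons_self a s)
    rw [Multiset.map_cons, Multiset.prod_cons]
    constructor
    · rw [Complex.mul_re, h1.2]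
      simp only [Complex.sub_re, Complex.ofReal_re, mul_zero, sub_zero]
      exact mul_pos (by linarith) h1.1
    · rw [Complex.mul_im, h1.2]
      simp [h2]

theorem pvCount_eq_zero_iff (P : ℂ[X]) (x : ℝ) : pvCount P x = 0 ↔ ∀ y ∈ P.roots, y.re ≤ x := by
  unfold pvCount
  rw [Multiset.card_eq_zero, Multiset.filter_eq_nil]
  exact forall₂_congr fun y _ => not_lt

/-- comparison of largest roots through the quotients: two laws/kernels with the same deletion polynomial at `v`;
if `P' ≥ P` to the right of the roots of the deletion polynomial then `maxroot P' ≤ maxroot P`. -/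
theorem maxroot_le_of_eval_le {P P' Q : ℂ[X]} (hP : P.Monic)
    (hPr : ∀ y ∈ P.roots, y.im = 0) (hPr' : ∀ y ∈ P'.roots, y.im = 0)
    (hQP : ∀ x : ℝ, (∀ y ∈ P.roots, y.re ≤ x) → ∀ y ∈ Q.roots, y.re ≤ x)
    (hle : ∀ x : ℝ, (∀ y ∈ Q.roots, y.re < x) → (P.eval (x : ℂ)).re ≤ (P'.eval (x : ℂ)).re)
    {x : ℝ} (hx : ∀ y ∈ P.roots, y.re ≤ x) : ∀ y ∈ P'.roots, y.re ≤ x := by
  intro y hy
  by_contra hcon
  have hxy : x < y.re := not_le.1 hcon
  have h1 := (monic_eval_pos hP hPr (x := y.re) fun u hu => lt_of_le_of_lt (hx u hu) hxy).1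
  have h2 := hle y.re fun u hu => lt_of_le_of_lt (hQP x hx u hu) hxy
  have h3 : ((y.re : ℝ) : ℂ) = y := Complex.ext rfl (by simp [hPr' y hy])
  rw [h3, (mem_roots'.1 hy).2] at h2
  rw [h3] at h1
  simp at h2
  linarith

/-! ### mixed polynomials -/

variable {V : Type*} [DecidableEq V] {J : Type*} [Fintype J] [DecidableEq J]

/-- mean diagonal shift `a_v = - ∑_j p v j * B j v v` -/
def pvShift (p : V → J → ℝ) (B : J → V → V → ℂ) (v : V) : ℝ := -∑ j, p v j * (B j v v).re

/-- numerator of `z + a_v - F` -/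
def pvKapNum (p : V → J → ℝ) (B : J → V → V → ℂ) (S : Finset V) (v : V) : ℂ[X] :=
  (X + C (pvShift p B v : ℂ)) * pvPoly p B (S.erase v) - pvPoly p B S

theorem pv_F_im {p : V → J → ℝ} {B : J → V → V → ℂ} {S : Finset V} (hp : PvProb p S)
    (hB : PvHerm B) {v : V} (hv : v ∈ S) {z : ℂ} (hz : 0 < z.im) :
    z.im ≤ ((pvPoly p B S).eval z / (pvPoly p B (S.erase v)).eval z).im := by
  rw [pvPoly_eval, pvPoly_eval]
  have := pvMix_quot_im (z := fun _ => z) hp (hB.imLe S) (fun _ _ => hz) hv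
  simpa using this

theorem PvProb.sum_one {p : V → J → ℝ} {S : Finset V} (hp : PvProb p S) :
    ∀ v ∈ S, ∑ j, p v j = 1 := fun v hv => (hp v hv).2

theorem PvProb.erase {p : V → J → ℝ} {S : Finset V} (hp : PvProb p S) (v : V) :
    PvProb p (S.erase v) := hp.mono (Finset.erase_subset _ _)

theorem pvPoly_degree_erase_lt {p : V → J → ℝ} (B : J → V → V → ℂ) {S : Finset V} (hp : PvProb p S)
    {v : V} (hv : v ∈ S) : (pvPoly p B (S.erase v)).degree < (pvPoly p B S).degree := by
  apply Polynomial.degree_lt_degree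
  rw [pvPoly_natDegree B hp.sum_one, pvPoly_natDegree B (hp.erase v).sum_one, Finset.card_erase_of_mem hv]
  have := Finset.card_pos.2 ⟨v, hv⟩
  omega

theorem pv_rho_spec {p : V → J → ℝ} {B : J → V → V → ℂ} {S : Finset V} (hp : PvProb p S)
    (hB : PvHerm B) {v : V} (hv : v ∈ S) :
    IsResW (pvPoly p B S) (pvPoly p B (S.erase v))
      (pvResW (pvPoly p B S) (pvPoly p B (S.erase v))) := by
  apply isResW_pvResW
  apply exists_isResW
  · exact pvPoly_monic B hp.sum_one
  · exact pvPoly_roots_real hp hB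
  · exact pvPoly_degree_erase_lt B hp hv
  · exact pvPoly_conj _ hB
  · intro z hz
    have h := pv_F_im hp hB hv hz
    rw [← inv_div, Complex.inv_im]
    have h2 := Complex.normSq_nonneg ((pvPoly p B S).eval z / (pvPoly p B (S.erase v)).eval z)
    apply div_nonpos_of_nonpos_of_nonneg _ h2
    linarith

/-- expansion in the principal minors at `0` -/
theorem pvPoly_eq_sum {p : V → J → ℝ} (B : J → V → V → ℂ) {S : Finset V}
    (hp : ∀ v ∈ S, ∑ j, p v j = 1) :
    pvPoly p B S = ∑ R ∈ S.powerset, C (pvMix p B R 0) * X ^ (S.card - R.card) := by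
  refine Polynomial.funext fun x => ?_
  rw [pvPoly_eval, Polynomial.eval_finsetSum]
  have h := pvMix_add p B S 0 (fun _ => x) hp
  rw [zero_add] at h
  rw [h]
  refine Finset.sum_nbij' (fun R => S \ R) (fun R => S \ R) ?_ ?_ ?_ ?_ ?_
  · intro R _; exact Finset.mem_powerset.2 Finset.sdiff_subset
  · intro R _; exact Finset.mem_powerset.2 Finset.sdiff_subset
  · intro R hR; exact Finset.sdiff_sdiff_eq_self (Finset.mem_powerset.1 hR)
  · intro R hR; exact Finset.sdiff_sdiff_eq_self (Finset.mem_powerset.1 hR)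
  · intro R hR
    have hR' := Finset.mem_powerset.1 hR
    rw [Finset.prod_const, Polynomial.eval_mul, Polynomial.eval_C, Polynomial.eval_pow,
      Polynomial.eval_X, Finset.card_sdiff_of_subset hR', mul_comm]
    congr 2
    have := Finset.card_le_card hR'
    omega

theorem pvPoly_coeff_sub {p : V → J → ℝ} (B : J → V → V → ℂ) {S : Finset V}
    (hp : ∀ v ∈ S, ∑ j, p v j = 1) {k : ℕ} (hk : k ≤ S.card) :
    (pvPoly p B S).coeff (S.card - k) = ∑ R ∈ S.powersetCard k, pvMix p B R 0 := by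
  rw [pvPoly_eq_sum B hp, Polynomial.finsetSum_coeff]
  simp_rw [Polynomial.coeff_C_mul, Polynomial.coeff_X_pow]
  rw [Finset.powersetCard_eq_filter, Finset.sum_filter]
  refine Finset.sum_congr rfl fun R hR => ?_
  have := Finset.card_le_card (Finset.mem_powerset.1 hR)
  by_cases h : R.card = k
  · simp [h]
  · rw [if_neg h, if_neg (by omega), mul_zero]


theorem pvMix_singleton (p : V → J → ℝ) (B : J → V → V → ℂ) (u : V) (z : V → ℂ) :
    pvMix p B {u} z = ∑ j, (p u j : ℂ) * (z u - B j u u) := by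
  rw [pvMix_cond p B z (Finset.mem_singleton_self u)]
  refine Finset.sum_congr rfl fun j _ => ?_
  congr 1
  rw [pvMix_det _ B {u} z (fun _ => j) (by intro v hv; rw [Finset.mem_singleton.1 hv]; simp)]
  have : Unique ({u} : Finset V) := ⟨⟨⟨u, Finset.mem_singleton_self u⟩⟩, fun a => Subtype.ext (Finset.mem_singleton.1 a.2)⟩
  rw [Matrix.det_unique]
  have hd : ((default : ({u} : Finset V)) : V) = u := Finset.mem_singleton.1 (default : ({u} : Finset V)).2
  simp [pvOutMat, hd]


theorem pvMix_pair (p : V → J → ℝ) (B : J → V → V → ℂ) {u w : V} (huw : u ≠ w) (z : V → ℂ) :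
    pvMix p B {u, w} z = (∑ j, (p u j : ℂ) * (z u - B j u u)) * (∑ j, (p w j : ℂ) * (z w - B j w w)) -
      ∑ j, (p u j : ℂ) * (p w j : ℂ) * (B j u w * B j w u) := by
  obtain ⟨e, he⟩ : ∃ e : Fin 2 ≃ ({u, w} : Finset V), Subtype.val ∘ e = ![u, w] := by
    refine ⟨{ toFun := fun i => if i = 0 then ⟨u, by simp⟩ else ⟨w, by simp⟩
              invFun := fun a => if a.1 = u then 0 else 1
              left_inv := ?_
              right_inv := ?_ }, ?_⟩
    · intro i
      fin_cases i
      · simp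
      · simp [huw.symm]
    · intro a
      rcases Finset.mem_insert.1 a.2 with h | h
      · apply Subtype.ext; simp [h]
      · have h' := Finset.mem_singleton.1 h
        apply Subtype.ext; simp [h', huw.symm]
    · ext i
      fin_cases i <;> simp
  rw [pvMix_eq_T, ← pvMixT_equiv e, he]
  unfold pvMixT
  rw [← (finTwoArrowEquiv J).symm.sum_comp, Fintype.sum_prod_type, Finset.sum_mul_sum]
  simp_rw [Fin.prod_univ_two, Matrix.det_fin_two]
  simp only [finTwoArrowEquiv_symm_apply, pvOutT, Matrix.sub_apply, Matrix.diagonal_apply, Matrix.of_apply]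
  simp only [Matrix.cons_val_zero, Matrix.cons_val_one, if_true, one_ne_zero, zero_ne_one, if_false,
    zero_sub]
  rw [← Finset.sum_sub_distrib]
  refine Finset.sum_congr rfl fun j _ => ?_
  have h1 : (p u j : ℂ) * (p w j : ℂ) * (B j u w * B j w u) = ∑ k, if k = j then
      (p u j : ℂ) * (p w j : ℂ) * (B j u w * B j w u) else 0 := by
    rw [Finset.sum_ite_eq' univ j]; simp
  rw [h1, ← Finset.sum_sub_distrib]
  refine Finset.sum_congr rfl fun k _ => ?_
  by_cases hk : k = j
  · subst hk; simp; ring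
  · simp [hk, Ne.symm hk]; ring


theorem PvHerm.diag {B : J → V → V → ℂ} (hB : PvHerm B) (j : J) (u : V) :
    B j u u = ((B j u u).re : ℂ) := by
  have h := hB j u u
  exact (Complex.conj_eq_iff_real.1 h.symm).choose_spec ▸ by simp

theorem pvMix_singleton_zero {p : V → J → ℝ} {B : J → V → V → ℂ} (hB : PvHerm B) (u : V) :
    pvMix p B {u} 0 = (pvShift p B u : ℂ) := by
  rw [pvMix_singleton, pvShift]
  push_cast
  rw [← Finset.sum_neg_distrib]
  refine Finset.sum_congr rfl fun j _ => ?_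
  rw [← hB.diag j u]
  simp

/-- second coefficient: `coeff (card - 1) = ∑ a_u` -/
theorem pvPoly_coeff_pred {p : V → J → ℝ} {B : J → V → V → ℂ} {S : Finset V} (hp : PvProb p S)
    (hB : PvHerm B) (hS : S.Nonempty) :
    (pvPoly p B S).coeff (S.card - 1) = ∑ u ∈ S, (pvShift p B u : ℂ) := by
  rw [pvPoly_coeff_sub B hp.sum_one (Finset.card_pos.2 hS), Finset.powersetCard_one, Finset.sum_map]
  exact Finset.sum_congr rfl fun u _ => pvMix_singleton_zero hB u

theorem pvKapNum_degree_lt {p : V → J → ℝ} {B : J → V → V → ℂ} {S : Finset V} (hp : PvProb p S)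
    (hB : PvHerm B) {v : V} (hv : v ∈ S) :
    (pvKapNum p B S v).degree < (pvPoly p B (S.erase v)).degree := by
  have hQm := pvPoly_monic B (hp.erase v).sum_one
  have hQd := pvPoly_natDegree B (hp.erase v).sum_one
  have hPd := pvPoly_natDegree B hp.sum_one
  have hc := Finset.card_erase_of_mem hv
  have hpos := Finset.card_pos.2 ⟨v, hv⟩
  rw [Polynomial.degree_eq_natDegree hQm.ne_zero, hQd, Polynomial.degree_lt_iff_coeff_zero]
  intro m hm
  unfold pvKapNum
  have hX : ∀ (q : ℂ[X]) (m : ℕ), (X * q).coeff m = if 0 < m then q.coeff (m - 1) else 0 := by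
    intro q m
    cases m with
    | zero => simp
    | succ k => simp [Polynomial.coeff_X_mul]
  rw [Polynomial.coeff_sub, add_mul, Polynomial.coeff_add, Polynomial.coeff_C_mul, hX]
  rcases Nat.lt_or_ge S.card m with h1 | h1
  · rw [if_pos (by omega), Polynomial.coeff_eq_zero_of_natDegree_lt (by omega),
      Polynomial.coeff_eq_zero_of_natDegree_lt (by omega),
      Polynomial.coeff_eq_zero_of_natDegree_lt (by omega)]
    simp
  rcases Nat.eq_or_lt_of_le h1 with h2 | h2
  · subst h2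
    rw [if_pos hpos, ← hc, pvPoly_coeff_card B (hp.erase v).sum_one, pvPoly_coeff_card B hp.sum_one,
      Polynomial.coeff_eq_zero_of_natDegree_lt (by omega)]
    simp
  · have h3 : m = S.card - 1 := by omega
    subst h3
    rw [pvPoly_coeff_pred hp hB ⟨v, hv⟩, ← hc, pvPoly_coeff_card B (hp.erase v).sum_one,
      ← Finset.add_sum_erase S _ hv]
    by_cases h4 : 0 < (S.erase v).card
    · rw [if_pos h4, pvPoly_coeff_pred (hp.erase v) hB (Finset.card_pos.1 h4)]
      ring
    · rw [if_neg h4]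
      have : S.erase v = ∅ := by
        rw [← Finset.card_eq_zero]; omega
      rw [this]; simp

theorem pv_kap_spec {p : V → J → ℝ} {B : J → V → V → ℂ} {S : Finset V} (hp : PvProb p S)
    (hB : PvHerm B) {v : V} (hv : v ∈ S) :
    IsResW (pvPoly p B (S.erase v)) (pvKapNum p B S v)
      (pvResW (pvPoly p B (S.erase v)) (pvKapNum p B S v)) := by
  apply isResW_pvResW
  apply exists_isResW
  · exact pvPoly_monic B (hp.erase v).sum_one
  · exact pvPoly_roots_real (hp.erase v) hB
  · exact pvKapNum_degree_lt hp hB hv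
  · intro z
    unfold pvKapNum
    simp only [Polynomial.eval_sub, Polynomial.eval_mul, Polynomial.eval_add, Polynomial.eval_X,
      Polynomial.eval_C, pvPoly_conj _ hB, map_sub, map_mul, map_add, Complex.conj_ofReal]
  · intro z hz
    have h := pv_F_im hp hB hv hz
    have hQ : (pvPoly p B (S.erase v)).eval z ≠ 0 := by
      rw [pvPoly_eval]
      exact pvMix_ne_zero (hp.erase v) (hB.imLe _) (fun _ _ => hz)
    have : (pvKapNum p B S v).eval z / (pvPoly p B (S.erase v)).eval z =
        z + (pvShift p B v : ℂ) - (pvPoly p B S).eval z / (pvPoly p B (S.erase v)).eval z := by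
      unfold pvKapNum
      simp only [Polynomial.eval_sub, Polynomial.eval_mul, Polynomial.eval_add, Polynomial.eval_X,
        Polynomial.eval_C]
      field_simp
    rw [this]
    simp only [Complex.sub_im, Complex.add_im, Complex.ofReal_im]
    linarith


/-- LINK with the arrow matrix: poles = distinct roots of the deletion polynomial. -/
theorem pv_arrow_link {p : V → J → ℝ} {B : J → V → V → ℂ} {S : Finset V} (hp : PvProb p S)
    (hB : PvHerm B) {v : V} (hv : v ∈ S) (f : ℝ → ℝ) :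
    let Kf := (pvPoly p B (S.erase v)).roots.toFinset
    let b : Kf → ℝ := fun k => pvResW (pvPoly p B (S.erase v)) (pvKapNum p B S v) k
    let lam : Kf → ℝ := fun k => (k : ℂ).re
    pvRho (pvPoly p B S) (pvPoly p B (S.erase v)) f = arrowRho (pvShift p B v) b lam f ∧
      pvRootSum (pvPoly p B S) f - pvRootSum (pvPoly p B (S.erase v)) f =
        arrowTr (pvShift p B v) b lam f - ∑ k, f (lam k) :=
  arrow_link_abs (pvPoly_monic B (hp.erase v).sum_one) (pvPoly_roots_real (hp.erase v) hB)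
    (pv_kap_spec hp hB hv) f

theorem pv_sum_rho {p : V → J → ℝ} {B : J → V → V → ℂ} {S : Finset V} (hp : PvProb p S)
    (hB : PvHerm B) (f : ℝ → ℝ) :
    ∑ v ∈ S, pvRho (pvPoly p B S) (pvPoly p B (S.erase v)) f = pvRootSum (pvPoly p B S) f := by
  have h1 := isResW_finset_sum S (fun v hv => pv_rho_spec hp hB hv)
  rw [← pvPoly_derivative B hp.sum_one] at h1
  have h2 := isResW_unique h1 (isResW_derivative (pvPoly p B S))
  rw [pvRootSum_eq_count]
  unfold pvRho
  rw [Finset.sum_comm]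
  refine Finset.sum_congr rfl fun μ _ => ?_
  rw [← Finset.sum_mul]
  congr 1
  exact congrFun h2 μ

theorem pv_count_interlace {p : V → J → ℝ} {B : J → V → V → ℂ} {S : Finset V} (hp : PvProb p S)
    (hB : PvHerm B) {v : V} (hv : v ∈ S) (x : ℝ) :
    pvCount (pvPoly p B (S.erase v)) x ≤ pvCount (pvPoly p B S) x ∧
      pvCount (pvPoly p B S) x ≤ pvCount (pvPoly p B (S.erase v)) x + 1 :=
  count_interlace_abs (pvPoly_monic B (hp.erase v).sum_one) (pvPoly_roots_real (hp.erase v) hB)
    (pv_kap_spec hp hB hv) x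

/-- positivity to the right of all roots -/
theorem pvPoly_pos_of_gt {p : V → J → ℝ} {B : J → V → V → ℂ} {S : Finset V}
    (hp : PvProb p S) (hB : PvHerm B) {x : ℝ} (hx : ∀ y ∈ (pvPoly p B S).roots, y.re < x) :
    0 < ((pvPoly p B S).eval (x : ℂ)).re :=
  (monic_eval_pos (pvPoly_monic B hp.sum_one) (pvPoly_roots_real hp hB) hx).1

/-- values on the real axis are real -/
theorem pvPoly_eval_real_im {p : V → J → ℝ} {B : J → V → V → ℂ} (S : Finset V) (hB : PvHerm B)
    (x : ℝ) : ((pvPoly p B S).eval (x : ℂ)).im = 0 := by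
  have h := pvPoly_conj (p := p) S hB (x : ℂ)
  rw [Complex.conj_ofReal] at h
  exact Complex.conj_eq_iff_im.1 h.symm

/-- deleting a site does not increase the largest root -/
theorem maxroot_erase {p : V → J → ℝ} {B : J → V → V → ℂ} {S : Finset V}
    (hp : PvProb p S) (hB : PvHerm B) {v : V} (hv : v ∈ S) {x : ℝ}
    (hx : ∀ y ∈ (pvPoly p B S).roots, y.re ≤ x) : ∀ y ∈ (pvPoly p B (S.erase v)).roots, y.re ≤ x := by
  rw [← pvCount_eq_zero_iff] at hx ⊢
  have := (pv_count_interlace hp hB hv x).1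
  omega

theorem maxroot_subset {p : V → J → ℝ} {B : J → V → V → ℂ} {S S' : Finset V}
    (hp : PvProb p S) (hB : PvHerm B) (hS : S' ⊆ S) {x : ℝ}
    (hx : ∀ y ∈ (pvPoly p B S).roots, y.re ≤ x) : ∀ y ∈ (pvPoly p B S').roots, y.re ≤ x := by
  have key : ∀ T : Finset V, T ⊆ S → ∀ y ∈ (pvPoly p B (S \ T)).roots, y.re ≤ x := by
    intro T
    induction T using Finset.induction_on with
    | empty => intro _; simpa using hx
    | insert a T ha ih =>
      intro hT
      have h1 := ih fun u hu => hT (Finset.mem_insert_of_mem hu)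
      have h2 : S \ insert a T = (S \ T).erase a := by
        ext u; simp only [Finset.mem_sdiff, Finset.mem_insert, Finset.mem_erase]; tauto
      rw [h2]
      exact maxroot_erase (hp.mono Finset.sdiff_subset) hB
        (Finset.mem_sdiff.2 ⟨hT (Finset.mem_insert_self _ _), ha⟩) h1
  have := key (S \ S') Finset.sdiff_subset
  rwa [Finset.sdiff_sdiff_eq_self hS] at this

theorem pvMix_pair_zero {p : V → J → ℝ} {B : J → V → V → ℂ} (hB : PvHerm B) {u w : V} (huw : u ≠ w) :
    pvMix p B {u, w} 0 = (pvShift p B u : ℂ) * (pvShift p B w : ℂ) -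
      ((∑ j, p u j * p w j * ‖B j u w‖ ^ 2 : ℝ) : ℂ) := by
  rw [pvMix_pair p B huw, ← pvMix_singleton, ← pvMix_singleton, pvMix_singleton_zero hB,
    pvMix_singleton_zero hB]
  congr 1
  push_cast
  refine Finset.sum_congr rfl fun j _ => ?_
  rw [hB j w u, Complex.mul_conj, Complex.normSq_eq_norm_sq]
  push_cast
  ring

/-- sum of the principal `2 × 2` minors: effect of one site -/
theorem pv_e2_insert (g : Finset V → ℂ) {T : Finset V} {v : V} (hv : v ∉ T) :
    ∑ R ∈ (insert v T).powersetCard 2, g R = ∑ R ∈ T.powersetCard 2, g R + ∑ u ∈ T, g {v, u} := by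
  rw [Finset.powersetCard_succ_insert hv, Finset.sum_union, Finset.sum_image, Finset.powersetCard_one,
    Finset.sum_map]
  · rfl
  · intro A hA A' hA' h
    have h1 : v ∉ A := fun h => hv ((Finset.mem_powersetCard.1 hA).1 h)
    have h2 : v ∉ A' := fun h => hv ((Finset.mem_powersetCard.1 hA').1 h)
    rw [← Finset.erase_insert h1, ← Finset.erase_insert h2, h]
  · rw [Finset.disjoint_left]
    intro A hA hA'
    obtain ⟨A'', _, rfl⟩ := Finset.mem_image.1 hA'
    exact hv ((Finset.mem_powersetCard.1 hA).1 (Finset.mem_insert_self _ _))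

/-- total mass of the residue measure = expected squared couplings -/
theorem pv_kap_one {p : V → J → ℝ} {B : J → V → V → ℂ} {S : Finset V} (hp : PvProb p S)
    (hB : PvHerm B) {v : V} (hv : v ∈ S) :
    pvRho (pvPoly p B (S.erase v)) (pvKapNum p B S v) (fun _ => 1) =
      ∑ u ∈ S.erase v, ∑ j, p v j * p u j * ‖B j v u‖ ^ 2 := by
  have hQm := pvPoly_monic B (hp.erase v).sum_one
  have hQd := pvPoly_natDegree B (hp.erase v).sum_one
  have hdeg := pvKapNum_degree_lt hp hB hv
  have h1 := isResW_sum_coeff (pv_kap_spec hp hB hv) hQm hdeg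
  have hc := Finset.card_erase_of_mem hv
  have hpos := Finset.card_pos.2 ⟨v, hv⟩
  have hX : ∀ (q : ℂ[X]) (m : ℕ), (X * q).coeff m = if 0 < m then q.coeff (m - 1) else 0 := by
    intro q m
    cases m with
    | zero => simp
    | succ k => simp [Polynomial.coeff_X_mul]
  have h2 : (pvKapNum p B S v).coeff ((pvPoly p B (S.erase v)).natDegree - 1) =
      ((∑ u ∈ S.erase v, ∑ j, p v j * p u j * ‖B j v u‖ ^ 2 : ℝ) : ℂ) := by
    rw [hQd]
    rcases Nat.eq_zero_or_pos (S.erase v).card with h0 | h0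
    · have hT : S.erase v = ∅ := Finset.card_eq_zero.1 h0
      rw [Polynomial.degree_eq_natDegree hQm.ne_zero, hQd, h0] at hdeg
      have hN : pvKapNum p B S v = 0 := by
        rw [← Polynomial.degree_eq_bot]
        exact Nat.WithBot.lt_zero_iff.1 (by exact_mod_cast hdeg)
      rw [hN, hT]; simp
    · have hS : S = insert v (S.erase v) := (Finset.insert_erase hv).symm
      have e2 : (pvPoly p B S).coeff ((S.erase v).card - 1) =
          ∑ R ∈ (S.erase v).powersetCard 2, pvMix p B R 0 + ∑ u ∈ S.erase v, pvMix p B {v, u} 0 := by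
        rw [← pv_e2_insert (fun R => pvMix p B R 0) (Finset.notMem_erase v S), ← hS,
          ← pvPoly_coeff_sub B hp.sum_one (by omega)]
        congr 1
        omega
      have e3 : (X * pvPoly p B (S.erase v)).coeff ((S.erase v).card - 1) =
          ∑ R ∈ (S.erase v).powersetCard 2, pvMix p B R 0 := by
        rw [hX]
        by_cases h3 : 0 < (S.erase v).card - 1
        · rw [if_pos h3, ← pvPoly_coeff_sub B (hp.erase v).sum_one (by omega)]
          congr 1
        · rw [if_neg h3, Finset.powersetCard_eq_empty.2 (by omega)]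
          simp
      unfold pvKapNum
      rw [Polynomial.coeff_sub, add_mul, Polynomial.coeff_add, Polynomial.coeff_C_mul, e2, e3,
        pvPoly_coeff_pred (hp.erase v) hB (Finset.card_pos.1 h0), Finset.mul_sum]
      rw [add_sub_add_left_eq_sub, ← Finset.sum_sub_distrib]
      push_cast
      refine Finset.sum_congr rfl fun u hu => ?_
      rw [pvMix_pair_zero hB (Finset.ne_of_mem_erase hu).symm]
      push_cast
      ring
  rw [h2] at h1
  unfold pvRho
  simp only [mul_one]
  exact_mod_cast h1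

end
end Claimed.Agent.R302
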