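/-
R302 / Poly / BoundsA  (package Poly-Bounds-rest, part A; helper261)
General lemmas on the mixed polynomials used by Bounds.lean (prefix pvb_):
diagonal shifts, kernels at impossible options, isolated sites, upward closedness of positivity,
`χ[L,0] = det(z - L/2)`, and the lower bound `λ_max χ[L,-L] ≥ ‖L‖/2` by decoupling the sites one after the other.
-/
import Claimed.Agent.R302.Poly.Root

set_option autoImplicit false
set_option linter.unusedSectionVars false

namespace Claimed.Agent.R302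

open Finset Polynomial
open scoped BigOperators ComplexConjugate

noncomputable section

variable {V : Type*} [DecidableEq V] {J : Type*} [Fintype J] [DecidableEq J]

/-- a diagonal shift of all kernels is a shift of the variables -/
theorem pvb_shift (p : V → J → ℝ) (B : J → V → V → ℂ) (S : Finset V) (z a : V → ℂ) :
    pvMix p (fun j u v => B j u v - if u = v then a v else 0) S z =
      pvMix p B S (fun v => z v + a v) := by
  unfold pvMix
  refine Finset.sum_congr rfl fun ω _ => ?_
  congr 2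
  ext u v
  by_cases h : u = v
  · subst h; simp [pvOutMat]; ring
  · simp [pvOutMat, h]

theorem pvPoly_congr {p p' : V → J → ℝ} {B B' : J → V → V → ℂ} {S : Finset V}
    (hp : ∀ v ∈ S, p v = p' v) (hB : ∀ j, ∀ u ∈ S, ∀ v ∈ S, B j u v = B' j u v) :
    pvPoly p B S = pvPoly p' B' S := by
  apply Polynomial.funext
  intro x
  rw [pvPoly_eval, pvPoly_eval]
  exact pvMix_congr hp hB fun _ _ => rfl

/-- if `v` takes the option `j₀` almost surely, the other kernels may be changed at `v` -/
theorem pvb_congr_of_det {p : V → J → ℝ} {B B' : J → V → V → ℂ} {S : Finset V} {z : V → ℂ} {v : V}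
    (hv : v ∈ S) {j₀ : J} (hp : ∀ j, j ≠ j₀ → p v j = 0)
    (hB : ∀ j u w, (j = j₀ ∨ (u ≠ v ∧ w ≠ v)) → B j u w = B' j u w) :
    pvMix p B S z = pvMix p B' S z := by
  unfold pvMix
  refine Finset.sum_congr rfl fun ω _ => ?_
  by_cases h : ω ⟨v, hv⟩ = j₀
  · congr 3
    ext u w
    simp only [pvOutMat, Matrix.of_apply]
    split_ifs with huw
    · by_cases hu : ω u = j₀
      · exact hB _ _ _ (Or.inl hu)
      · refine hB _ _ _ (Or.inr ⟨?_, ?_⟩)
        · intro e
          apply hu
          have : u = ⟨v, hv⟩ := Subtype.ext e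
          rw [this, h]
        · intro e
          apply hu
          have : w = ⟨v, hv⟩ := Subtype.ext e
          rw [huw, this, h]
    · rfl
  · rw [pvWt_split p hv, hp _ h]
    simp

/-- a site which is isolated (zero row, zero diagonal) in its almost sure option factors out -/
theorem pvb_isolated {p : V → J → ℝ} {B : J → V → V → ℂ} {S : Finset V} (z : V → ℂ) {v : V}
    (hv : v ∈ S) {j₀ : J} (hp : ∀ j, j ≠ j₀ → p v j = 0) (hp1 : ∑ j, p v j = 1)
    (hB : ∀ u ∈ S, B j₀ v u = 0) :
    pvMix p B S z = z v * pvMix p B (S.erase v) z := by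
  have h := pvMix_update_z p B z hv hp1 (z v)
  rw [Function.update_eq_self] at h
  rw [h]
  have h0 : pvMix p B S (Function.update z v 0) = 0 := by
    unfold pvMix
    refine Finset.sum_eq_zero fun ω _ => ?_
    by_cases hω : ω ⟨v, hv⟩ = j₀
    · have : (Matrix.diagonal (fun u : S => Function.update z v 0 u) - pvOutMat B S ω).det = 0 := by
        refine Matrix.det_eq_zero_of_row_eq_zero ⟨v, hv⟩ fun u => ?_
        by_cases hu : (⟨v, hv⟩ : S) = u
        · subst hu
          simp [pvOutMat, hω, hB v hv]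
        · simp only [Matrix.sub_apply, Matrix.diagonal_apply, hu, if_false, pvOutMat,
            Matrix.of_apply, hω]
          split_ifs
          · simp [hB u u.2]
          · simp
      rw [this, mul_zero]
    · rw [pvWt_split p hv, hp _ hω]
      simp
  rw [h0, zero_add]

/-- positivity of all principal evaluations is preserved when the coordinates are increased -/
theorem pvb_pos_mono {p : V → J → ℝ} {B : J → V → V → ℂ} {S : Finset V}
    (hp : ∀ v ∈ S, ∑ j, p v j = 1) (b q : V → ℝ) (hbq : ∀ v ∈ S, b v ≤ q v)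
    (hpos : ∀ S' ⊆ S, 0 < (pvMix p B S' (fun v => (b v : ℂ))).re) :
    0 < (pvMix p B S (fun v => (q v : ℂ))).re := by
  have h := pvMix_add p B S (fun v => (b v : ℂ)) (fun v => ((q v - b v : ℝ) : ℂ)) hp
  have hz : ((fun v => (b v : ℂ)) + fun v => ((q v - b v : ℝ) : ℂ)) = fun v => (q v : ℂ) := by
    funext v
    simp
  rw [hz] at h
  rw [h, Complex.re_sum]
  have hterm : ∀ R ∈ S.powerset,
      ((∏ v ∈ R, ((q v - b v : ℝ) : ℂ)) * pvMix p B (S \ R) (fun v => (b v : ℂ))).re =
        (∏ v ∈ R, (q v - b v)) * (pvMix p B (S \ R) (fun v => (b v : ℂ))).re := by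
    intro R _
    rw [← Complex.ofReal_prod, Complex.re_ofReal_mul]
  rw [Finset.sum_congr rfl hterm]
  refine Finset.sum_pos' (fun R hR => ?_) ⟨∅, Finset.empty_mem_powerset S, ?_⟩
  · refine mul_nonneg (Finset.prod_nonneg fun v hv => ?_) (hpos _ Finset.sdiff_subset).le
    have := hbq v (Finset.mem_powerset.mp hR hv)
    linarith
  · simpa using hpos S (Finset.Subset.refl S)

/-! ### `χ[L,0] = det(z - L/2)` -/

/-- the fair coin -/
def pvbCoin : V → Bool → ℝ := fun _ _ => 1 / 2

theorem pvbCoin_prob (S : Finset V) : PvProb (pvbCoin : V → Bool → ℝ) S := by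
  intro v _
  refine ⟨fun j => by unfold pvbCoin; norm_num, ?_⟩
  simp [pvbCoin]

/-- value at `0` of `χ[L,0]` -/
theorem pvb_half_zero (L : V → V → ℂ) (S : Finset V) :
    pvMix pvbCoin (fun σ u v => if σ then L u v else 0) S 0 =
      (-(Matrix.of fun u v : S => (1 / 2 : ℂ) * L u v)).det := by
  unfold pvMix
  rw [Finset.sum_eq_single (fun _ : S => true)]
  · have h1 : pvWt pvbCoin S (fun _ : S => true) = (1 / 2 : ℂ) ^ Fintype.card S := by
      simp [pvWt, pvbCoin]
    have h2 : (Matrix.diagonal (fun v : S => (0 : V → ℂ) v) -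
        pvOutMat (fun σ u v => if σ then L u v else 0) S (fun _ : S => true)) =
        -(Matrix.of fun u v : S => L u v) := by
      ext u v
      simp [pvOutMat]
    have h3 : (-(Matrix.of fun u v : S => (1 / 2 : ℂ) * L u v)) =
        (1 / 2 : ℂ) • (-(Matrix.of fun u v : S => L u v)) := by
      ext u v
      simp
    rw [h1, h2, h3, Matrix.det_smul]
  · intro ω _ hω
    have : ∃ v : S, ω v = false := by
      by_contra hcon
      apply hω
      funext v
      by_contra h
      exact hcon ⟨v, by simpa using h⟩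
    obtain ⟨v, hv⟩ := this
    have : (Matrix.diagonal (fun v : S => (0 : V → ℂ) v) -
        pvOutMat (fun σ u v => if σ then L u v else 0) S ω).det = 0 := by
      refine Matrix.det_eq_zero_of_row_eq_zero v fun u => ?_
      simp [pvOutMat, hv]
    rw [this, mul_zero]
  · intro h; exact absurd (Finset.mem_univ _) h

/-- `χ[L,0](Z) = det(Z - L/2)` -/
theorem pvb_half (L : V → V → ℂ) (S : Finset V) (z : V → ℂ) :
    pvMix pvbCoin (fun σ u v => if σ then L u v else 0) S z =
      (Matrix.diagonal (fun v : S => z v) - Matrix.of fun u v : S => (1 / 2 : ℂ) * L u v).det := by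
  -- the deterministic model
  set p₁ : V → Bool → ℝ := fun _ => Pi.single true 1 with hp₁
  set B₁ : Bool → V → V → ℂ := fun _ u v => (1 / 2 : ℂ) * L u v with hB₁
  have hdet : ∀ (S' : Finset V) (z' : V → ℂ), pvMix p₁ B₁ S' z' =
      (Matrix.diagonal (fun v : S' => z' v) - Matrix.of fun u v : S' => (1 / 2 : ℂ) * L u v).det := by
    intro S' z'
    rw [pvMix_det p₁ B₁ S' z' (fun _ => true) (fun _ _ => rfl)]
    congr 2
  rw [← hdet]
  have e1 := pvMix_add pvbCoin (fun σ u v => if σ then L u v else 0) S 0 z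
    (fun v hv => (pvbCoin_prob S v hv).2)
  have e2 := pvMix_add p₁ B₁ S 0 z (fun v _ => by simp [hp₁])
  rw [zero_add] at e1 e2
  rw [e1, e2]
  refine Finset.sum_congr rfl fun R _ => ?_
  rw [pvb_half_zero, hdet]
  congr 2
  ext u v
  simp

/-! ### forms and roots of Hermitian matrices -/

open scoped Matrix ComplexOrder Pointwise in
theorem pvb_form_le_of_roots {n : Type*} [Fintype n] [DecidableEq n] {M : Matrix n n ℂ}
    (hM : M.IsHermitian) {X : ℝ} (h : ∀ y ∈ M.charpoly.roots, y.re ≤ X) (x : n → ℂ) :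
    (∑ i, ∑ j, conj (x i) * M i j * x j).re ≤ X * ∑ i, ‖x i‖ ^ 2 := by
  have hμ : ∀ i, hM.eigenvalues i ≤ X := by
    intro i
    have : ((hM.eigenvalues i : ℝ) : ℂ) ∈ M.charpoly.roots := by
      rw [hM.roots_charpoly_eq_eigenvalues]
      exact Multiset.mem_map.mpr ⟨i, Finset.mem_univ_val i, rfl⟩
    simpa using h _ this
  set N : Matrix n n ℂ := algebraMap ℝ (Matrix n n ℂ) X - M with hN
  have hNh : N.IsHermitian := by
    refine Matrix.IsHermitian.sub ?_ hM
    rw [Matrix.algebraMap_eq_diagonal]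
    exact Matrix.isHermitian_diagonal_of_self_adjoint _ (by
      funext i
      simp [Pi.star_apply])
  have hpsd : N.PosSemidef := by
    rw [hNh.posSemidef_iff_eigenvalues_nonneg]
    intro i
    have h1 := hNh.eigenvalues_mem_spectrum_real i
    have h0 : spectrum ℝ N = ({X} : Set ℝ) - Set.range hM.eigenvalues := by
      rw [hN, ← spectrum.singleton_sub_eq, hM.spectrum_real_eq_range_eigenvalues]
    rw [h0] at h1
    obtain ⟨a, ha, b, ⟨j, rfl⟩, hab⟩ := h1
    rw [Set.mem_singleton_iff] at ha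
    subst ha
    have := hμ j
    simp only [Pi.zero_apply]
    rw [← hab]
    simp only [sub_nonneg, ge_iff_le]
    linarith
  have h2 := hpsd.re_dotProduct_nonneg x
  have h3 : star x ⬝ᵥ (N *ᵥ x) =
      ((X * ∑ i, ‖x i‖ ^ 2 : ℝ) : ℂ) - ∑ i, ∑ j, conj (x i) * M i j * x j := by
    simp only [dotProduct, Matrix.mulVec, hN, Matrix.sub_apply, Matrix.algebraMap_eq_diagonal,
      Matrix.diagonal_apply, Pi.star_apply, sub_mul, Finset.sum_sub_distrib, mul_sub]
    congr 1
    · push_cast
      rw [Finset.mul_sum]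
      refine Finset.sum_congr rfl fun i _ => ?_
      simp only [Pi.algebraMap_apply, ite_mul, zero_mul, Finset.sum_ite_eq, Finset.mem_univ,
        if_true]
      have : ((‖x i‖ : ℂ)) ^ 2 = conj (x i) * x i := by
        rw [Complex.conj_mul']
      rw [this]
      simp
      ring
    · refine Finset.sum_congr rfl fun i _ => ?_
      rw [Finset.mul_sum]
      refine Finset.sum_congr rfl fun j _ => ?_
      simp
      ring
  rw [h3] at h2
  simp only [RCLike.re_to_complex, Complex.sub_re, Complex.ofReal_re] at h2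
  linarith

/-! ### the arrow quotient on the real axis -/

/-- `P_S(x) ≤ (x + a_v) P_{S-v}(x)` to the right of the roots of the deletion polynomial -/
theorem pvb_le_of_kap {p : V → J → ℝ} {B : J → V → V → ℂ} {S : Finset V} (hp : PvProb p S)
    (hB : PvHerm B) {v : V} (hv : v ∈ S) {x : ℝ}
    (hx : ∀ y ∈ (pvPoly p B (S.erase v)).roots, y.re < x) :
    ((pvPoly p B S).eval (x : ℂ)).re ≤
      (x + pvShift p B v) * ((pvPoly p B (S.erase v)).eval (x : ℂ)).re := by
  obtain ⟨hw0, -, hw⟩ := pv_kap_spec hp hB hv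
  have hp' : PvProb p (S.erase v) := hp.mono (Finset.erase_subset v S)
  have hQpos := pvPoly_pos_of_gt hp' hB hx
  set Q := pvPoly p B (S.erase v) with hQ
  set w := pvResW Q (pvKapNum p B S v) with hwdef
  have hQne : Q.eval (x : ℂ) ≠ 0 := by
    intro h0
    rw [h0] at hQpos
    simp at hQpos
  have h1 := hw x hQne
  have h2 : ∑ μ ∈ Q.roots.toFinset, (w μ : ℂ) / ((x : ℂ) - μ) =
      ((∑ μ ∈ Q.roots.toFinset, w μ / (x - μ.re) : ℝ) : ℂ) := by
    push_cast
    refine Finset.sum_congr rfl fun μ hμ => ?_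
    have him := pvPoly_roots_real hp' hB μ (Multiset.mem_toFinset.mp hμ)
    have : μ = (μ.re : ℂ) := Complex.ext (by simp) (by simpa using him)
    rw [this]
    simp
  have hc : 0 ≤ ∑ μ ∈ Q.roots.toFinset, w μ / (x - μ.re) := by
    refine Finset.sum_nonneg fun μ hμ => div_nonneg (hw0 μ) ?_
    have := hx μ (Multiset.mem_toFinset.mp hμ)
    linarith
  set c := ∑ μ ∈ Q.roots.toFinset, w μ / (x - μ.re) with hcdef
  rw [h2, div_eq_iff hQne] at h1
  have h3 : (pvKapNum p B S v).eval (x : ℂ) =
      ((x + pvShift p B v : ℝ) : ℂ) * Q.eval (x : ℂ) - (pvPoly p B S).eval (x : ℂ) := by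
    unfold pvKapNum
    simp [hQ]
  rw [h3] at h1
  have h4 := congrArg Complex.re h1
  rw [Complex.sub_re, Complex.re_ofReal_mul, Complex.re_ofReal_mul] at h4
  nlinarith

/-! ### decoupling -/

/-- hybrid kernels: the sites of `A` are decoupled in the member `-L` -/
def pvbHyb (L : V → V → ℂ) (A : Finset V) : Bool → V → V → ℂ :=
  fun σ u v => if σ then L u v else if u ∈ A ∨ v ∈ A then 0 else -L u v

theorem pvbHyb_herm {L : V → V → ℂ} (hL : ∀ u v, L u v = conj (L v u)) (A : Finset V) :
    PvHerm (pvbHyb L A) := by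
  intro σ u v
  unfold pvbHyb
  cases σ
  · by_cases h : u ∈ A ∨ v ∈ A
    · simp [h, h.symm]
    · have h' : ¬ (v ∈ A ∨ u ∈ A) := fun e => h e.symm
      simp only [Bool.false_eq_true, if_false, h, h', map_neg]
      rw [← hL]
  · simpa using hL u v

theorem pvbHyb_diag {L : V → V → ℂ} (hz : ∀ v, L v v = 0) (A : Finset V) (σ : Bool) (v : V) :
    pvbHyb L A σ v v = 0 := by
  unfold pvbHyb
  split_ifs <;> simp [hz]

theorem pvb_step {L : V → V → ℂ} (hL : ∀ u v, L u v = conj (L v u)) (hz : ∀ v, L v v = 0)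
    {S A : Finset V} {v : V} (hv : v ∈ S) {X : ℝ}
    (hX : ∀ y ∈ (pvPoly pvbCoin (pvbHyb L A) S).roots, y.re ≤ X) :
    ∀ y ∈ (pvPoly pvbCoin (pvbHyb L (insert v A)) S).roots, y.re ≤ X := by
  have hB := pvbHyb_herm hL A
  have hB' := pvbHyb_herm hL (insert v A)
  have hp := pvbCoin_prob (V := V) S
  refine maxroot_le_of_eval_le (Q := pvPoly pvbCoin (pvbHyb L A) (S.erase v))
    (pvPoly_monic _ fun u hu => (hp u hu).2) (pvPoly_roots_real hp hB) (pvPoly_roots_real hp hB')
    (fun x hx => maxroot_erase hp hB hv hx) ?_ hX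
  intro x hx
  rw [pvPoly_eval, pvPoly_eval, pvMix_cond pvbCoin (pvbHyb L A) _ hv,
    pvMix_cond pvbCoin (pvbHyb L (insert v A)) _ hv, Fintype.sum_bool, Fintype.sum_bool]
  set pt : V → Bool → ℝ := Function.update pvbCoin v (Pi.single true 1) with hpt
  set pf : V → Bool → ℝ := Function.update pvbCoin v (Pi.single false 1) with hpf
  have e1 : pvMix pt (pvbHyb L A) S (fun _ => (x : ℂ)) =
      pvMix pt (pvbHyb L (insert v A)) S (fun _ => (x : ℂ)) := by
    refine pvb_congr_of_det hv (j₀ := true) ?_ ?_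
    · intro j hj
      simp [hpt, hj]
    · rintro j u w (rfl | ⟨hu, hw⟩)
      · simp [pvbHyb]
      · simp [pvbHyb, hu, hw]
  have hoff : ∀ u ∈ S.erase v, pf u = pvbCoin u := by
    intro u hu
    simp [hpf, Finset.ne_of_mem_erase hu]
  have e2 : pvMix pf (pvbHyb L (insert v A)) S (fun _ => (x : ℂ)) =
      (x : ℂ) * (pvPoly pvbCoin (pvbHyb L A) (S.erase v)).eval (x : ℂ) := by
    rw [pvb_isolated (fun _ => (x : ℂ)) hv (j₀ := false) ?_ ?_ ?_, pvPoly_eval]
    · congr 1
      refine pvMix_congr hoff ?_ fun _ _ => rfl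
      intro j u hu w hw
      simp [pvbHyb, Finset.ne_of_mem_erase hu, Finset.ne_of_mem_erase hw]
    · intro j hj
      simp [hpf, hj]
    · simp [hpf]
    · intro u _
      simp [pvbHyb]
  have e3 : (pvMix pf (pvbHyb L A) S (fun _ => (x : ℂ))).re ≤
      x * ((pvPoly pvbCoin (pvbHyb L A) (S.erase v)).eval (x : ℂ)).re := by
    have hpfp : PvProb pf S := hp.update v false
    have hQ : pvPoly pf (pvbHyb L A) (S.erase v) = pvPoly pvbCoin (pvbHyb L A) (S.erase v) :=
      pvPoly_congr hoff fun _ _ _ _ _ => rfl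
    have h := pvb_le_of_kap hpfp hB hv (x := x) (by rw [hQ]; exact hx)
    have hs : pvShift pf (pvbHyb L A) v = 0 := by
      unfold pvShift
      simp [pvbHyb_diag hz]
    rw [hQ, hs, add_zero, pvPoly_eval] at h
    exact h
  rw [e1, e2, Complex.add_re, Complex.add_re, Complex.re_ofReal_mul, Complex.re_ofReal_mul,
    Complex.re_ofReal_mul, Complex.re_ofReal_mul]
  have : (0 : ℝ) ≤ pvbCoin v false := by unfold pvbCoin; norm_num
  nlinarith

theorem pvb_decouple {L : V → V → ℂ} (hL : ∀ u v, L u v = conj (L v u)) (hz : ∀ v, L v v = 0)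
    {S : Finset V} {X : ℝ} (hX : ∀ y ∈ (pvPoly pvbCoin (pvbHyb L ∅) S).roots, y.re ≤ X)
    (A : Finset V) (hA : A ⊆ S) : ∀ y ∈ (pvPoly pvbCoin (pvbHyb L A) S).roots, y.re ≤ X := by
  induction A using Finset.induction_on with
  | empty => exact hX
  | insert v A _ ih =>
    exact pvb_step hL hz (hA (Finset.mem_insert_self v A))
      (ih fun u hu => hA (Finset.mem_insert_of_mem hu))

/-- the polynomial `χ[L,0]` is the characteristic polynomial of `L/2` -/
theorem pvb_half_poly (L : V → V → ℂ) (S : Finset V) :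
    pvPoly pvbCoin (fun σ u v => if σ then L u v else 0) S =
      (Matrix.of fun u v : S => (1 / 2 : ℂ) * L u v).charpoly := by
  apply Polynomial.funext
  intro t
  rw [pvPoly_eval, pvb_half, Matrix.eval_charpoly]
  congr 2

/-- one sided lower bound -/
theorem pvb_lower_one {L : V → V → ℂ} (hL : ∀ u v, L u v = conj (L v u)) (hz : ∀ v, L v v = 0)
    {S : Finset V} {X : ℝ}
    (hX : ∀ y ∈ (pvPoly pvbCoin (fun σ u v => if σ then L u v else -L u v) S).roots, y.re ≤ X)
    (x : V → ℂ) :
    (∑ u ∈ S, ∑ v ∈ S, conj (x u) * L u v * x v).re ≤ 2 * X * ∑ u ∈ S, ‖x u‖ ^ 2 := by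
  have h0 : (fun (σ : Bool) u v => if σ then L u v else -L u v) = pvbHyb L ∅ := by
    funext σ u v
    simp [pvbHyb]
  rw [h0] at hX
  have h1 := pvb_decouple hL hz hX S (Finset.Subset.refl S)
  have h2 : pvPoly pvbCoin (pvbHyb L S) S =
      pvPoly pvbCoin (fun σ u v => if σ then L u v else 0) S := by
    refine pvPoly_congr (fun _ _ => rfl) ?_
    intro j u hu v _
    simp [pvbHyb, hu]
  rw [h2, pvb_half_poly] at h1
  have hM : (Matrix.of fun u v : S => (1 / 2 : ℂ) * L u v).IsHermitian := by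
    ext u v
    simp only [Matrix.conjTranspose_apply, Matrix.of_apply, star_mul']
    rw [hL u v]
    simp
  have h3 := pvb_form_le_of_roots hM h1 (fun u : S => x u)
  have h4 : ∑ i : S, ∑ j : S, conj (x i) * (Matrix.of fun u v : S => (1 / 2 : ℂ) * L u v) i j * x j =
      (1 / 2 : ℝ) * ∑ u ∈ S, ∑ v ∈ S, conj (x u) * L u v * x v := by
    rw [← Finset.sum_coe_sort S, Finset.mul_sum]
    refine Finset.sum_congr rfl fun u _ => ?_
    rw [← Finset.sum_coe_sort S, Finset.mul_sum]
    refine Finset.sum_congr rfl fun v _ => ?_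
    simp only [Matrix.of_apply]
    push_cast
    ring
  rw [h4, Complex.re_ofReal_mul, Finset.sum_coe_sort S (fun u => ‖x u‖ ^ 2)] at h3
  linarith

/-- the form of a Hermitian kernel is real -/
theorem pvb_form_im {L : V → V → ℂ} (hL : ∀ u v, L u v = conj (L v u)) (S : Finset V) (x : V → ℂ) :
    (∑ u ∈ S, ∑ v ∈ S, conj (x u) * L u v * x v).im = 0 := by
  rw [← Complex.conj_eq_iff_im, map_sum]
  simp_rw [map_sum]
  rw [Finset.sum_comm]
  refine Finset.sum_congr rfl fun u _ => Finset.sum_congr rfl fun v _ => ?_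
  simp only [map_mul, Complex.conj_conj]
  rw [← hL u v]
  ring

/-- LEMMA 4.1, lower bound: `λ_max χ[L,-L] ≥ ‖L‖ / 2`. -/
theorem pvb_mixed_lower {L : V → V → ℂ} {S : Finset V} (hS : S.Nonempty)
    (hL : ∀ u v, L u v = conj (L v u)) (hz : ∀ v, L v v = 0) (x : V → ℂ) :
    ∃ y ∈ (pvPoly (fun _ (_ : Bool) => (1 / 2 : ℝ))
        (fun σ u v => if σ then L u v else -L u v) S).roots,
      ‖∑ u ∈ S, ∑ v ∈ S, conj (x u) * L u v * x v‖ ≤ 2 * y.re * ∑ u ∈ S, ‖x u‖ ^ 2 := by
  change ∃ y ∈ (pvPoly pvbCoin (fun σ u v => if σ then L u v else -L u v) S).roots, _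
  set P := pvPoly pvbCoin (fun σ u v => if σ then L u v else -L u v) S with hP
  have hp := pvbCoin_prob (V := V) S
  have hdeg : P.natDegree = S.card := pvPoly_natDegree _ fun u hu => (hp u hu).2
  have hne : P.roots.toFinset.Nonempty := by
    have hd : P.degree ≠ 0 := by
      intro h0
      have := Polynomial.natDegree_eq_of_degree_eq_some h0
      rw [hdeg] at this
      exact (Finset.card_pos.mpr hS).ne' this
    obtain ⟨y, hy⟩ := IsAlgClosed.exists_root P hd
    have hP0 : P ≠ 0 := by
      intro h0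
      exact (Finset.card_pos.mpr hS).ne' (by rw [h0] at hdeg; simpa using hdeg.symm)
    exact ⟨y, Multiset.mem_toFinset.mpr ((Polynomial.mem_roots hP0).mpr hy)⟩
  obtain ⟨y, hy, hmax⟩ := Finset.exists_max_image P.roots.toFinset (fun y => y.re) hne
  refine ⟨y, Multiset.mem_toFinset.mp hy, ?_⟩
  have hX : ∀ y' ∈ P.roots, y'.re ≤ y.re := fun y' hy' => hmax y' (Multiset.mem_toFinset.mpr hy')
  have h1 := pvb_lower_one hL hz hX x
  -- the same for `-L`
  have hL' : ∀ u v, (fun u v => -L u v) u v = conj ((fun u v => -L u v) v u) := by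
    intro u v
    simp only [map_neg]
    rw [← hL u v]
  have hP' : pvPoly pvbCoin (fun σ u v => if σ then (fun u v => -L u v) u v
      else -(fun u v => -L u v) u v) S = P := by
    apply Polynomial.funext
    intro t
    rw [hP, pvPoly_eval, pvPoly_eval,
      ← pvMix_relabel pvbCoin (fun σ u v => if σ then L u v else -L u v) S _ Equiv.boolNot]
    refine pvMix_congr (fun _ _ => rfl) ?_ fun _ _ => rfl
    intro j u _ v _
    cases j <;> simp
  have h2 := pvb_lower_one hL' (fun v => by simp [hz]) (by rw [hP']; exact hX) x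
  have h3 : ∑ u ∈ S, ∑ v ∈ S, conj (x u) * (fun u v => -L u v) u v * x v =
      -∑ u ∈ S, ∑ v ∈ S, conj (x u) * L u v * x v := by
    rw [← Finset.sum_neg_distrib]
    refine Finset.sum_congr rfl fun u _ => ?_
    rw [← Finset.sum_neg_distrib]
    exact Finset.sum_congr rfl fun v _ => by ring
  rw [h3, Complex.neg_re] at h2
  have him := pvb_form_im hL S x
  set w := ∑ u ∈ S, ∑ v ∈ S, conj (x u) * L u v * x v with hw
  have hwre : w = (w.re : ℂ) := Complex.ext (by simp) (by simpa using him)
  rw [hwre, Complex.norm_real, Real.norm_eq_abs, abs_le]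
  constructor <;> linarith

end

end Claimed.Agent.R302
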