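/-
R302 / Poly / Assign  (package Poly-Arrow-assign, owner: helper275)  -- SORRY-FREE
THE ASSIGNMENT INEQUALITY (paper Q, Lemma 4.7) for real symmetric arrow matrices: `arrow_assign`.

Notation: H = arrowMat a b lam, H = H_+ - H_-, m = (H_+)_{00} = arrowM, d = Tr H_+ - Tr Lam_+ = arrowInc.
Blocks: 0, "+" (lam > 0), "-" (lam <= 0).  e_+ = Tr (H_-)_{++} = asgEP, e_- = Tr (H_+)_{--} = asgEN.
  * arrowInc_eq : d = m + e_+ + e_-;  asgD_neg_none : (H_-)_{00} = m + a.
  * asg_test_pos / asg_test_neg (no case distinction m >= a / m < a is needed):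
      sum_+ b/(c+lam)   <= 2m     + (4m+2a) e_+ / c,
      sum_- b/(c+|lam|) <= 2(m+a) + (4m+2a) e_- / c         for every c > 0.
  * arrowInc_le_of_super : explicit PSD majorant B >= H', B >= 0 (two rank-one corrections, SOS certificate
      asg_cert_nonneg) gives  arrowInc a' b' lam <= (L - a1) + s'  whenever a1 + a2 <= a',
      a1 + sum_+ b'/(L+lam) <= L,  -a2 + sum_- b'/(s'+|lam|) <= s'.
  * Markov for two families (asg_avg_two), L = 8a + 10m + e_+/2 + delta/2, s' = e_- + 12m + delta/2, a1 = a2 = 8a: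
      increment <= d + 21 m + delta; finitely many colours => delta = 0.  (In fact 16a / 21m suffice.)
-/
import Claimed.Agent.R302.Poly.Arrow

set_option autoImplicit false

namespace Claimed.Agent.R302

open Finset Matrix
open scoped BigOperators

noncomputable section

theorem asg_max_sub_max (t : ℝ) : max t 0 - max (-t) 0 = t := by
  rcases le_total 0 t with h | h
  · rw [max_eq_left h, max_eq_right (by linarith)]; ring
  · rw [max_eq_right h, max_eq_left (by linarith)]; ring

/-! ### Eigen-systems of real symmetric matrices, in coordinates -/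

section Eigen

variable {n : Type*} [Fintype n] [DecidableEq n] {A : Matrix n n ℝ} (hA : A.IsHermitian)

/-- rows of the eigenvector matrix are orthonormal -/
theorem asg_row_orth (i i' : n) :
    ∑ j, hA.eigenvectorBasis j i * hA.eigenvectorBasis j i' = if i = i' then 1 else 0 := by
  have h := (Matrix.mem_unitaryGroup_iff.mp hA.eigenvectorUnitary.2)
  have h2 := congrFun (congrFun h i) i'
  rw [Matrix.mul_apply, Matrix.one_apply] at h2
  simpa using h2

/-- columns of the eigenvector matrix are orthonormal -/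
theorem asg_col_orth (j j' : n) :
    ∑ i, hA.eigenvectorBasis j i * hA.eigenvectorBasis j' i = if j = j' then 1 else 0 := by
  have h := (Matrix.mem_unitaryGroup_iff'.mp hA.eigenvectorUnitary.2)
  have h2 := congrFun (congrFun h j) j'
  rw [Matrix.mul_apply, Matrix.one_apply] at h2
  simpa using h2

theorem asg_eig (j i : n) :
    ∑ i', A i i' * hA.eigenvectorBasis j i' = hA.eigenvalues j * hA.eigenvectorBasis j i := by
  have h := congrFun (hA.mulVec_eigenvectorBasis j) i
  simpa [Matrix.mulVec, dotProduct] using h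

/-- coefficient of `x` along the `j`-th eigenvector -/
def asgC (j : n) (x : n → ℝ) : ℝ := ∑ i, hA.eigenvectorBasis j i * x i

/-- quadratic form of `f(A)` -/
def asgQ (f : ℝ → ℝ) (x : n → ℝ) : ℝ := ∑ j, f (hA.eigenvalues j) * asgC hA j x ^ 2

/-- `i`-th coordinate of `f(A) y` -/
def asgR (f : ℝ → ℝ) (i : n) (y : n → ℝ) : ℝ :=
  ∑ j, f (hA.eigenvalues j) * (hA.eigenvectorBasis j i * asgC hA j y)

/-- diagonal entry of `f(A)` -/
def asgD (f : ℝ → ℝ) (i : n) : ℝ := ∑ j, f (hA.eigenvalues j) * hA.eigenvectorBasis j i ^ 2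

theorem asgR_id (i : n) (y : n → ℝ) : asgR hA (fun t => t) i y = ∑ l, A i l * y l := by
  unfold asgR asgC
  calc ∑ j, hA.eigenvalues j * (hA.eigenvectorBasis j i * ∑ l, hA.eigenvectorBasis j l * y l)
      = ∑ j, ∑ l, ∑ i', A i i' * (hA.eigenvectorBasis j i' * hA.eigenvectorBasis j l) * y l := by
        refine Finset.sum_congr rfl fun j _ => ?_
        rw [← mul_assoc, ← asg_eig hA j i, Finset.sum_mul, Finset.sum_comm' (t' := univ)
          (s' := fun _ => univ) (by simp)]
        refine Finset.sum_congr rfl fun i' _ => ?_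
        rw [Finset.mul_sum]
        exact Finset.sum_congr rfl fun l _ => by ring
    _ = ∑ l, ∑ i', A i i' * (∑ j, hA.eigenvectorBasis j i' * hA.eigenvectorBasis j l) * y l := by
        rw [Finset.sum_comm]
        refine Finset.sum_congr rfl fun l _ => ?_
        rw [Finset.sum_comm]
        refine Finset.sum_congr rfl fun i' _ => ?_
        rw [Finset.mul_sum, Finset.sum_mul]
    _ = ∑ l, A i l * y l := by
        refine Finset.sum_congr rfl fun l _ => ?_
        simp [asg_row_orth]

theorem asgQ_eq_sum (f : ℝ → ℝ) (x : n → ℝ) : asgQ hA f x = ∑ i, x i * asgR hA f i x := by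
  unfold asgQ asgR
  simp_rw [Finset.mul_sum]
  rw [Finset.sum_comm]
  refine Finset.sum_congr rfl fun j _ => ?_
  have : ∑ i, x i * (f (hA.eigenvalues j) * (hA.eigenvectorBasis j i * asgC hA j x)) =
      f (hA.eigenvalues j) * (asgC hA j x * ∑ i, hA.eigenvectorBasis j i * x i) := by
    rw [Finset.mul_sum, Finset.mul_sum]
    exact Finset.sum_congr rfl fun i _ => by ring
  rw [this]
  unfold asgC
  ring

theorem asgQ_id (x : n → ℝ) : asgQ hA (fun t => t) x = ∑ i, x i * ∑ l, A i l * x l := by
  rw [asgQ_eq_sum]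
  simp_rw [asgR_id]

theorem asgC_single (j i : n) : asgC hA j (Pi.single i 1) = hA.eigenvectorBasis j i := by
  unfold asgC
  simp [Pi.single_apply]

theorem asgD_eq_arwR (f : ℝ → ℝ) (i : n) : asgD hA f i = asgR hA f i (Pi.single i 1) := by
  unfold asgD asgR
  simp_rw [asgC_single, pow_two]

theorem asgD_id (i : n) : asgD hA (fun t => t) i = A i i := by
  rw [asgD_eq_arwR, asgR_id]
  simp [Pi.single_apply]

theorem asgD_sum (f : ℝ → ℝ) : ∑ i, asgD hA f i = ∑ j, f (hA.eigenvalues j) := by
  unfold asgD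
  rw [Finset.sum_comm]
  refine Finset.sum_congr rfl fun j _ => ?_
  rw [← Finset.mul_sum]
  have := asg_col_orth hA j j
  simp only [if_true] at this
  simp_rw [pow_two]
  rw [this, mul_one]

theorem asgD_nonneg {f : ℝ → ℝ} (hf : ∀ t, 0 ≤ f t) (i : n) : 0 ≤ asgD hA f i :=
  Finset.sum_nonneg fun _ _ => mul_nonneg (hf _) (sq_nonneg _)

theorem asgQ_nonneg {f : ℝ → ℝ} (hf : ∀ t, 0 ≤ f t) (x : n → ℝ) : 0 ≤ asgQ hA f x :=
  Finset.sum_nonneg fun _ _ => mul_nonneg (hf _) (sq_nonneg _)

/-- Cauchy-Schwarz for the positive form `f(A)` -/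
theorem asgR_sq_le {f : ℝ → ℝ} (hf : ∀ t, 0 ≤ f t) (i : n) (y : n → ℝ) :
    asgR hA f i y ^ 2 ≤ asgD hA f i * asgQ hA f y := by
  have h := Finset.sum_mul_sq_le_sq_mul_sq univ
    (fun j => Real.sqrt (f (hA.eigenvalues j)) * hA.eigenvectorBasis j i)
    (fun j => Real.sqrt (f (hA.eigenvalues j)) * asgC hA j y)
  have e1 : ∑ j, (Real.sqrt (f (hA.eigenvalues j)) * hA.eigenvectorBasis j i) *
      (Real.sqrt (f (hA.eigenvalues j)) * asgC hA j y) = asgR hA f i y := by
    unfold asgR
    refine Finset.sum_congr rfl fun j _ => ?_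
    have := Real.mul_self_sqrt (hf (hA.eigenvalues j))
    calc _ = (Real.sqrt (f (hA.eigenvalues j)) * Real.sqrt (f (hA.eigenvalues j))) *
        (hA.eigenvectorBasis j i * asgC hA j y) := by ring
      _ = _ := by rw [this]
  have e2 : ∑ j, (Real.sqrt (f (hA.eigenvalues j)) * hA.eigenvectorBasis j i) ^ 2 =
      asgD hA f i := by
    unfold asgD
    refine Finset.sum_congr rfl fun j _ => ?_
    rw [mul_pow, Real.sq_sqrt (hf _)]
  have e3 : ∑ j, (Real.sqrt (f (hA.eigenvalues j)) * asgC hA j y) ^ 2 = asgQ hA f y := by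
    unfold asgQ
    refine Finset.sum_congr rfl fun j _ => ?_
    rw [mul_pow, Real.sq_sqrt (hf _)]
  rw [e1, e2, e3] at h
  exact h

/-- the form `f(A)` on vectors supported in `T` is bounded by the trace of the compression -/
theorem asgQ_le_of_support {f : ℝ → ℝ} (hf : ∀ t, 0 ≤ f t) (T : Finset n) (y : n → ℝ)
    (hy : ∀ i, i ∉ T → y i = 0) :
    asgQ hA f y ≤ (∑ i ∈ T, asgD hA f i) * ∑ i ∈ T, y i ^ 2 := by
  unfold asgQ asgD
  rw [Finset.sum_comm, Finset.sum_mul]
  refine Finset.sum_le_sum fun j _ => ?_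
  rw [← Finset.mul_sum, mul_assoc]
  refine mul_le_mul_of_nonneg_left ?_ (hf _)
  have hC : asgC hA j y = ∑ i ∈ T, hA.eigenvectorBasis j i * y i := by
    unfold asgC
    symm
    apply Finset.sum_subset (Finset.subset_univ T)
    intro i _ hi
    rw [hy i hi, mul_zero]
  rw [hC]
  exact Finset.sum_mul_sq_le_sq_mul_sq T _ _

theorem asgQ_pos_sub_neg (x : n → ℝ) :
    asgQ hA (fun t => max t 0) x - asgQ hA (fun t => max (-t) 0) x = asgQ hA (fun t => t) x := by
  unfold asgQ
  rw [← Finset.sum_sub_distrib]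
  refine Finset.sum_congr rfl fun j _ => ?_
  rw [← sub_mul]
  congr 1
  exact asg_max_sub_max _

theorem asgR_pos_sub_neg (i : n) (x : n → ℝ) :
    asgR hA (fun t => max t 0) i x - asgR hA (fun t => max (-t) 0) i x =
      asgR hA (fun t => t) i x := by
  unfold asgR
  rw [← Finset.sum_sub_distrib]
  refine Finset.sum_congr rfl fun j _ => ?_
  rw [← sub_mul]
  congr 1
  exact asg_max_sub_max _

theorem asgD_pos_sub_neg (i : n) :
    asgD hA (fun t => max t 0) i - asgD hA (fun t => max (-t) 0) i = A i i := by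
  rw [asgD_eq_arwR, asgD_eq_arwR, asgR_pos_sub_neg, ← asgD_eq_arwR, asgD_id]

/-- dual variational bound for the positive trace: `Tr A₊ ≤ Tr B` if `B ≥ A` and `B ≥ 0` -/
theorem asg_posTr_le (B : Matrix n n ℝ)
    (h1 : ∀ x : n → ℝ, ∑ i, x i * ∑ l, A i l * x l ≤ ∑ i, x i * ∑ l, B i l * x l)
    (h2 : ∀ x : n → ℝ, 0 ≤ ∑ i, x i * ∑ l, B i l * x l) :
    ∑ j, max (hA.eigenvalues j) 0 ≤ B.trace := by
  have hj : ∀ j, max (hA.eigenvalues j) 0 ≤
      ∑ i, hA.eigenvectorBasis j i * ∑ l, B i l * hA.eigenvectorBasis j l := by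
    intro j
    refine max_le ?_ (h2 _)
    refine le_trans (le_of_eq ?_) (h1 _)
    simp_rw [asg_eig]
    have := asg_col_orth hA j j
    simp only [if_true] at this
    calc hA.eigenvalues j = hA.eigenvalues j *
          ∑ i, hA.eigenvectorBasis j i * hA.eigenvectorBasis j i := by rw [this, mul_one]
      _ = _ := by
          rw [Finset.mul_sum]
          exact Finset.sum_congr rfl fun i _ => by ring
  refine (Finset.sum_le_sum fun j _ => hj j).trans (le_of_eq ?_)
  calc ∑ j, ∑ i, hA.eigenvectorBasis j i * ∑ l, B i l * hA.eigenvectorBasis j l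
      = ∑ i, ∑ l, B i l * ∑ j, hA.eigenvectorBasis j i * hA.eigenvectorBasis j l := by
        rw [Finset.sum_comm]
        refine Finset.sum_congr rfl fun i _ => ?_
        simp_rw [Finset.mul_sum]
        rw [Finset.sum_comm]
        refine Finset.sum_congr rfl fun l _ => ?_
        exact Finset.sum_congr rfl fun j _ => by ring
    _ = B.trace := by
        simp [asg_row_orth, Matrix.trace]

end Eigen

/-! ### The rank one certificate -/

section Cert

variable {K : Type*} [Fintype K]

/-- The sum of squares identity behind the certificate.  `t` is a super-solution of the secular equation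
`t = α + ∑ γ² / (t + c)`. -/
theorem asg_cert_nonneg (c γ y : K → ℝ) (t α s : ℝ) (hc : ∀ k, 0 ≤ c k) (ht : 0 < t)
    (hsup : α + ∑ k, γ k ^ 2 / (t + c k) ≤ t) :
    0 ≤ -α * s ^ 2 + 2 * s * ∑ k, γ k * y k + ∑ k, c k * y k ^ 2 +
      t / (1 + ∑ k, (γ k / (t + c k)) ^ 2) * (s - ∑ k, γ k / (t + c k) * y k) ^ 2 := by
  have hpos : ∀ k, 0 < t + c k := fun k => by linarith [hc k]
  set w : K → ℝ := fun k => γ k / (t + c k) with hw
  have hγ : ∀ k, γ k = (t + c k) * w k := fun k => by
    have := (hpos k).ne'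
    simp only [hw]
    field_simp
  set W := ∑ k, w k ^ 2 with hW
  set p := ∑ k, w k * y k with hp
  set ν := ∑ k, c k * w k ^ 2 with hν
  set q := ∑ k, c k * (w k * y k) with hq
  set Y := ∑ k, c k * y k ^ 2 with hY
  have hW0 : 0 ≤ W := Finset.sum_nonneg fun k _ => sq_nonneg _
  have hG : ∑ k, γ k * y k = t * p + q := by
    rw [hp, hq, Finset.mul_sum, ← Finset.sum_add_distrib]
    exact Finset.sum_congr rfl fun k _ => by rw [hγ k]; ring
  have hX : ∑ k, γ k ^ 2 / (t + c k) = t * W + ν := by
    rw [hW, hν, Finset.mul_sum, ← Finset.sum_add_distrib]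
    refine Finset.sum_congr rfl fun k _ => ?_
    rw [hγ k]
    have := (hpos k).ne'
    field_simp
  have hS : ∑ k, c k * (y k + s * w k) ^ 2 = Y + 2 * s * q + s ^ 2 * ν := by
    rw [hY, hq, hν, Finset.mul_sum, Finset.mul_sum, ← Finset.sum_add_distrib,
      ← Finset.sum_add_distrib]
    exact Finset.sum_congr rfl fun k _ => by ring
  have hS0 : 0 ≤ ∑ k, c k * (y k + s * w k) ^ 2 :=
    Finset.sum_nonneg fun k _ => mul_nonneg (hc k) (sq_nonneg _)
  have key : -α * s ^ 2 + 2 * s * (t * p + q) + Y + t / (1 + W) * (s - p) ^ 2 =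
      (t - α - (t * W + ν)) * s ^ 2 + t / (1 + W) * (s * W + p) ^ 2 +
        (Y + 2 * s * q + s ^ 2 * ν) := by
    have : (1 + W) ≠ 0 := by positivity
    field_simp
    ring
  rw [hG, key, ← hS]
  rw [hX] at hsup
  have h1 : 0 ≤ (t - α - (t * W + ν)) * s ^ 2 := mul_nonneg (by linarith) (sq_nonneg _)
  have h2 : 0 ≤ t / (1 + W) * (s * W + p) ^ 2 := by positivity
  linarith

end Cert

section Upper

variable {K : Type*} [Fintype K] [DecidableEq K]

theorem asg_form_arrow (a : ℝ) (b lam : K → ℝ) (x : Option K → ℝ) :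
    ∑ i, x i * ∑ l, arrowMat a b lam i l * x l =
      -a * x none ^ 2 + 2 * x none * ∑ k, Real.sqrt (b k) * x (some k) +
        ∑ k, lam k * x (some k) ^ 2 := by
  simp only [Fintype.sum_option, arrowMat, Matrix.of_apply, ite_mul, zero_mul,
    Finset.sum_ite_eq, Finset.mem_univ, if_true]
  simp only [mul_add, Finset.sum_add_distrib, Finset.mul_sum]
  have e1 : ∑ k, x (some k) * (Real.sqrt (b k) * x none) =
      ∑ k, x none * (Real.sqrt (b k) * x (some k)) :=
    Finset.sum_congr rfl fun k _ => by ring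
  have e2 : ∑ k, x (some k) * (lam k * x (some k)) = ∑ k, lam k * x (some k) ^ 2 :=
    Finset.sum_congr rfl fun k _ => by ring
  have e3 : ∑ k, 2 * x none * (Real.sqrt (b k) * x (some k)) =
      ∑ k, x none * (Real.sqrt (b k) * x (some k)) +
        ∑ k, x none * (Real.sqrt (b k) * x (some k)) := by
    rw [← Finset.sum_add_distrib]
    exact Finset.sum_congr rfl fun k _ => by ring
  rw [e1, e2, e3]
  ring

theorem asg_form_rank_one {n : Type*} [Fintype n] (u x : n → ℝ) :
    ∑ i, x i * ∑ l, (u i * u l) * x l = (∑ i, u i * x i) ^ 2 := by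
  rw [pow_two, Finset.sum_mul]
  refine Finset.sum_congr rfl fun i _ => ?_
  rw [Finset.mul_sum, Finset.mul_sum]
  exact Finset.sum_congr rfl fun l _ => by ring

/-- Upper bound for the increment of an arrow matrix from super-solutions of the two side secular equations. -/
theorem arrowInc_le_of_super (a' a1 a2 L s' : ℝ) (b' lam : K → ℝ) (hb' : ∀ k, 0 ≤ b' k)
    (ha : a1 + a2 ≤ a') (hL : 0 < L) (hs : 0 < s')
    (hP : a1 + ∑ k, (if 0 < lam k then b' k else 0) / (L + max (lam k) 0) ≤ L)
    (hN : -a2 + ∑ k, (if 0 < lam k then 0 else b' k) / (s' + max (-lam k) 0) ≤ s') :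
    arrowInc a' b' lam ≤ (L - a1) + s' := by
  set bp : K → ℝ := fun k => if 0 < lam k then b' k else 0 with hbp
  set bn : K → ℝ := fun k => if 0 < lam k then 0 else b' k with hbn
  set lp : K → ℝ := fun k => max (lam k) 0 with hlp
  set ln : K → ℝ := fun k => max (-lam k) 0 with hln
  have hbp0 : ∀ k, 0 ≤ bp k := fun k => by
    simp only [hbp]; split_ifs
    · exact hb' k
    · exact le_rfl
  have hbn0 : ∀ k, 0 ≤ bn k := fun k => by
    simp only [hbn]; split_ifs
    · exact le_rfl
    · exact hb' k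
  have hsqrt : ∀ k, Real.sqrt (b' k) = Real.sqrt (bp k) + Real.sqrt (bn k) := fun k => by
    simp only [hbp, hbn]; split_ifs <;> simp
  have hlam : ∀ k, lam k = lp k - ln k := fun k => (asg_max_sub_max (lam k)).symm
  set wP : K → ℝ := fun k => Real.sqrt (bp k) / (L + lp k) with hwP
  set wN : K → ℝ := fun k => Real.sqrt (bn k) / (s' + ln k) with hwN
  set κP : ℝ := L / (1 + ∑ k, wP k ^ 2) with hκP
  set κN : ℝ := s' / (1 + ∑ k, wN k ^ 2) with hκN
  have hWP : 0 ≤ ∑ k, wP k ^ 2 := Finset.sum_nonneg fun k _ => sq_nonneg _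
  have hWN : 0 ≤ ∑ k, wN k ^ 2 := Finset.sum_nonneg fun k _ => sq_nonneg _
  have hκP0 : 0 ≤ κP := by positivity
  have hκN0 : 0 ≤ κN := by positivity
  let uP : Option K → ℝ := fun o => o.elim 1 (fun k => - wP k)
  let uN : Option K → ℝ := fun o => o.elim 1 (fun k => wN k)
  let B : Matrix (Option K) (Option K) ℝ := Matrix.of fun i l =>
    arrowMat a1 bp lp i l + κP * (uP i * uP l) + κN * (uN i * uN l)
  have hform : ∀ x : Option K → ℝ, ∑ i, x i * ∑ l, B i l * x l =
      (-a1 * x none ^ 2 + 2 * x none * ∑ k, Real.sqrt (bp k) * x (some k) +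
        ∑ k, lp k * x (some k) ^ 2) + κP * (x none - ∑ k, wP k * x (some k)) ^ 2 +
        κN * (x none + ∑ k, wN k * x (some k)) ^ 2 := by
    intro x
    have e0 : ∑ i, x i * ∑ l, B i l * x l =
        ∑ i, x i * ∑ l, arrowMat a1 bp lp i l * x l +
          κP * (∑ i, x i * ∑ l, (uP i * uP l) * x l) +
          κN * (∑ i, x i * ∑ l, (uN i * uN l) * x l) := by
      simp only [B, Matrix.of_apply, add_mul, Finset.sum_add_distrib, mul_add, Finset.mul_sum]
      congr 1
      · congr 1
        refine Finset.sum_congr rfl fun i _ => Finset.sum_congr rfl fun l _ => by ring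
      · refine Finset.sum_congr rfl fun i _ => Finset.sum_congr rfl fun l _ => by ring
    rw [e0, asg_form_arrow, asg_form_rank_one, asg_form_rank_one]
    have e1 : ∑ i, uP i * x i = x none - ∑ k, wP k * x (some k) := by
      simp only [Fintype.sum_option, uP, Option.elim, one_mul, neg_mul, Finset.sum_neg_distrib]
      ring
    have e2 : ∑ i, uN i * x i = x none + ∑ k, wN k * x (some k) := by
      simp only [Fintype.sum_option, uN, Option.elim, one_mul]
    rw [e1, e2]
  have htr : B.trace = -a1 + ∑ k, lp k + L + s' := by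
    have hP1 : κP * (1 + ∑ k, wP k ^ 2) = L := by
      rw [hκP]; field_simp
    have hN1 : κN * (1 + ∑ k, wN k ^ 2) = s' := by
      rw [hκN]; field_simp
    simp only [Matrix.trace, Matrix.diag, Fintype.sum_option, B, Matrix.of_apply, arrowMat, uP, uN,
      Option.elim, if_true, Finset.sum_add_distrib, ← Finset.mul_sum]
    have e1 : ∑ k, -wP k * -wP k = ∑ k, wP k ^ 2 := Finset.sum_congr rfl fun k _ => by ring
    have e2 : ∑ k, wN k * wN k = ∑ k, wN k ^ 2 := Finset.sum_congr rfl fun k _ => by ring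
    rw [e1, e2]
    linarith
  have hQP : ∀ x : Option K → ℝ, 0 ≤ -a1 * x none ^ 2 +
      2 * x none * ∑ k, Real.sqrt (bp k) * x (some k) + ∑ k, lp k * x (some k) ^ 2 +
      κP * (x none - ∑ k, wP k * x (some k)) ^ 2 := by
    intro x
    refine asg_cert_nonneg lp (fun k => Real.sqrt (bp k)) (fun k => x (some k)) L a1 (x none)
      (fun k => le_max_right _ _) hL ?_
    simp_rw [Real.sq_sqrt (hbp0 _)]
    exact hP
  have hQN : ∀ x : Option K → ℝ, 0 ≤ a2 * x none ^ 2 -
      2 * x none * ∑ k, Real.sqrt (bn k) * x (some k) + ∑ k, ln k * x (some k) ^ 2 +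
      κN * (x none + ∑ k, wN k * x (some k)) ^ 2 := by
    intro x
    have h := asg_cert_nonneg ln (fun k => Real.sqrt (bn k)) (fun k => - x (some k)) s' (-a2)
      (x none) (fun k => le_max_right _ _) hs (by
        simp_rw [Real.sq_sqrt (hbn0 _)]
        exact hN)
    simp only [mul_neg, Finset.sum_neg_distrib, neg_neg, even_two.neg_pow, sub_neg_eq_add] at h
    linarith
  have hmain := asg_posTr_le (arrowMat_isHermitian a' b' lam) B (by
    intro x
    rw [hform, asg_form_arrow]
    have e1 : ∑ k, Real.sqrt (b' k) * x (some k) =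
        ∑ k, Real.sqrt (bp k) * x (some k) + ∑ k, Real.sqrt (bn k) * x (some k) := by
      rw [← Finset.sum_add_distrib]
      exact Finset.sum_congr rfl fun k _ => by rw [hsqrt k]; ring
    have e2 : ∑ k, lam k * x (some k) ^ 2 =
        ∑ k, lp k * x (some k) ^ 2 - ∑ k, ln k * x (some k) ^ 2 := by
      rw [← Finset.sum_sub_distrib]
      exact Finset.sum_congr rfl fun k _ => by rw [hlam k]; ring
    rw [e1, e2]
    have h1 := hQN x
    have h2 : 0 ≤ κP * (x none - ∑ k, wP k * x (some k)) ^ 2 := by positivity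
    have h3 : 0 ≤ (a' - a1 - a2) * x none ^ 2 := mul_nonneg (by linarith) (sq_nonneg _)
    nlinarith [h1, h2, h3]) (by
    intro x
    rw [hform]
    have h1 := hQP x
    have h2 : 0 ≤ κN * (x none + ∑ k, wN k * x (some k)) ^ 2 := by positivity
    linarith)
  rw [htr] at hmain
  unfold arrowInc arrowTr
  linarith

end Upper

/-! ### The old arrow matrix: positive and negative parts -/

section Old

variable {K : Type*} [Fintype K] [DecidableEq K] (a : ℝ) (b lam : K → ℝ)

/-- `e₊ = Tr (H₋)₊₊` -/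
def asgEP : ℝ := ∑ k ∈ univ.filter (fun k => 0 < lam k),
  asgD (arrowMat_isHermitian a b lam) (fun t => max (-t) 0) (some k)

/-- `e₋ = Tr (H₊)₋₋` -/
def asgEN : ℝ := ∑ k ∈ univ.filter (fun k => ¬ 0 < lam k),
  asgD (arrowMat_isHermitian a b lam) (fun t => max t 0) (some k)

theorem asgEP_nonneg : 0 ≤ asgEP a b lam :=
  Finset.sum_nonneg fun _ _ => asgD_nonneg _ (fun _ => le_max_right _ _) _

theorem asgEN_nonneg : 0 ≤ asgEN a b lam :=
  Finset.sum_nonneg fun _ _ => asgD_nonneg _ (fun _ => le_max_right _ _) _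

theorem arrowM_eq : arrowM a b lam =
    asgD (arrowMat_isHermitian a b lam) (fun t => max t 0) none := rfl

theorem arrowM_nonneg : 0 ≤ arrowM a b lam := by
  rw [arrowM_eq]
  exact asgD_nonneg _ (fun _ => le_max_right _ _) _

/-- `(H₋)₀₀ = m + a` -/
theorem asgD_neg_none :
    asgD (arrowMat_isHermitian a b lam) (fun t => max (-t) 0) none = arrowM a b lam + a := by
  have h := asgD_pos_sub_neg (arrowMat_isHermitian a b lam) none
  have h2 : arrowMat a b lam none none = -a := rfl
  rw [h2, ← arrowM_eq] at h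
  linarith

/-- `d = m + e₊ + e₋` -/
theorem arrowInc_eq : arrowInc a b lam = arrowM a b lam + asgEP a b lam + asgEN a b lam := by
  unfold arrowInc arrowTr
  rw [← asgD_sum (arrowMat_isHermitian a b lam) (fun x => max x 0), Fintype.sum_option,
    ← arrowM_eq]
  have h1 : ∀ k, asgD (arrowMat_isHermitian a b lam) (fun t => max t 0) (some k) =
      lam k + asgD (arrowMat_isHermitian a b lam) (fun t => max (-t) 0) (some k) := by
    intro k
    have h := asgD_pos_sub_neg (arrowMat_isHermitian a b lam) (some k)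
    have h2 : arrowMat a b lam (some k) (some k) = lam k := by simp [arrowMat]
    rw [h2] at h
    linarith
  rw [← Finset.sum_filter_add_sum_filter_not univ (fun k => 0 < lam k)
      (fun k => asgD (arrowMat_isHermitian a b lam) (fun t => max t 0) (some k)),
    ← Finset.sum_filter_add_sum_filter_not univ (fun k => 0 < lam k) (fun k => max (lam k) 0)]
  have e1 : ∑ k ∈ univ.filter (fun k => 0 < lam k),
      asgD (arrowMat_isHermitian a b lam) (fun t => max t 0) (some k) =
      ∑ k ∈ univ.filter (fun k => 0 < lam k), max (lam k) 0 + asgEP a b lam := by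
    unfold asgEP
    rw [← Finset.sum_add_distrib]
    refine Finset.sum_congr rfl fun k hk => ?_
    rw [h1 k, max_eq_left (Finset.mem_filter.mp hk).2.le]
  have e2 : ∑ k ∈ univ.filter (fun k => ¬ 0 < lam k), max (lam k) 0 = 0 := by
    refine Finset.sum_eq_zero fun k hk => ?_
    exact max_eq_right (not_lt.mp (Finset.mem_filter.mp hk).2)
  rw [e1, e2]
  unfold asgEN
  ring

/-- extension of a vector on the deletion coordinates by `0` -/
def asgExt (y : K → ℝ) : Option K → ℝ := fun o => o.elim 0 y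

theorem asg_coupling (y : K → ℝ) :
    ∑ k, Real.sqrt (b k) * y k =
      asgR (arrowMat_isHermitian a b lam) (fun t => max t 0) none (asgExt y) -
        asgR (arrowMat_isHermitian a b lam) (fun t => max (-t) 0) none (asgExt y) := by
  rw [asgR_pos_sub_neg, asgR_id, Fintype.sum_option]
  simp [asgExt, arrowMat]

theorem asg_block_form (y : K → ℝ) :
    asgQ (arrowMat_isHermitian a b lam) (fun t => max t 0) (asgExt y) -
        asgQ (arrowMat_isHermitian a b lam) (fun t => max (-t) 0) (asgExt y) =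
      ∑ k, lam k * y k ^ 2 := by
  rw [asgQ_pos_sub_neg, asgQ_id, asg_form_arrow]
  simp [asgExt]

/-- `(g·y)² ≤ 2 m y*H₊y + 2 (m + a) y*H₋y` -/
theorem asg_coupling_sq_le (y : K → ℝ) :
    (∑ k, Real.sqrt (b k) * y k) ^ 2 ≤
      2 * arrowM a b lam * asgQ (arrowMat_isHermitian a b lam) (fun t => max t 0) (asgExt y) +
        2 * (arrowM a b lam + a) *
          asgQ (arrowMat_isHermitian a b lam) (fun t => max (-t) 0) (asgExt y) := by
  rw [asg_coupling a b lam y]
  have h1 := asgR_sq_le (arrowMat_isHermitian a b lam) (f := fun t => max t 0)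
    (fun _ => le_max_right _ _) none (asgExt y)
  have h2 := asgR_sq_le (arrowMat_isHermitian a b lam) (f := fun t => max (-t) 0)
    (fun _ => le_max_right _ _) none (asgExt y)
  rw [← arrowM_eq] at h1
  rw [asgD_neg_none] at h2
  nlinarith [sq_nonneg (asgR (arrowMat_isHermitian a b lam) (fun t => max t 0) none (asgExt y) +
    asgR (arrowMat_isHermitian a b lam) (fun t => max (-t) 0) none (asgExt y))]

theorem asgQ_ext_le {f : ℝ → ℝ} (hf : ∀ t, 0 ≤ f t) (T : Finset K) (y : K → ℝ)
    (hy : ∀ k, k ∉ T → y k = 0) :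
    asgQ (arrowMat_isHermitian a b lam) f (asgExt y) ≤
      (∑ k ∈ T, asgD (arrowMat_isHermitian a b lam) f (some k)) * ∑ k, y k ^ 2 := by
  have h := asgQ_le_of_support (arrowMat_isHermitian a b lam) hf
    (T.map Function.Embedding.some) (asgExt y) (by
      intro i hi
      cases i with
      | none => rfl
      | some k =>
        apply hy k
        intro hk
        exact hi (Finset.mem_map.mpr ⟨k, hk, rfl⟩))
  rw [Finset.sum_map, Finset.sum_map] at h
  refine h.trans (mul_le_mul_of_nonneg_left ?_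
    (Finset.sum_nonneg fun _ _ => asgD_nonneg _ hf _))
  exact Finset.sum_le_univ_sum_of_nonneg fun k => sq_nonneg _

variable {b}

/-- (4.positive-test): the residue sum over the positive block -/
theorem asg_test_pos (hb : ∀ k, 0 ≤ b k) (c : ℝ) (hc : 0 < c) :
    ∑ k, (if 0 < lam k then b k else 0) / (c + max (lam k) 0) ≤
      2 * arrowM a b lam + (4 * arrowM a b lam + 2 * a) * asgEP a b lam / c := by
  set m := arrowM a b lam with hm
  set σ := ∑ k, (if 0 < lam k then b k else 0) / (c + max (lam k) 0) with hσ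
  set y : K → ℝ := fun k => Real.sqrt (if 0 < lam k then b k else 0) / (c + max (lam k) 0) with hy
  have hm0 : 0 ≤ m := arrowM_nonneg a b lam
  have hma : 0 ≤ m + a := by
    rw [hm, ← asgD_neg_none]
    exact asgD_nonneg _ (fun _ => le_max_right _ _) _
  have hE : 0 ≤ asgEP a b lam := asgEP_nonneg a b lam
  have hden : ∀ k, 0 < c + max (lam k) 0 := fun k => by
    have := le_max_right (lam k) 0
    linarith
  have h1 : ∑ k, Real.sqrt (b k) * y k = σ := by
    refine Finset.sum_congr rfl fun k _ => ?_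
    simp only [hy]
    split_ifs with h
    · rw [← mul_div_assoc, Real.mul_self_sqrt (hb k)]
    · simp
  have h2 : ∑ k, lam k * y k ^ 2 ≤ σ := by
    refine Finset.sum_le_sum fun k _ => ?_
    simp only [hy]
    split_ifs with h
    · rw [div_pow, Real.sq_sqrt (hb k), max_eq_left h.le]
      have hd : 0 < c + lam k := by linarith
      rw [← mul_div_assoc, div_le_div_iff₀ (by positivity) hd]
      nlinarith [hb k, mul_nonneg (hb k) hc.le, mul_nonneg (hb k) hd.le,
        mul_nonneg (mul_nonneg (hb k) hc.le) hd.le]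
    · simp
  have h3 : ∑ k, y k ^ 2 ≤ σ / c := by
    rw [hσ, Finset.sum_div]
    refine Finset.sum_le_sum fun k _ => ?_
    simp only [hy]
    have hb' : 0 ≤ (if 0 < lam k then b k else 0) := by
      split_ifs
      · exact hb k
      · exact le_rfl
    rw [div_pow, Real.sq_sqrt hb', div_div, pow_two]
    apply div_le_div_of_nonneg_left hb' (mul_pos (hden k) hc)
    apply mul_le_mul_of_nonneg_left _ (hden k).le
    have := le_max_right (lam k) 0
    linarith
  have h4 := asgQ_ext_le a b lam (f := fun t => max (-t) 0) (fun _ => le_max_right _ _)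
    (univ.filter fun k => 0 < lam k) y (by
      intro k hk
      have : ¬ 0 < lam k := fun h => hk (Finset.mem_filter.mpr ⟨Finset.mem_univ k, h⟩)
      simp only [hy, if_neg this, Real.sqrt_zero, zero_div])
  have h4' : asgQ (arrowMat_isHermitian a b lam) (fun t => max (-t) 0) (asgExt y) ≤
      asgEP a b lam * (σ / c) := h4.trans (mul_le_mul_of_nonneg_left h3 hE)
  have h5 := asg_coupling_sq_le a b lam y
  have h6 := asg_block_form a b lam y
  rw [h1] at h5
  set Qp := asgQ (arrowMat_isHermitian a b lam) (fun t => max t 0) (asgExt y) with hQp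
  set Qn := asgQ (arrowMat_isHermitian a b lam) (fun t => max (-t) 0) (asgExt y) with hQn
  have h7 : σ ^ 2 ≤ σ * (2 * m + (4 * m + 2 * a) * asgEP a b lam / c) := by
    have e : σ * (2 * m + (4 * m + 2 * a) * asgEP a b lam / c) =
        2 * m * σ + (4 * m + 2 * a) * (asgEP a b lam * (σ / c)) := by
      field_simp
    rw [e]
    have hQp' : Qp ≤ σ + Qn := by linarith
    have t1 : 2 * m * Qp ≤ 2 * m * (σ + Qn) := mul_le_mul_of_nonneg_left hQp' (by linarith)
    have t2 : (4 * m + 2 * a) * Qn ≤ (4 * m + 2 * a) * (asgEP a b lam * (σ / c)) :=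
      mul_le_mul_of_nonneg_left h4' (by linarith)
    nlinarith [t1, t2, h5]
  by_cases hσ0 : σ ≤ 0
  · have : 0 ≤ (4 * m + 2 * a) * asgEP a b lam / c :=
      div_nonneg (mul_nonneg (by linarith) hE) hc.le
    linarith
  · push Not at hσ0
    rw [pow_two] at h7
    exact le_of_mul_le_mul_left h7 hσ0

/-- (4.negative-test): the residue sum over the non-positive block -/
theorem asg_test_neg (hb : ∀ k, 0 ≤ b k) (c : ℝ) (hc : 0 < c) :
    ∑ k, (if 0 < lam k then 0 else b k) / (c + max (-lam k) 0) ≤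
      2 * (arrowM a b lam + a) + (4 * arrowM a b lam + 2 * a) * asgEN a b lam / c := by
  set m := arrowM a b lam with hm
  set σ := ∑ k, (if 0 < lam k then 0 else b k) / (c + max (-lam k) 0) with hσ
  set y : K → ℝ := fun k => Real.sqrt (if 0 < lam k then 0 else b k) / (c + max (-lam k) 0)
    with hy
  have hm0 : 0 ≤ m := arrowM_nonneg a b lam
  have hma : 0 ≤ m + a := by
    rw [hm, ← asgD_neg_none]
    exact asgD_nonneg _ (fun _ => le_max_right _ _) _
  have hE : 0 ≤ asgEN a b lam := asgEN_nonneg a b lam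
  have hden : ∀ k, 0 < c + max (-lam k) 0 := fun k => by
    have := le_max_right (-lam k) 0
    linarith
  have h1 : ∑ k, Real.sqrt (b k) * y k = σ := by
    refine Finset.sum_congr rfl fun k _ => ?_
    simp only [hy]
    split_ifs with h
    · simp
    · rw [← mul_div_assoc, Real.mul_self_sqrt (hb k)]
  have h2 : -σ ≤ ∑ k, lam k * y k ^ 2 := by
    rw [hσ, ← Finset.sum_neg_distrib]
    refine Finset.sum_le_sum fun k _ => ?_
    simp only [hy]
    split_ifs with h
    · simp
    · have hl : 0 ≤ -lam k := by linarith [not_lt.mp h]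
      rw [div_pow, Real.sq_sqrt (hb k), max_eq_left hl]
      have hd : 0 < c + -lam k := by linarith
      rw [← mul_div_assoc, ← neg_div, div_le_div_iff₀ hd (by positivity)]
      nlinarith [hb k, mul_nonneg (hb k) hc.le, mul_nonneg (hb k) hd.le,
        mul_nonneg (mul_nonneg (hb k) hc.le) hd.le]
  have h3 : ∑ k, y k ^ 2 ≤ σ / c := by
    rw [hσ, Finset.sum_div]
    refine Finset.sum_le_sum fun k _ => ?_
    simp only [hy]
    have hb' : 0 ≤ (if 0 < lam k then 0 else b k) := by
      split_ifs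
      · exact le_rfl
      · exact hb k
    rw [div_pow, Real.sq_sqrt hb', div_div, pow_two]
    apply div_le_div_of_nonneg_left hb' (mul_pos (hden k) hc)
    apply mul_le_mul_of_nonneg_left _ (hden k).le
    have := le_max_right (-lam k) 0
    linarith
  have h4 := asgQ_ext_le a b lam (f := fun t => max t 0) (fun _ => le_max_right _ _)
    (univ.filter fun k => ¬ 0 < lam k) y (by
      intro k hk
      have : 0 < lam k := by
        by_contra h
        exact hk (Finset.mem_filter.mpr ⟨Finset.mem_univ k, h⟩)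
      simp only [hy, if_pos this, Real.sqrt_zero, zero_div])
  have h4' : asgQ (arrowMat_isHermitian a b lam) (fun t => max t 0) (asgExt y) ≤
      asgEN a b lam * (σ / c) := h4.trans (mul_le_mul_of_nonneg_left h3 hE)
  have h5 := asg_coupling_sq_le a b lam y
  have h6 := asg_block_form a b lam y
  rw [h1] at h5
  set Qp := asgQ (arrowMat_isHermitian a b lam) (fun t => max t 0) (asgExt y) with hQp
  set Qn := asgQ (arrowMat_isHermitian a b lam) (fun t => max (-t) 0) (asgExt y) with hQn
  have h7 : σ ^ 2 ≤ σ * (2 * (m + a) + (4 * m + 2 * a) * asgEN a b lam / c) := by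
    have e : σ * (2 * (m + a) + (4 * m + 2 * a) * asgEN a b lam / c) =
        2 * (m + a) * σ + (4 * m + 2 * a) * (asgEN a b lam * (σ / c)) := by
      field_simp
    rw [e]
    have hQn' : Qn ≤ σ + Qp := by linarith
    have t1 : 2 * (m + a) * Qn ≤ 2 * (m + a) * (σ + Qp) :=
      mul_le_mul_of_nonneg_left hQn' (by linarith)
    have t2 : (4 * m + 2 * a) * Qp ≤ (4 * m + 2 * a) * (asgEN a b lam * (σ / c)) :=
      mul_le_mul_of_nonneg_left h4' (by linarith)
    nlinarith [t1, t2, h5]
  by_cases hσ0 : σ ≤ 0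
  · have : 0 ≤ (4 * m + 2 * a) * asgEN a b lam / c :=
      div_nonneg (mul_nonneg (by linarith) hE) hc.le
    linarith
  · push Not at hσ0
    rw [pow_two] at h7
    exact le_of_mul_le_mul_left h7 hσ0

end Old

/-! ### Averaging and the final statement -/

section Final

/-- Markov for two nonnegative families at once -/
theorem asg_avg_two {r : ℕ} (hr : 0 < r) (X Y : Fin r → ℝ) (hX : ∀ i, 0 ≤ X i)
    (hY : ∀ i, 0 ≤ Y i) {A B : ℝ} (hA : 0 < A) (hB : 0 < B) (hXA : ∑ i, X i ≤ r * A)
    (hYB : ∑ i, Y i ≤ r * B) : ∃ i, X i ≤ 2 * A ∧ Y i ≤ 2 * B := by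
  by_contra hcon
  push Not at hcon
  have : Nonempty (Fin r) := ⟨⟨0, hr⟩⟩
  have h1 : ∀ i, 2 < X i / A + Y i / B := by
    intro i
    by_cases h : X i ≤ 2 * A
    · have h2 := hcon i h
      have h3 : 2 < Y i / B := by rw [lt_div_iff₀ hB]; exact h2
      have h4 : 0 ≤ X i / A := div_nonneg (hX i) hA.le
      linarith
    · push Not at h
      have h3 : 2 < X i / A := by rw [lt_div_iff₀ hA]; exact h
      have h4 : 0 ≤ Y i / B := div_nonneg (hY i) hB.le
      linarith
  have h2 : ∑ _i : Fin r, (2 : ℝ) < ∑ i, (X i / A + Y i / B) :=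
    Finset.sum_lt_sum_of_nonempty Finset.univ_nonempty fun i _ => h1 i
  rw [Finset.sum_add_distrib, ← Finset.sum_div, ← Finset.sum_div] at h2
  simp only [Finset.sum_const, Finset.card_univ, Fintype.card_fin, nsmul_eq_mul] at h2
  have h3 : (∑ i, X i) / A ≤ r := by rw [div_le_iff₀ hA]; exact hXA
  have h4 : (∑ i, Y i) / B ≤ r := by rw [div_le_iff₀ hB]; exact hYB
  linarith

/-- on a finite nonempty index set, `≤ c + δ` for all `δ > 0` gives `≤ c` -/
theorem asg_exists_le_of_forall_pos {r : ℕ} (hr : 0 < r) (f : Fin r → ℝ) (c : ℝ)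
    (h : ∀ δ : ℝ, 0 < δ → ∃ i, f i ≤ c + δ) : ∃ i, f i ≤ c := by
  have : Nonempty (Fin r) := ⟨⟨0, hr⟩⟩
  obtain ⟨i0, hi0⟩ := Finite.exists_min f
  refine ⟨i0, ?_⟩
  by_contra hcon
  push Not at hcon
  obtain ⟨i, hi⟩ := h ((f i0 - c) / 2) (by linarith)
  have := hi0 i
  linarith

variable {K : Type*} [Fintype K] [DecidableEq K]

omit [DecidableEq K] in
theorem asg_sum_avg {r : ℕ} (hr : 0 < r) (b : K → ℝ) (bi : Fin r → K → ℝ)
    (havg : ∀ k, (∑ i, bi i k) / r = b k) (P : K → Prop) [DecidablePred P] (w : K → ℝ) :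
    ∑ i, ∑ k, (if P k then bi i k else 0) / w k = r * ∑ k, (if P k then b k else 0) / w k := by
  have hr' : (r : ℝ) ≠ 0 := by exact_mod_cast hr.ne'
  rw [Finset.sum_comm, Finset.mul_sum]
  refine Finset.sum_congr rfl fun k _ => ?_
  rw [← Finset.sum_div, ← havg k]
  split_ifs with h
  · field_simp
  · simp

/-- LEMMA 4.7 (assigning one colour), arrow form. -/
theorem arrow_assign (a : ℝ) (ha : 0 < a) (b lam : K → ℝ) {r : ℕ} (hr : 0 < r)
    (bi : Fin r → K → ℝ) (hbi : ∀ i k, 0 ≤ bi i k) (havg : ∀ k, (∑ i, bi i k) / r = b k) :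
    ∃ i, arrowInc (80 * a) (bi i) lam - arrowInc a b lam ≤ 24 * arrowM a b lam := by
  have hb : ∀ k, 0 ≤ b k := fun k => by
    rw [← havg k]
    exact div_nonneg (Finset.sum_nonneg fun i _ => hbi i k) (Nat.cast_nonneg r)
  set m := arrowM a b lam with hm
  set eP := asgEP a b lam with heP
  set eN := asgEN a b lam with heN
  have hm0 : 0 ≤ m := arrowM_nonneg a b lam
  have hP0 : 0 ≤ eP := asgEP_nonneg a b lam
  have hN0 : 0 ≤ eN := asgEN_nonneg a b lam
  refine asg_exists_le_of_forall_pos hr _ _ fun δ hδ => ?_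
  set L : ℝ := 8 * a + (10 * m + eP / 2 + δ / 2) with hL
  set s' : ℝ := eN + 12 * m + δ / 2 with hs
  have hL0 : 0 < L := by positivity
  have hs0 : 0 < s' := by positivity
  have hdP : ∀ k, 0 < L + max (lam k) 0 := fun k => by
    have := le_max_right (lam k) 0
    linarith
  have hdN : ∀ k, 0 < s' + max (-lam k) 0 := fun k => by
    have := le_max_right (-lam k) 0
    linarith
  have tP := asg_test_pos a lam hb L hL0
  have tN := asg_test_neg a lam hb s' hs0
  rw [← hm, ← heP] at tP
  rw [← hm, ← heN] at tN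
  -- bounds for the two test sums
  have tP' : ∑ k, (if 0 < lam k then b k else 0) / (L + max (lam k) 0) ≤
      (10 * m + eP / 2 + δ / 2) / 2 := by
    refine tP.trans ?_
    have h1 : (4 * m + 2 * a) * eP / L ≤ (6 * m + eP / 2) / 2 := by
      rw [div_le_iff₀ hL0, hL]
      nlinarith [mul_nonneg hm0 hP0, mul_nonneg hm0 hm0, mul_nonneg hP0 hP0, mul_nonneg hm0 ha.le,
        mul_nonneg hP0 ha.le, mul_nonneg hm0 hδ.le, mul_nonneg hP0 hδ.le]
    linarith
  have tN' : ∑ k, (if 0 < lam k then 0 else b k) / (s' + max (-lam k) 0) ≤ 6 * m + 4 * a := by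
    refine tN.trans ?_
    have h1 : (4 * m + 2 * a) * eN / s' ≤ 4 * m + 2 * a := by
      rw [div_le_iff₀ hs0, hs]
      nlinarith [mul_nonneg hm0 hN0, mul_nonneg hm0 hm0, mul_nonneg hm0 ha.le,
        mul_nonneg hm0 hδ.le, mul_nonneg ha.le hδ.le]
    linarith
  have hflip : ∀ (β : K → ℝ) (k : K), (if 0 < lam k then 0 else β k) =
      (if ¬ 0 < lam k then β k else 0) := by
    intro β k
    split_ifs <;> rfl
  obtain ⟨i, hiX, hiY⟩ := asg_avg_two hr
    (fun i => ∑ k, (if 0 < lam k then bi i k else 0) / (L + max (lam k) 0))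
    (fun i => ∑ k, (if 0 < lam k then 0 else bi i k) / (s' + max (-lam k) 0))
    (fun i => Finset.sum_nonneg fun k _ => div_nonneg (by
      split_ifs
      · exact hbi i k
      · exact le_rfl) (hdP k).le)
    (fun i => Finset.sum_nonneg fun k _ => div_nonneg (by
      split_ifs
      · exact le_rfl
      · exact hbi i k) (hdN k).le)
    (A := (10 * m + eP / 2 + δ / 2) / 2) (B := 6 * m + 4 * a) (by positivity) (by positivity)
    (by
      rw [asg_sum_avg hr b bi havg]
      exact mul_le_mul_of_nonneg_left tP' (Nat.cast_nonneg r))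
    (by
      simp only [hflip]
      rw [asg_sum_avg hr b bi havg]
      simp only [← hflip]
      exact mul_le_mul_of_nonneg_left tN' (Nat.cast_nonneg r))
  refine ⟨i, ?_⟩
  have hsup := arrowInc_le_of_super (80 * a) (8 * a) (8 * a) L s' (bi i) lam (hbi i)
    (by linarith) hL0 hs0 (by rw [hL] at hiX ⊢; linarith) (by rw [hs] at hiY ⊢; linarith)
  rw [arrowInc_eq a b lam, ← hm, ← heP, ← heN]
  rw [hL, hs] at hsup
  linarith

end Final

end

end Claimed.Agent.R302
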