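/-
R302 / Poly / Costs  (owner: helper165)
Paper Q, Section 4: Lemma 4.2 (second half), options (4.9), Lemma 4.4, Lemma 4.7, at the level of `PvData`.
This is the API consumed by Sections 5 and 6.
-/
import Claimed.Agent.R302.Poly.Root
import Claimed.Agent.R302.Poly.Assign

set_option autoImplicit false

namespace Claimed.Agent.R302

open Finset Polynomial
open scoped BigOperators ComplexConjugate

noncomputable section

/-- a diagonal shift of the kernels is a shift of the variables -/
theorem pvMix_shift {V : Type*} [DecidableEq V] {J : Type*} [Fintype J] [DecidableEq J]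
    (p : V → J → ℝ) (B : J → V → V → ℂ) (S : Finset V) (z h : V → ℂ) :
    pvMix p (fun j u v => B j u v - if u = v then h v else 0) S z = pvMix p B S (z + h) := by
  unfold pvMix
  refine Finset.sum_congr rfl fun ω _ => ?_
  congr 2
  ext a b
  by_cases hab : a = b
  · subst hab; simp [pvOutMat]; ring
  · have : (a : V) ≠ b := fun h => hab (Subtype.ext h)
    simp [pvOutMat, Matrix.diagonal_apply, hab, this]

theorem pv_step_integral {L y : ℝ} (hy : |y| ≤ L) (φ : ℝ → ℝ)
    (hφ : IntervalIntegrable φ MeasureTheory.volume (-L) L) :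
    IntervalIntegrable (fun x => φ x * (if x < y then 1 else 0)) MeasureTheory.volume (-L) L ∧
      ∫ x in (-L)..L, φ x * (if x < y then 1 else 0) = ∫ x in (-L)..y, φ x := by
  have h1 := abs_le.1 hy
  have hLL : -L ≤ L := h1.1.trans h1.2
  have e : (fun x => φ x * (if x < y then 1 else 0)) = (Set.Iio y).indicator φ := by
    funext x
    by_cases hx : x < y
    · simp [hx]
    · simp [hx]
  rw [e]
  constructor
  · rw [intervalIntegrable_iff] at hφ ⊢
    exact hφ.indicator measurableSet_Iio
  · rw [intervalIntegral.integral_of_le hLL, intervalIntegral.integral_of_le h1.1,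
      MeasureTheory.setIntegral_indicator measurableSet_Iio, MeasureTheory.integral_Ioc_eq_integral_Ioo]
    congr 2
    ext x
    simp only [Set.mem_inter_iff, Set.mem_Ioc, Set.mem_Iio, Set.mem_Ioo]
    constructor
    · rintro ⟨⟨h2, _⟩, h3⟩; exact ⟨h2, h3⟩
    · rintro ⟨h2, h3⟩; exact ⟨⟨h2, by linarith⟩, h3⟩

theorem pvRootSum_integral (P : ℂ[X]) {L : ℝ} (hL : ∀ x ∈ P.roots, |x.re| ≤ L) (c₀ : ℝ) (φ : ℝ → ℝ)
    (hφ : IntervalIntegrable φ MeasureTheory.volume (-L) L) :
    IntervalIntegrable (fun x => φ x * (pvCount P x : ℝ)) MeasureTheory.volume (-L) L ∧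
    pvRootSum P (fun x => c₀ + ∫ s in (-L)..x, φ s) =
      (Multiset.card P.roots : ℝ) * c₀ + ∫ x in (-L)..L, φ x * (pvCount P x : ℝ) := by
  unfold pvRootSum pvCount
  generalize P.roots = m at hL
  induction m using Multiset.induction_on with
  | empty => simp
  | cons a s ih =>
    obtain ⟨i1, i2⟩ := ih fun x hx => hL x (Multiset.mem_cons_of_mem hx)
    obtain ⟨j1, j2⟩ := pv_step_integral (hL a (Multiset.mem_cons_self a s)) φ hφ
    have e : (fun x => φ x * ((Multiset.card ((a ::ₘ s).filter fun y : ℂ => x < y.re) : ℕ) : ℝ)) =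
        fun x => φ x * (if x < a.re then 1 else 0) +
          φ x * ((Multiset.card (s.filter fun y : ℂ => x < y.re) : ℕ) : ℝ) := by
      funext x
      rw [Multiset.filter_cons]
      by_cases h : x < a.re
      · simp [h]; ring
      · simp [h]
    rw [e]
    refine ⟨j1.add i1, ?_⟩
    rw [intervalIntegral.integral_add j1 i1, j2, Multiset.map_cons, Multiset.sum_cons, i2,
      Multiset.card_cons]
    push_cast
    ring

theorem pvCount_le_card (P : ℂ[X]) (x : ℝ) : pvCount P x ≤ Multiset.card P.roots :=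
  Multiset.card_le_card (Multiset.filter_le _ _)

namespace PvData

variable {V : Type*} [DecidableEq V] {r : ℕ}

theorem law_prob (D : PvData V r) (hr : 0 < r) (S : Finset V) : PvProb D.law S := by
  intro v _
  have hr' : (0 : ℝ) < r := by exact_mod_cast hr
  unfold law
  cases hc : D.c v with
  | none =>
    refine ⟨fun j => by positivity, ?_⟩
    simp only [Finset.sum_const, Finset.card_univ, Fintype.card_prod, Fintype.card_fin,
      Fintype.card_bool, nsmul_eq_mul]
    push_cast
    field_simp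
  | some i =>
    refine ⟨fun j => by show (0 : ℝ) ≤ if j.1 = i then 1 / 2 else 0; split_ifs <;> norm_num, ?_⟩
    show ∑ j : PvOpt r, (if j.1 = i then (1 / 2 : ℝ) else 0) = 1
    rw [Fintype.sum_prod_type]
    simp

theorem ker_herm {D : PvData V r} (hD : D.Good) : PvHerm D.ker := by
  intro j u v
  unfold ker
  have hs : conj (sgn j) = sgn j := by unfold sgn; split_ifs <;> simp
  rw [map_sub, map_mul, map_mul, map_mul, hs, Complex.conj_ofReal, Complex.conj_ofReal, ← hD.herm u v]
  by_cases huv : u = v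
  · subst huv; simp
  · simp only [huv, Ne.symm huv, if_false, map_zero]; ring

theorem poly_eval (D : PvData V r) (S : Finset V) (x : ℂ) : (D.poly S).eval x = D.P S fun _ => x :=
  pvPoly_eval _ _ _ _

theorem poly_monic (D : PvData V r) (hr : 0 < r) (S : Finset V) : (D.poly S).Monic :=
  pvPoly_monic _ fun v hv => (D.law_prob hr S v hv).2

theorem poly_natDegree (D : PvData V r) (hr : 0 < r) (S : Finset V) :
    (D.poly S).natDegree = S.card :=
  pvPoly_natDegree _ fun v hv => (D.law_prob hr S v hv).2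

theorem poly_roots_real {D : PvData V r} (hD : D.Good) (hr : 0 < r) (S : Finset V) :
    ∀ x ∈ (D.poly S).roots, x.im = 0 :=
  pvPoly_roots_real (D.law_prob hr S) (ker_herm hD)

/-- the polynomial only depends on the data on `S` -/
theorem poly_congr {D D' : PvData V r} {S : Finset V}
    (hT : ∀ u ∈ S, ∀ v ∈ S, D.T u v = D'.T u v) (hW : ∀ v ∈ S, D.W v = D'.W v)
    (hc : ∀ v ∈ S, D.c v = D'.c v) (hτ : ∀ v ∈ S, D.τ v = D'.τ v) : D.poly S = D'.poly S := by
  refine Polynomial.funext fun x => ?_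
  unfold poly
  rw [pvPoly_eval, pvPoly_eval]
  refine pvMix_congr (fun v hv => ?_) (fun j u hu v hv => ?_) (fun _ _ => rfl)
  · funext j
    unfold law
    rw [hc v hv]
  · unfold ker a
    rw [hT u hu v hv, hW u hu, hW v hv, hτ v hv]

theorem shift_eq {D : PvData V r} (hD : D.Good) (hr : 0 < r) (v : V) :
    pvShift D.law D.ker v = D.a v := by
  unfold pvShift
  have h1 : ∀ j, (D.ker j v v).re = -D.a v := by
    intro j
    unfold ker
    rw [hD.zdiag v]
    simp
  simp_rw [h1]
  rw [← Finset.sum_mul, (D.law_prob hr {v} v (Finset.mem_singleton_self v)).2]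
  ring

theorem kapNum_eq {D : PvData V r} (hD : D.Good) (hr : 0 < r) (S : Finset V) (v : V) :
    pvKapNum D.law D.ker S v = (X + C (D.a v : ℂ)) * D.poly (S.erase v) - D.poly S := by
  unfold pvKapNum
  rw [shift_eq hD hr]
  rfl

/-- `Im F ≥ Im z` -/
theorem F_im {D : PvData V r} (hD : D.Good) (hr : 0 < r) {S : Finset V} {v : V} (hv : v ∈ S)
    {z : ℂ} (hz : 0 < z.im) : z.im ≤ (D.F S v z).im :=
  pv_F_im (D.law_prob hr S) (ker_herm hD) hv hz

/-- the rooted measure exists -/
theorem rho_spec {D : PvData V r} (hD : D.Good) (hr : 0 < r) {S : Finset V} {v : V} (hv : v ∈ S) :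
    IsResW (D.poly S) (D.poly (S.erase v)) (pvResW (D.poly S) (D.poly (S.erase v))) :=
  pv_rho_spec (D.law_prob hr S) (ker_herm hD) hv

/-- the residue measure exists: `F = z + a_v - ∑ b_λ / (z - λ)` -/
theorem kap_spec {D : PvData V r} (hD : D.Good) (hr : 0 < r) {S : Finset V} {v : V} (hv : v ∈ S) :
    IsResW (D.poly (S.erase v)) ((X + C (D.a v : ℂ)) * D.poly (S.erase v) - D.poly S)
      (pvResW (D.poly (S.erase v)) ((X + C (D.a v : ℂ)) * D.poly (S.erase v) - D.poly S)) := by
  have := pv_kap_spec (D.law_prob hr S) (ker_herm hD) hv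
  rwa [kapNum_eq hD hr] at this

/-- LINK with the arrow matrix: poles = distinct roots of the deletion polynomial. -/
theorem arrow_link {D : PvData V r} (hD : D.Good) (hr : 0 < r) {S : Finset V} {v : V} (hv : v ∈ S)
    (f : ℝ → ℝ) :
    let Kf := (D.poly (S.erase v)).roots.toFinset
    let b : Kf → ℝ := fun k =>
      pvResW (D.poly (S.erase v)) ((X + C (D.a v : ℂ)) * D.poly (S.erase v) - D.poly S) k
    let lam : Kf → ℝ := fun k => (k : ℂ).re
    D.rho S v f = arrowRho (D.a v) b lam f ∧
      D.df S v f = arrowTr (D.a v) b lam f - ∑ k, f (lam k) :=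
  arrow_link_abs (D.poly_monic hr _) (poly_roots_real hD hr _) (kap_spec hD hr hv) f

theorem rho_one {D : PvData V r} (hD : D.Good) (hr : 0 < r) {S : Finset V} {v : V} (hv : v ∈ S) :
    D.rho S v (fun _ => 1) = 1 := by
  rw [(arrow_link hD hr hv _).1, arrowRho_one]

theorem rho_id {D : PvData V r} (hD : D.Good) (hr : 0 < r) {S : Finset V} {v : V} (hv : v ∈ S) :
    D.rho S v (fun x => x) = -D.a v := by
  rw [(arrow_link hD hr hv _).1, arrowRho_id]

/-- collision probability -/
def coll (D : PvData V r) (u v : V) : ℝ := ∑ j, D.law u j * D.law v j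

theorem kap_one {D : PvData V r} (hD : D.Good) (hr : 0 < r) {S : Finset V} {v : V} (hv : v ∈ S) :
    D.kap S v (fun _ => 1) =
      ∑ u ∈ S.erase v, D.W v * D.W u * ‖D.T v u‖ ^ 2 * D.coll u v := by
  have h := pv_kap_one (D.law_prob hr S) (ker_herm hD) hv
  rw [kapNum_eq hD hr] at h
  unfold kap
  refine Eq.trans h ?_
  refine Finset.sum_congr rfl fun u hu => ?_
  unfold coll
  rw [Finset.mul_sum]
  refine Finset.sum_congr rfl fun j _ => ?_
  have hne : v ≠ u := (Finset.ne_of_mem_erase hu).symm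
  have h1 : ‖D.ker j v u‖ ^ 2 = D.W v * D.W u * ‖D.T v u‖ ^ 2 := by
    unfold ker
    rw [if_neg hne, sub_zero, norm_mul, norm_mul, norm_mul]
    have hs : ‖sgn j‖ = 1 := by unfold sgn; split_ifs <;> simp
    rw [hs, Complex.norm_real, Complex.norm_real, Real.norm_of_nonneg (Real.sqrt_nonneg _),
      Real.norm_of_nonneg (Real.sqrt_nonneg _), one_mul, mul_pow, mul_pow,
      Real.sq_sqrt (hD.Wpos v).le, Real.sq_sqrt (hD.Wpos u).le]
    ring
  rw [h1]; ring

theorem rho_sq {D : PvData V r} (hD : D.Good) (hr : 0 < r) {S : Finset V} {v : V} (hv : v ∈ S) :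
    D.rho S v (fun x => x ^ 2) = D.a v ^ 2 + D.kap S v fun _ => 1 := by
  rw [(arrow_link hD hr hv _).1]
  have h := arrowRho_sq (D.a v) (fun k : (D.poly (S.erase v)).roots.toFinset =>
      pvResW (D.poly (S.erase v)) ((X + C (D.a v : ℂ)) * D.poly (S.erase v) - D.poly S) k)
    (fun k => (k : ℂ).re) (fun k => (kap_spec hD hr hv).1 k)
  rw [h]
  congr 1
  unfold kap pvRho
  simp only [mul_one]
  exact Finset.sum_coe_sort _ (fun μ => pvResW (D.poly (S.erase v))
    ((X + C (D.a v : ℂ)) * D.poly (S.erase v) - D.poly S) μ)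

theorem rho_mono {D : PvData V r} (hD : D.Good) (hr : 0 < r) {S : Finset V} {v : V} (hv : v ∈ S)
    {f g : ℝ → ℝ} (hfg : ∀ x ∈ (D.poly S).roots, f x.re ≤ g x.re) : D.rho S v f ≤ D.rho S v g := by
  unfold rho pvRho
  refine Finset.sum_le_sum fun μ hμ => ?_
  exact mul_le_mul_of_nonneg_left (hfg μ (Multiset.mem_toFinset.1 hμ)) ((rho_spec hD hr hv).1 μ)

/-- the rooted measures add up to the root counting measure -/
theorem sum_rho {D : PvData V r} (hD : D.Good) (hr : 0 < r) (S : Finset V) (f : ℝ → ℝ) :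
    ∑ v ∈ S, D.rho S v f = pvRootSum (D.poly S) f :=
  pv_sum_rho (D.law_prob hr S) (ker_herm hD) f

theorem sum_m {D : PvData V r} (hD : D.Good) (hr : 0 < r) (S : Finset V) :
    ∑ v ∈ S, D.m S v = pvSPos (D.poly S) :=
  sum_rho hD hr S _

/-- formula (5.3): the increment as a sum of local differences -/
theorem df_eq_sum {D : PvData V r} (hD : D.Good) (hr : 0 < r) {S : Finset V} {v : V} (hv : v ∈ S)
    (f : ℝ → ℝ) :
    D.df S v f = D.rho S v f + ∑ u ∈ S.erase v, (D.rho S u f - D.rho (S.erase v) u f) := by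
  unfold df
  rw [← sum_rho hD hr S f, ← sum_rho hD hr (S.erase v) f, Finset.sum_sub_distrib,
    ← Finset.add_sum_erase S _ hv]
  ring

/-- interlacing count (4.12) -/
theorem count_interlace {D : PvData V r} (hD : D.Good) (hr : 0 < r) {S : Finset V} {v : V}
    (hv : v ∈ S) (x : ℝ) :
    pvCount (D.poly (S.erase v)) x ≤ pvCount (D.poly S) x ∧
      pvCount (D.poly S) x ≤ pvCount (D.poly (S.erase v)) x + 1 :=
  pv_count_interlace (D.law_prob hr S) (ker_herm hD) hv x

theorem rho_sub (D : PvData V r) (S : Finset V) (v : V) (f g : ℝ → ℝ) :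
    D.rho S v (fun x => f x - g x) = D.rho S v f - D.rho S v g := by
  unfold rho pvRho
  rw [← Finset.sum_sub_distrib]
  exact Finset.sum_congr rfl fun μ _ => by ring

theorem rho_add (D : PvData V r) (S : Finset V) (v : V) (f g : ℝ → ℝ) :
    D.rho S v (fun x => f x + g x) = D.rho S v f + D.rho S v g := by
  unfold rho pvRho
  rw [← Finset.sum_add_distrib]
  exact Finset.sum_congr rfl fun μ _ => by ring

theorem rho_smul (D : PvData V r) (S : Finset V) (v : V) (c : ℝ) (f : ℝ → ℝ) :
    D.rho S v (fun x => c * f x) = c * D.rho S v f := by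
  unfold rho pvRho
  rw [Finset.mul_sum]
  exact Finset.sum_congr rfl fun μ _ => by ring

theorem rho_abs_sub_le {D : PvData V r} (hD : D.Good) (hr : 0 < r) {S : Finset V} {v : V}
    (hv : v ∈ S) {f g : ℝ → ℝ} {ε : ℝ} (h : ∀ x ∈ (D.poly S).roots, |f x.re - g x.re| ≤ ε) :
    |D.rho S v f - D.rho S v g| ≤ ε := by
  have h1 : D.rho S v (fun _ => ε) = ε := by
    have := rho_smul D S v ε (fun _ => 1)
    rw [rho_one hD hr hv] at this
    simpa using this
  rw [abs_le]
  constructor
  · have := rho_mono hD hr hv (f := fun x => g x - f x) (g := fun _ => ε)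
      (fun x hx => by have := abs_le.1 (h x hx); linarith [this.1])
    rw [rho_sub, h1] at this
    linarith
  · have := rho_mono hD hr hv (f := fun x => f x - g x) (g := fun _ => ε)
      (fun x hx => by have := abs_le.1 (h x hx); linarith [this.2])
    rw [rho_sub, h1] at this
    linarith

theorem d_eq_df (D : PvData V r) (S : Finset V) (v : V) : D.d S v = D.df S v fun x => max x 0 := rfl

theorem d_nonneg {D : PvData V r} (hD : D.Good) (hr : 0 < r) {S : Finset V} {v : V} (hv : v ∈ S) :
    0 ≤ D.d S v := by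
  rw [d_eq_df, (arrow_link hD hr hv _).2]
  exact arrowInc_nonneg _ _ _

theorem m_nonneg {D : PvData V r} (hD : D.Good) (hr : 0 < r) {S : Finset V} {v : V} (hv : v ∈ S) :
    0 ≤ D.m S v := by
  unfold m rho pvRho
  exact Finset.sum_nonneg fun μ _ => mul_nonneg ((rho_spec hD hr hv).1 μ) (le_max_right _ _)

/-- Lemma 4.4 tail -/
theorem df_tail {D : PvData V r} (hD : D.Good) (hr : 0 < r) {S : Finset V} {v : V} (hv : v ∈ S)
    {B : ℝ} (hB : 0 ≤ B) :
    D.df S v (fun x => max (x - B) 0) ≤
      2 * D.rho S v (fun x => max (x - B) 0) +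
        (D.a v + B) * D.rho S v (fun x => if B < x then 1 else 0) := by
  rw [(arrow_link hD hr hv _).2, (arrow_link hD hr hv _).1, (arrow_link hD hr hv _).1]
  exact arrow_tail (D.a v) (fun k : (D.poly (S.erase v)).roots.toFinset =>
      pvResW (D.poly (S.erase v)) ((X + C (D.a v : ℂ)) * D.poly (S.erase v) - D.poly S) k)
    (fun k => (k : ℂ).re) (fun k => (kap_spec hD hr hv).1 k) B hB

theorem d_le {D : PvData V r} (hD : D.Good) (hr : 0 < r) {S : Finset V} {v : V} (hv : v ∈ S)
    (ha : 0 ≤ D.a v) : D.d S v ≤ 2 * D.m S v + D.a v := by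
  rw [d_eq_df, (arrow_link hD hr hv _).2]
  unfold m
  rw [(arrow_link hD hr hv _).1]
  exact arrowInc_le (D.a v) ha (fun k : (D.poly (S.erase v)).roots.toFinset =>
      pvResW (D.poly (S.erase v)) ((X + C (D.a v : ℂ)) * D.poly (S.erase v) - D.poly S) k)
    (fun k => (k : ℂ).re) (fun k => (kap_spec hD hr hv).1 k)

/-! ### increments of absolutely continuous functions -/

theorem card_roots (D : PvData V r) (hr : 0 < r) (S : Finset V) :
    Multiset.card (D.poly S).roots = S.card := by
  rw [← (IsAlgClosed.splits (D.poly S)).natDegree_eq_card_roots, poly_natDegree D hr]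

/-- the roots of the deletion polynomial stay in the same interval -/
theorem roots_erase_bdd {D : PvData V r} (hD : D.Good) (hr : 0 < r) {S : Finset V} {v : V}
    (hv : v ∈ S) {L : ℝ} (hL : ∀ x ∈ (D.poly S).roots, |x.re| ≤ L) :
    ∀ x ∈ (D.poly (S.erase v)).roots, |x.re| ≤ L := by
  intro y hy
  rw [abs_le]
  constructor
  · by_contra hcon
    have hlt : y.re < -L := not_le.1 hcon
    have h1 : pvCount (D.poly S) y.re = S.card := by
      unfold pvCount
      rw [Multiset.filter_eq_self.2, card_roots D hr]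
      intro u hu
      have := (abs_le.1 (hL u hu)).1
      linarith
    have h2 : pvCount (D.poly (S.erase v)) y.re + 1 ≤ (S.erase v).card := by
      rw [← card_roots D hr (S.erase v)]
      unfold pvCount
      have h3 := congrArg Multiset.card (Multiset.filter_add_not (fun u : ℂ => y.re < u.re)
        (D.poly (S.erase v)).roots)
      rw [Multiset.card_add] at h3
      have h4 : 0 < Multiset.card ((D.poly (S.erase v)).roots.filter fun u : ℂ => ¬ y.re < u.re) :=
        Multiset.card_pos_iff_exists_mem.2 ⟨y, Multiset.mem_filter.2 ⟨hy, lt_irrefl _⟩⟩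
      omega
    have h5 := (count_interlace hD hr hv y.re).2
    have h6 := Finset.card_erase_of_mem hv
    have h7 := Finset.card_pos.2 ⟨v, hv⟩
    omega
  · exact maxroot_erase (D.law_prob hr S) (ker_herm hD) hv
      (fun u hu => (abs_le.1 (hL u hu)).2) y hy

/-- (5.4): increments of absolutely continuous functions -/
theorem df_integral {D : PvData V r} (hD : D.Good) (hr : 0 < r) {S : Finset V} {v : V} (hv : v ∈ S)
    {L : ℝ} (hL : ∀ x ∈ (D.poly S).roots, |x.re| ≤ L) (c₀ : ℝ) (φ : ℝ → ℝ)
    (hφ : IntervalIntegrable φ MeasureTheory.volume (-L) L) :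
    D.df S v (fun x => c₀ + ∫ s in (-L)..x, φ s) =
      c₀ + ∫ x in (-L)..L, φ x *
        ((pvCount (D.poly S) x : ℝ) - (pvCount (D.poly (S.erase v)) x : ℝ)) := by
  obtain ⟨i1, i2⟩ := pvRootSum_integral (D.poly S) hL c₀ φ hφ
  obtain ⟨j1, j2⟩ := pvRootSum_integral (D.poly (S.erase v)) (roots_erase_bdd hD hr hv hL) c₀ φ hφ
  unfold df
  simp_rw [mul_sub]
  rw [i2, j2, intervalIntegral.integral_sub i1 j1, card_roots D hr, card_roots D hr,
    Finset.card_erase_of_mem hv]
  have h7 := Finset.card_pos.2 ⟨v, hv⟩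
  rw [Nat.cast_sub h7]
  push_cast
  ring

/-- (5.5) -/
theorem df_sub_le {D : PvData V r} (hD : D.Good) (hr : 0 < r) {S : Finset V} {v : V} (hv : v ∈ S)
    {L : ℝ} (hL : ∀ x ∈ (D.poly S).roots, |x.re| ≤ L) (c₀ c₁ : ℝ) (φ ψ : ℝ → ℝ)
    (hφ : IntervalIntegrable φ MeasureTheory.volume (-L) L)
    (hψ : IntervalIntegrable ψ MeasureTheory.volume (-L) L) :
    |D.df S v (fun x => c₀ + ∫ s in (-L)..x, φ s) - D.df S v (fun x => c₁ + ∫ s in (-L)..x, ψ s)| ≤
      |c₀ - c₁| + ∫ x in (-L)..L, |φ x - ψ x| := by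
  have hLL : -L ≤ L := by
    have h1 : 0 < Multiset.card (D.poly S).roots := by
      rw [card_roots D hr]; exact Finset.card_pos.2 ⟨v, hv⟩
    obtain ⟨y, hy⟩ := Multiset.card_pos_iff_exists_mem.1 h1
    have := abs_le.1 (hL y hy)
    linarith
  rw [df_integral hD hr hv hL c₀ φ hφ, df_integral hD hr hv hL c₁ ψ hψ]
  obtain ⟨i1, -⟩ := pvRootSum_integral (D.poly S) hL c₀ φ hφ
  obtain ⟨j1, -⟩ := pvRootSum_integral (D.poly (S.erase v)) (roots_erase_bdd hD hr hv hL) c₀ φ hφ
  obtain ⟨i2, -⟩ := pvRootSum_integral (D.poly S) hL c₀ ψ hψ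
  obtain ⟨j2, -⟩ := pvRootSum_integral (D.poly (S.erase v)) (roots_erase_bdd hD hr hv hL) c₀ ψ hψ
  have k1 : IntervalIntegrable (fun x => φ x *
      ((pvCount (D.poly S) x : ℝ) - (pvCount (D.poly (S.erase v)) x : ℝ))) MeasureTheory.volume (-L) L := by
    simp_rw [mul_sub]; exact i1.sub j1
  have k2 : IntervalIntegrable (fun x => ψ x *
      ((pvCount (D.poly S) x : ℝ) - (pvCount (D.poly (S.erase v)) x : ℝ))) MeasureTheory.volume (-L) L := by
    simp_rw [mul_sub]; exact i2.sub j2
  have e : c₀ + (∫ x in (-L)..L, φ x *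
        ((pvCount (D.poly S) x : ℝ) - (pvCount (D.poly (S.erase v)) x : ℝ))) -
      (c₁ + ∫ x in (-L)..L, ψ x *
        ((pvCount (D.poly S) x : ℝ) - (pvCount (D.poly (S.erase v)) x : ℝ))) =
      (c₀ - c₁) + ∫ x in (-L)..L, (φ x *
        ((pvCount (D.poly S) x : ℝ) - (pvCount (D.poly (S.erase v)) x : ℝ)) - ψ x *
        ((pvCount (D.poly S) x : ℝ) - (pvCount (D.poly (S.erase v)) x : ℝ))) := by
    rw [intervalIntegral.integral_sub k1 k2]; ring
  rw [e]
  refine (abs_add_le _ _).trans (add_le_add le_rfl ?_)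
  refine (intervalIntegral.abs_integral_le_integral_abs hLL).trans ?_
  refine intervalIntegral.integral_mono_on hLL (k1.sub k2).abs (hφ.sub hψ).abs fun x _ => ?_
  have h1 := count_interlace hD hr hv x
  have h2 : (pvCount (D.poly (S.erase v)) x : ℝ) ≤ (pvCount (D.poly S) x : ℝ) := by exact_mod_cast h1.1
  have h3 : (pvCount (D.poly S) x : ℝ) ≤ (pvCount (D.poly (S.erase v)) x : ℝ) + 1 := by
    exact_mod_cast h1.2
  rw [← sub_mul, abs_mul]
  have h4 : |(pvCount (D.poly S) x : ℝ) - (pvCount (D.poly (S.erase v)) x : ℝ)| ≤ 1 := by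
    rw [abs_le]; constructor <;> linarith
  calc |φ x - ψ x| * |(pvCount (D.poly S) x : ℝ) - (pvCount (D.poly (S.erase v)) x : ℝ)|
      ≤ |φ x - ψ x| * 1 := mul_le_mul_of_nonneg_left h4 (abs_nonneg _)
    _ = |φ x - ψ x| := mul_one _

/-! ### options at a site -/

theorem cond_good {D : PvData V r} (hD : D.Good) (v : V) (i : Fin r) : (D.cond v i).Good :=
  ⟨hD.herm, hD.zdiag, hD.contr, hD.Wpos⟩

theorem assign_good {D : PvData V r} (hD : D.Good) (v : V) (i : Fin r) (τ' : ℝ) :
    (D.assign v i τ').Good :=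
  ⟨hD.herm, hD.zdiag, hD.contr, hD.Wpos⟩

theorem cond_poly_erase (D : PvData V r) (S : Finset V) (v : V) (i : Fin r) :
    (D.cond v i).poly (S.erase v) = D.poly (S.erase v) := by
  refine poly_congr (fun _ _ _ _ => rfl) (fun _ _ => rfl) (fun u hu => ?_) (fun _ _ => rfl)
  simp [cond, Function.update_apply, Finset.ne_of_mem_erase hu]

theorem assign_poly_erase (D : PvData V r) (S : Finset V) (v : V) (i : Fin r) (τ' : ℝ) :
    (D.assign v i τ').poly (S.erase v) = D.poly (S.erase v) := by
  refine poly_congr (fun _ _ _ _ => rfl) (fun _ _ => rfl) (fun u hu => ?_) (fun u hu => ?_)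
  · simp [assign, Function.update_apply, Finset.ne_of_mem_erase hu]
  · simp [assign, Function.update_apply, Finset.ne_of_mem_erase hu]

theorem cond_law (D : PvData V r) (v : V) (i : Fin r) :
    (D.cond v i).law = Function.update D.law v (fun j => if j.1 = i then 1 / 2 else 0) := by
  funext u j
  by_cases hu : u = v
  · subst hu; simp [law, cond]
  · simp [law, cond, Function.update_apply, hu]

/-- (4.9) first half -/
theorem poly_avg_cond (D : PvData V r) {S : Finset V} {v : V} (hv : v ∈ S)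
    (hc : D.c v = none) : (r : ℂ) • D.poly S = ∑ i, (D.cond v i).poly S := by
  rcases Nat.eq_zero_or_pos r with rfl | hr
  · simp
  have hr' : (r : ℂ) ≠ 0 := by exact_mod_cast hr.ne'
  refine Polynomial.funext fun x => ?_
  rw [Polynomial.eval_smul, Polynomial.eval_finsetSum]
  unfold poly
  simp_rw [pvPoly_eval]
  rw [pvMix_cond D.law D.ker _ hv]
  have h1 : ∀ i, pvMix (D.cond v i).law (D.cond v i).ker S (fun _ => x) =
      ∑ j : PvOpt r, (if j.1 = i then (1 / 2 : ℂ) else 0) *
        pvMix (Function.update D.law v (Pi.single j 1)) D.ker S (fun _ => x) := by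
    intro i
    rw [pvMix_cond (D.cond v i).law (D.cond v i).ker _ hv, cond_law]
    refine Finset.sum_congr rfl fun j _ => ?_
    rw [Function.update_idem, Function.update_self]
    congr 1
    split_ifs <;> simp
  simp_rw [h1]
  rw [Finset.sum_comm, smul_eq_mul, Finset.mul_sum]
  refine Finset.sum_congr rfl fun j _ => ?_
  rw [← Finset.sum_mul, ← mul_assoc]
  congr 1
  have h2 : D.law v j = 1 / (2 * (r : ℝ)) := by unfold law; rw [hc]
  rw [h2, Finset.sum_ite_eq univ j.1]
  push_cast
  simp only [Finset.mem_univ, if_true]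
  field_simp

/-- (4.9) second half -/
theorem assign_poly (D : PvData V r) (hr : 0 < r) {S : Finset V} {v : V} (hv : v ∈ S) (i : Fin r)
    (τ' : ℝ) :
    (D.assign v i τ').poly S =
      (D.cond v i).poly S + C (((τ' - D.τ v) * D.W v : ℝ) : ℂ) * D.poly (S.erase v) := by
  rw [← cond_poly_erase D S v i]
  refine Polynomial.funext fun x => ?_
  rw [Polynomial.eval_add, Polynomial.eval_mul, Polynomial.eval_C]
  unfold poly
  simp_rw [pvPoly_eval]
  have h1 : (D.assign v i τ').law = (D.cond v i).law := rfl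
  have h2 : (D.assign v i τ').ker = fun j u w => (D.cond v i).ker j u w -
      if u = w then (Pi.single v (((τ' - D.τ v) * D.W v : ℝ) : ℂ) : V → ℂ) w else 0 := by
    funext j u w
    unfold ker a
    by_cases huw : u = w
    · subst huw
      by_cases huv : u = v
      · subst huv; simp [assign, cond]; ring
      · simp [assign, cond, Function.update_apply, huv, Pi.single_apply]
    · simp [assign, cond, huw]
  rw [h1, h2, pvMix_shift]
  have h3 : ((fun _ => x) + Pi.single v (((τ' - D.τ v) * D.W v : ℝ) : ℂ) : V → ℂ) =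
      Function.update (fun _ => x) v ((fun _ => x : V → ℂ) v + (((τ' - D.τ v) * D.W v : ℝ) : ℂ)) := by
    funext u
    by_cases hu : u = v
    · subst hu; simp
    · simp [Function.update_apply, hu, Pi.single_apply]
  rw [h3, pvMix_update_add _ _ _ hv (((D.cond v i).law_prob hr S) v hv).2]

/-- LEMMA 4.7 (assigning one colour). -/
theorem assignment {D : PvData V r} (hD : D.Good) (hr : 0 < r) {S : Finset V} {v : V} (hv : v ∈ S)
    (hc : D.c v = none) (hτ : 0 < D.τ v) :
    ∃ i, (D.assign v i (80 * D.τ v)).d S v - D.d S v ≤ 24 * D.m S v := by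
  have hr' : (r : ℂ) ≠ 0 := by exact_mod_cast hr.ne'
  have ha : 0 < D.a v := mul_pos hτ (hD.Wpos v)
  set Q := D.poly (S.erase v) with hQ
  have hQm : Q.Monic := D.poly_monic hr _
  have hQr : ∀ μ ∈ Q.roots, μ.im = 0 := poly_roots_real hD hr _
  have hw := kap_spec hD hr hv
  rw [← hQ] at hw
  set w := pvResW Q ((X + C (D.a v : ℂ)) * Q - D.poly S) with hwdef
  -- residues of the options
  have hwi : ∀ i, IsResW Q ((X + C (D.a v : ℂ)) * Q - (D.cond v i).poly S)
      (pvResW Q ((X + C (D.a v : ℂ)) * Q - (D.cond v i).poly S)) := by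
    intro i
    have h := kap_spec (cond_good hD v i) hr hv
    rw [cond_poly_erase] at h
    exact h
  set wi : Fin r → ℂ → ℝ := fun i => pvResW Q ((X + C (D.a v : ℂ)) * Q - (D.cond v i).poly S)
    with hwidef
  -- averaging
  have havg : ∀ μ, (∑ i, wi i μ) / r = w μ := by
    have h1 := isResW_smul (isResW_finset_sum univ (fun i _ => hwi i)) (c := 1 / (r : ℝ))
      (by positivity)
    have h2 : C (((1 / (r : ℝ) : ℝ)) : ℂ) * ∑ i, ((X + C (D.a v : ℂ)) * Q - (D.cond v i).poly S) =
        (X + C (D.a v : ℂ)) * Q - D.poly S := by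
      rw [Finset.sum_sub_distrib, ← poly_avg_cond D hv hc, Finset.sum_const, Finset.card_univ,
        Fintype.card_fin, Polynomial.smul_eq_C_mul, nsmul_eq_mul, mul_sub, ← mul_assoc,
        ← mul_assoc (C (((1 / (r : ℝ) : ℝ)) : ℂ)) (C (r : ℂ))]
      have h3 : (C (((1 / (r : ℝ) : ℝ)) : ℂ) * (r : ℂ[X])) = 1 := by
        rw [← Polynomial.C_eq_natCast, ← C_mul]
        push_cast
        rw [one_div, inv_mul_cancel₀ hr', C_1]
      have h4 : (C (((1 / (r : ℝ) : ℝ)) : ℂ) * C (r : ℂ)) = 1 := by
        rw [← C_mul]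
        push_cast
        rw [one_div, inv_mul_cancel₀ hr', C_1]
      rw [h3, h4, one_mul, one_mul]
    rw [h2] at h1
    have h5 := isResW_unique hw h1
    intro μ
    rw [h5]
    simp only [hwidef]
    ring
  -- the assigned options
  have hwi' : ∀ i, IsResW Q ((X + C ((80 * D.a v : ℝ) : ℂ)) * Q - (D.assign v i (80 * D.τ v)).poly S)
      (wi i) := by
    intro i
    have h1 : (X + C ((80 * D.a v : ℝ) : ℂ)) * Q - (D.assign v i (80 * D.τ v)).poly S =
        (X + C (D.a v : ℂ)) * Q - (D.cond v i).poly S := by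
      rw [assign_poly D hr hv, ← hQ]
      have h2 : C ((80 * D.a v : ℝ) : ℂ) =
          C (D.a v : ℂ) + C (((80 * D.τ v - D.τ v) * D.W v : ℝ) : ℂ) := by
        rw [← C_add]
        congr 1
        unfold a
        push_cast
        ring
      rw [h2]; ring
    rw [h1]
    exact hwi i
  obtain ⟨i, hi⟩ := arrow_assign (D.a v) ha (fun k : Q.roots.toFinset => w k)
    (fun k : Q.roots.toFinset => (k : ℂ).re) hr (fun i (k : Q.roots.toFinset) => wi i k)
    (fun i k => (hwi i).1 k) (fun k => havg k)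
  refine ⟨i, ?_⟩
  have e1 : (D.assign v i (80 * D.τ v)).d S v = arrowInc (80 * D.a v)
      (fun k : Q.roots.toFinset => wi i k) (fun k : Q.roots.toFinset => (k : ℂ).re) := by
    have h := (arrow_link_abs hQm hQr (hwi' i) (fun x => max x 0)).2
    unfold d
    rw [assign_poly_erase]
    exact h
  have e2 : D.d S v = arrowInc (D.a v) (fun k : Q.roots.toFinset => w k)
      (fun k : Q.roots.toFinset => (k : ℂ).re) :=
    (arrow_link_abs hQm hQr hw (fun x => max x 0)).2
  have e3 : D.m S v = arrowM (D.a v) (fun k : Q.roots.toFinset => w k)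
      (fun k : Q.roots.toFinset => (k : ℂ).re) :=
    (arrow_link_abs hQm hQr hw (fun x => max x 0)).1
  rw [e1, e2, e3]
  exact hi

/-! ### symmetries -/

theorem scale_ker (D : PvData V r) {s : ℝ} (hs : 0 < s) (j : PvOpt r) (u v : V) :
    (D.scale s).ker j u v = (Real.sqrt s : ℂ) * D.ker j u v * (Real.sqrt s : ℂ) := by
  unfold ker a scale
  simp only
  rw [Real.sqrt_mul hs.le, Real.sqrt_mul hs.le]
  have h : (Real.sqrt s : ℂ) * (Real.sqrt s : ℂ) = (s : ℂ) := by
    rw [← Complex.ofReal_mul, Real.mul_self_sqrt hs.le]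
  by_cases huv : u = v
  · simp only [huv, if_true]
    push_cast
    linear_combination ((D.τ v : ℂ) * (D.W v : ℂ)) * h
  · simp only [huv, if_false]
    push_cast
    ring

theorem scale_poly_eval (D : PvData V r) (S : Finset V) {s : ℝ} (hs : 0 < s) (x : ℂ) :
    ((D.scale s).poly S).eval ((s : ℂ) * x) = (s : ℂ) ^ S.card * (D.poly S).eval x := by
  unfold poly
  rw [pvPoly_eval, pvPoly_eval]
  have h : (Real.sqrt s : ℂ) * (Real.sqrt s : ℂ) = (s : ℂ) := by
    rw [← Complex.ofReal_mul, Real.mul_self_sqrt hs.le]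
  have h1 := pvMix_scale D.law D.ker S (fun _ => x) (fun _ => (Real.sqrt s : ℂ))
    (fun _ => (Real.sqrt s : ℂ))
  rw [Finset.prod_const, h] at h1
  rw [← h1]
  refine pvMix_congr (fun _ _ => rfl) (fun j u _ v _ => scale_ker D hs j u v) (fun v _ => ?_)
  rw [← h]; ring

theorem scale_poly_comp (D : PvData V r) (S : Finset V) {s : ℝ} (hs : 0 < s) :
    ((D.scale s).poly S).comp (C (s : ℂ) * X + C 0) = C ((s : ℂ) ^ S.card) * D.poly S := by
  refine Polynomial.funext fun x => ?_
  rw [eval_comp, eval_mul, eval_C, ← scale_poly_eval D S hs]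
  simp

theorem scale_poly_roots (D : PvData V r) (S : Finset V) {s : ℝ} (hs : 0 < s) :
    ((D.scale s).poly S).roots = (D.poly S).roots.map fun x => (s : ℂ) * x := by
  have hs' : (s : ℂ) ≠ 0 := by exact_mod_cast hs.ne'
  have h := map_roots_comp_C_mul_X_add_C ((D.scale s).poly S) (s : ℂ) 0 (isUnit_iff_ne_zero.2 hs')
  rw [scale_poly_comp D S hs, roots_C_mul _ (pow_ne_zero _ hs')] at h
  rw [← h]
  simp

theorem scale_good {D : PvData V r} (hD : D.Good) {s : ℝ} (hs : 0 < s) : (D.scale s).Good :=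
  ⟨hD.herm, hD.zdiag, hD.contr, fun v => mul_pos hs (hD.Wpos v)⟩

theorem scale_rho {D : PvData V r} (hD : D.Good) (hr : 0 < r) {S : Finset V} {v : V} (hv : v ∈ S)
    {s : ℝ} (hs : 0 < s) (f : ℝ → ℝ) : (D.scale s).rho S v f = D.rho S v fun x => f (s * x) := by
  have hs' : (s : ℂ) ≠ 0 := by exact_mod_cast hs.ne'
  have hw := rho_spec hD hr hv
  set w := pvResW (D.poly S) (D.poly (S.erase v)) with hwdef
  have hroots := scale_poly_roots D S hs
  have hinj : Function.Injective (fun x : ℂ => (s : ℂ) * x) := mul_right_injective₀ hs'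
  have hfin : ((D.scale s).poly S).roots.toFinset = (D.poly S).roots.toFinset.image
      (fun x : ℂ => (s : ℂ) * x) := by
    rw [hroots, Multiset.toFinset_map]
  have hw' : IsResW ((D.scale s).poly S) ((D.scale s).poly (S.erase v)) (fun ν => w (ν / s)) := by
    refine ⟨fun ν => hw.1 _, fun ν hν => hw.2.1 _ fun h => hν ?_, fun z hz => ?_⟩
    · rw [hroots, Multiset.mem_map]
      exact ⟨ν / s, h, by field_simp⟩
    · have hz' : z = (s : ℂ) * (z / s) := by field_simp
      rw [hz', scale_poly_eval D S hs] at hz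
      have hz2 : (D.poly S).eval (z / s) ≠ 0 := right_ne_zero_of_mul hz
      have h1 := hw.2.2 _ hz2
      rw [hfin, Finset.sum_image (fun a _ b _ h => hinj h)]
      conv_lhs => rw [hz', scale_poly_eval D S hs, scale_poly_eval D (S.erase v) hs]
      have hcard : S.card = (S.erase v).card + 1 := by
        rw [Finset.card_erase_of_mem hv]
        have := Finset.card_pos.2 ⟨v, hv⟩
        omega
      rw [hcard, pow_succ]
      have h2 : (s : ℂ) ^ (S.erase v).card * (D.poly (S.erase v)).eval (z / s) /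
          ((s : ℂ) ^ (S.erase v).card * s * (D.poly S).eval (z / s)) =
          ((D.poly (S.erase v)).eval (z / s) / (D.poly S).eval (z / s)) / s := by
        have := pow_ne_zero (S.erase v).card hs'
        field_simp
      rw [h2, h1, Finset.sum_div]
      refine Finset.sum_congr rfl fun μ _ => ?_
      show (w μ : ℂ) / (z / s - μ) / s = (w ((s : ℂ) * μ / s) : ℂ) / (z - s * μ)
      rw [mul_div_cancel_left₀ _ hs', div_div]
      congr 1
      field_simp
  have hu := isResW_unique (rho_spec (scale_good hD hs) hr hv) hw'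
  unfold rho pvRho
  rw [hu, hfin, Finset.sum_image (fun a _ b _ h => hinj h)]
  refine Finset.sum_congr rfl fun μ _ => ?_
  show w ((s : ℂ) * μ / s) * f ((s : ℂ) * μ).re = w μ * f (s * μ.re)
  rw [mul_div_cancel_left₀ _ hs']
  simp

theorem recolor_poly (D : PvData V r) (σ : Equiv.Perm (Fin r)) (S : Finset V) :
    (D.recolor σ).poly S = D.poly S := by
  refine Polynomial.funext fun x => ?_
  unfold poly
  rw [pvPoly_eval, pvPoly_eval,
    ← pvMix_relabel D.law D.ker S _ ((σ.symm.prodCongr (Equiv.refl Bool)) : Equiv.Perm (PvOpt r))]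
  refine pvMix_congr (fun v _ => ?_) (fun j u _ v _ => ?_) (fun _ _ => rfl)
  · funext j
    unfold law recolor
    simp only
    cases hc : D.c v with
    | none => simp
    | some i =>
      simp only [Option.map_some, Equiv.prodCongr_apply, Prod.map_fst]
      by_cases h : j.1 = σ i
      · simp [h]
      · have : σ.symm j.1 ≠ i := fun h' => h (by rw [← h']; simp)
        simp [h, this]
  · unfold ker sgn
    rfl

theorem gauge_poly (D : PvData V r) (θ : V → ℂ) (hθ : ∀ v, ‖θ v‖ = 1) (S : Finset V) :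
    (D.gauge θ).poly S = D.poly S := by
  have h1 : ∀ v, θ v * conj (θ v) = 1 := by
    intro v
    rw [Complex.mul_conj, Complex.normSq_eq_norm_sq, hθ v]; simp
  refine Polynomial.funext fun x => ?_
  unfold poly
  rw [pvPoly_eval, pvPoly_eval]
  have h2 := pvMix_scale D.law D.ker S (fun _ => x) θ (fun v => conj (θ v))
  rw [Finset.prod_congr rfl (fun v _ => h1 v), Finset.prod_const_one, one_mul] at h2
  rw [← h2]
  refine pvMix_congr (fun _ _ => rfl) (fun j u _ v _ => ?_) (fun v _ => ?_)
  · unfold ker gauge a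
    by_cases huv : u = v
    · subst huv
      simp only [if_true]
      linear_combination ((D.τ u * D.W u : ℝ) : ℂ) * h1 u
    · simp only [huv, if_false]; ring
  · linear_combination (-x) * h1 v

/-- factorisation over non adjacent parts -/
theorem poly_union (D : PvData V r) {S₁ S₂ : Finset V} (hd : Disjoint S₁ S₂)
    (h : ∀ u ∈ S₁, ∀ v ∈ S₂, D.T u v = 0 ∧ D.T v u = 0) :
    D.poly (S₁ ∪ S₂) = D.poly S₁ * D.poly S₂ := by
  refine Polynomial.funext fun x => ?_
  rw [eval_mul]
  unfold poly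
  rw [pvPoly_eval, pvPoly_eval, pvPoly_eval]
  refine pvMix_union _ _ _ hd fun j u hu v hv => ?_
  have hne : u ≠ v := fun huv => Finset.disjoint_left.1 hd hu (huv ▸ hv)
  unfold ker
  rw [(h u hu v hv).1, (h u hu v hv).2]
  simp [hne, hne.symm]

theorem rho_union {D : PvData V r} (hD : D.Good) (hr : 0 < r) {S₁ S₂ : Finset V}
    (hd : Disjoint S₁ S₂) (h : ∀ u ∈ S₁, ∀ v ∈ S₂, D.T u v = 0) {v : V} (hv : v ∈ S₁)
    (f : ℝ → ℝ) : D.rho (S₁ ∪ S₂) v f = D.rho S₁ v f := by
  have h' : ∀ u ∈ S₁, ∀ v ∈ S₂, D.T u v = 0 ∧ D.T v u = 0 := by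
    intro u hu w hw
    refine ⟨h u hu w hw, ?_⟩
    rw [hD.herm, h u hu w hw]; simp
  have hv2 : v ∉ S₂ := Finset.disjoint_left.1 hd hv
  have e1 : (S₁ ∪ S₂).erase v = S₁.erase v ∪ S₂ := by
    rw [Finset.erase_union_distrib, Finset.erase_eq_of_notMem hv2]
  unfold rho
  rw [e1, poly_union D hd h', poly_union D (hd.mono_left (Finset.erase_subset _ _))
    (fun u hu => h' u (Finset.mem_of_mem_erase hu)), mul_comm (D.poly S₁), mul_comm (D.poly (S₁.erase v))]
  exact pvRho_mul_left (D.poly_monic hr _).ne_zero (D.poly_monic hr _).ne_zero ⟨_, rho_spec hD hr hv⟩ f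

end PvData

end

end Claimed.Agent.R302
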