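/-
R302 / Poly / Upper  (package Poly-Bounds-upper, proved by helper255)
Paper Q, Lemma 4.1, upper bound.  The only place where MSS15 enters.

Derivation (RS17, reflections, doubling of the site set and `maxroot_subset` are NOT needed).
 n = |S| sites, k = card J.  A_j = B j restricted to S (Hermitian, zero diagonal, -1 ≤ A_j ≤ 1).
 R_j = Hermitian square root of (1 + A_j)/2.  Random vectors v_u = sqrt k  e_j (x) R_j e_u in C^(S x J) with probability 1/k:
 sum_u E v_u v_u^* = blockdiag (1 + A_j)/2 ≤ 1,  E |v_u|^2 = k/2.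
 Sub-isotropic form of MSS (`mss_expected_det_pos_of_le`): E det(x - sum v v^*) > 0 for x ≥ (1 + sqrt(k/2))^2.
 x^n det(x - W W^*) = x^(kn) det(x - W^* W) (`Matrix.charpoly_mul_comm'`),  W^* W = (k/2) (1 + outcome matrix).
 Hence E det(y - outcome) > 0 for y = 2x/k - 1 ≥ 2 sqrt 2/sqrt k + 2/k; the roots are real (`pvPoly_roots_real`).
-/
import Claimed.Agent.R302.Poly.Mix
import Claimed.Agent.R302.MSS.Sub

set_option autoImplicit false
set_option linter.unusedSectionVars false

namespace Claimed.Agent.R302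

open Finset Polynomial Matrix
open scoped BigOperators ComplexConjugate ComplexOrder

noncomputable section

section sqrt
open scoped MatrixOrder

/-- Hermitian square root of a positive semidefinite matrix. -/
theorem pvu_exists_herm_sqrt {n : Type*} [Fintype n] [DecidableEq n] (M : Matrix n n ℂ)
    (hM : M.PosSemidef) : ∃ R : Matrix n n ℂ, R.IsHermitian ∧ R * R = M :=
  ⟨CFC.sqrt M, (CFC.sqrt_nonneg M).posSemidef.isHermitian, CFC.sqrt_mul_sqrt_self M hM.nonneg⟩

end sqrt

/-- `x^|n| det(x - W W') = x^|m| det(x - W' W)`. -/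
theorem pvu_det_mul_comm {m n : Type*} [Fintype m] [DecidableEq m] [Fintype n] [DecidableEq n]
    (W : Matrix m n ℂ) (W' : Matrix n m ℂ) (x : ℂ) :
    x ^ Fintype.card n * (x • (1 : Matrix m m ℂ) - W * W').det =
      x ^ Fintype.card m * (x • (1 : Matrix n n ℂ) - W' * W).det := by
  have h := congrArg (Polynomial.eval x) (Matrix.charpoly_mul_comm' W W')
  simp only [eval_mul, eval_pow, eval_X, Matrix.eval_charpoly] at h
  simp only [Matrix.scalar_apply, ← Matrix.smul_one_eq_diagonal] at h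
  exact h

section matrix

variable {n J : Type*} [Fintype n] [DecidableEq n] [Fintype J] [DecidableEq J]

/-- the outcome matrix of a choice `ω`. -/
def pvuOut (A : J → Matrix n n ℂ) (ω : n → J) : Matrix n n ℂ :=
  Matrix.of fun u v => if ω u = ω v then A (ω u) u v else 0

/-- the random vectors: `√k e_j ⊗ R_j e_v`. -/
def pvuVec (R : J → Matrix n n ℂ) (v : n) (j : J) : n × J → ℂ :=
  fun c => (Real.sqrt (Fintype.card J) : ℂ) * blockDiagonal R c (v, j)

theorem pvu_sqrt_mul_sqrt (hJ : 0 < Fintype.card J) :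
    (Real.sqrt (Fintype.card J) : ℂ) * (Real.sqrt (Fintype.card J) : ℂ) = (Fintype.card J : ℂ) := by
  rw [← Complex.ofReal_mul, Real.mul_self_sqrt (by positivity)]
  simp

theorem pvu_cov (R : J → Matrix n n ℂ) (hJ : 0 < Fintype.card J) :
    ∑ v : n, ∑ j : J, ((1 / (Fintype.card J : ℝ) : ℝ) : ℂ) •
        vecMulVec (pvuVec R v j) (star (pvuVec R v j)) =
      blockDiagonal R * (blockDiagonal R)ᴴ := by
  have hk : (Fintype.card J : ℂ) ≠ 0 := by exact_mod_cast hJ.ne'
  ext c c'
  simp only [Matrix.sum_apply, Matrix.smul_apply, vecMulVec_apply, Matrix.mul_apply,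
    conjTranspose_apply, Fintype.sum_prod_type, smul_eq_mul, Pi.star_apply, pvuVec, star_mul']
  refine Finset.sum_congr rfl fun v _ => Finset.sum_congr rfl fun j _ => ?_
  have h1 : star (Real.sqrt (Fintype.card J) : ℂ) = (Real.sqrt (Fintype.card J) : ℂ) := by
    simp
  rw [h1]
  have h2 := pvu_sqrt_mul_sqrt (J := J) hJ
  push_cast
  calc 1 / (Fintype.card J : ℂ) * ((Real.sqrt (Fintype.card J) : ℂ) * blockDiagonal R c (v, j) *
        ((Real.sqrt (Fintype.card J) : ℂ) * star (blockDiagonal R c' (v, j))))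
      = 1 / (Fintype.card J : ℂ) * ((Real.sqrt (Fintype.card J) : ℂ) * (Real.sqrt (Fintype.card J) : ℂ)) *
        (blockDiagonal R c (v, j) * star (blockDiagonal R c' (v, j))) := by ring
    _ = _ := by
        rw [h2]
        field_simp

theorem pvu_norm (R : J → Matrix n n ℂ) (hR : ∀ j, (R j).IsHermitian) (v : n) (j : J) :
    ∑ c, ‖pvuVec R v j c‖ ^ 2 = (Fintype.card J : ℝ) * ((R j * R j) v v).re := by
  have h1 : ∀ c, ‖pvuVec R v j c‖ ^ 2 = (Fintype.card J : ℝ) * ‖blockDiagonal R c (v, j)‖ ^ 2 := by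
    intro c
    rw [pvuVec, norm_mul, mul_pow, Complex.norm_real, Real.norm_eq_abs, sq_abs,
      Real.sq_sqrt (by positivity)]
  simp only [h1]
  rw [← Finset.mul_sum, Fintype.sum_prod_type]
  congr 1
  rw [Matrix.mul_apply, Complex.re_sum]
  refine Finset.sum_congr rfl fun a _ => ?_
  rw [Finset.sum_eq_single j]
  · rw [blockDiagonal_apply_eq]
    have h2 : R j v a = star (R j a v) := by
      rw [← (hR j).apply v a]
    rw [h2, Complex.star_def, ← Complex.normSq_eq_conj_mul_self, Complex.ofReal_re,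
      Complex.normSq_eq_norm_sq]
  · intro j' _ hj'
    rw [blockDiagonal_apply_ne _ _ _ hj']
    simp
  · intro h
    exact (h (Finset.mem_univ j)).elim

/-- the matrix whose columns are the chosen vectors. -/
def pvuW (R : J → Matrix n n ℂ) (ω : n → J) : Matrix (n × J) n ℂ :=
  (Real.sqrt (Fintype.card J) : ℂ) • (blockDiagonal R).submatrix id (fun v => (v, ω v))

theorem pvu_sum_vec (R : J → Matrix n n ℂ) (ω : n → J) :
    ∑ v : n, vecMulVec (pvuVec R v (ω v)) (star (pvuVec R v (ω v))) = pvuW R ω * (pvuW R ω)ᴴ := by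
  ext c c'
  simp only [Matrix.sum_apply, vecMulVec_apply, Matrix.mul_apply, conjTranspose_apply, pvuW,
    Matrix.smul_apply, submatrix_apply, id, smul_eq_mul, Pi.star_apply, pvuVec]

theorem pvu_gram (A R : J → Matrix n n ℂ) (hJ : 0 < Fintype.card J) (hR : ∀ j, (R j).IsHermitian)
    (hRR : ∀ j, R j * R j = (1 / 2 : ℂ) • (1 + A j)) (ω : n → J) :
    (pvuW R ω)ᴴ * pvuW R ω = ((Fintype.card J : ℂ) / 2) • (1 + pvuOut A ω) := by
  have h1 : (pvuW R ω)ᴴ = (Real.sqrt (Fintype.card J) : ℂ) •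
      ((blockDiagonal R)ᴴ).submatrix (fun v => (v, ω v)) id := by
    rw [pvuW, conjTranspose_smul, conjTranspose_submatrix]
    simp
  have h2 : (blockDiagonal R)ᴴ * blockDiagonal R =
      blockDiagonal fun j => (1 / 2 : ℂ) • (1 + A j) := by
    rw [blockDiagonal_conjTranspose, ← blockDiagonal_mul]
    congr 1
    funext j
    rw [(hR j).eq, hRR j]
  rw [h1, pvuW, Matrix.smul_mul, Matrix.mul_smul, smul_smul, pvu_sqrt_mul_sqrt hJ,
    ← Matrix.submatrix_mul _ _ _ id _ Function.bijective_id, h2]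
  ext u v
  simp only [Matrix.smul_apply, submatrix_apply, blockDiagonal_apply, Matrix.add_apply, pvuOut,
    Matrix.of_apply, smul_eq_mul]
  by_cases h : ω u = ω v
  · simp only [h, if_true]
    ring
  · have huv : u ≠ v := fun e => h (by rw [e])
    simp only [h, if_false, Matrix.one_apply_ne huv]
    ring

/-- the matrix form of the upper bound. -/
theorem pvu_mixed_pos (A : J → Matrix n n ℂ) (hJ : 0 < Fintype.card J)
    (hp : ∀ j, (1 + A j).PosSemidef) (hm : ∀ j, (1 - A j).PosSemidef) (hz : ∀ j v, A j v v = 0)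
    {y : ℝ} (hy : 2 * Real.sqrt 2 / Real.sqrt (Fintype.card J) + 2 / (Fintype.card J : ℝ) ≤ y) :
    ∃ r : ℝ, 0 < r ∧ (r : ℂ) = ∑ ω : n → J, ((∏ _v : n, (1 / (Fintype.card J : ℝ)) : ℝ) : ℂ) *
      ((y : ℂ) • (1 : Matrix n n ℂ) - pvuOut A ω).det := by
  have hk : (0 : ℝ) < Fintype.card J := by exact_mod_cast hJ
  have hkc : (Fintype.card J : ℂ) ≠ 0 := by exact_mod_cast hJ.ne'
  have hhalf : (0 : ℂ) ≤ 1 / 2 := by
    simp
  choose R hR hRR using fun j => pvu_exists_herm_sqrt ((1 / 2 : ℂ) • (1 + A j)) ((hp j).smul hhalf)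
  choose Q hQ hQQ using fun j => pvu_exists_herm_sqrt ((1 / 2 : ℂ) • (1 - A j)) ((hm j).smul hhalf)
  -- the hypotheses of the theorem of Marcus, Spielman and Srivastava
  have hsum : ((1 : Matrix (n × J) (n × J) ℂ) - ∑ v : n, ∑ j : J,
      ((1 / (Fintype.card J : ℝ) : ℝ) : ℂ) •
        vecMulVec (pvuVec R v j) (star (pvuVec R v j))).PosSemidef := by
    rw [pvu_cov R hJ]
    have h1 : (1 : Matrix (n × J) (n × J) ℂ) - blockDiagonal R * (blockDiagonal R)ᴴ =
        (blockDiagonal Q)ᴴ * blockDiagonal Q := by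
      rw [blockDiagonal_conjTranspose, blockDiagonal_conjTranspose, ← blockDiagonal_mul,
        ← blockDiagonal_mul, ← blockDiagonal_one, ← blockDiagonal_sub]
      congr 1
      funext j
      rw [Pi.sub_apply, (hR j).eq, (hQ j).eq, hRR j, hQQ j, Pi.one_apply]
      ext a b
      simp only [Matrix.sub_apply, Matrix.smul_apply, Matrix.add_apply, smul_eq_mul]
      ring
    rw [h1]
    exact posSemidef_conjTranspose_mul_self _
  have htr : ∀ v : n, ∑ j : J, (1 / (Fintype.card J : ℝ)) * ∑ c, ‖pvuVec R v j c‖ ^ 2 ≤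
      (Fintype.card J : ℝ) / 2 := by
    intro v
    have h1 : ∀ j : J, (1 / (Fintype.card J : ℝ)) * ∑ c, ‖pvuVec R v j c‖ ^ 2 = 1 / 2 := by
      intro j
      rw [pvu_norm R hR, hRR j]
      simp only [Matrix.smul_apply, Matrix.add_apply, Matrix.one_apply_eq, hz, add_zero, smul_eq_mul,
        mul_one]
      have : ((1 / 2 : ℂ)).re = 1 / 2 := by norm_num
      rw [this]
      field_simp
    rw [Finset.sum_congr rfl fun j _ => h1 j, Finset.sum_const, Finset.card_univ, nsmul_eq_mul]
    linarith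
  set x : ℝ := (Fintype.card J : ℝ) / 2 * (y + 1) with hx
  have hs2 : Real.sqrt ((Fintype.card J : ℝ) / 2) * Real.sqrt 2 = Real.sqrt (Fintype.card J) := by
    rw [← Real.sqrt_mul (by positivity)]
    congr 1
    field_simp
  have hxge : (1 + Real.sqrt ((Fintype.card J : ℝ) / 2)) ^ 2 ≤ x := by
    have hsk : 0 < Real.sqrt (Fintype.card J) := Real.sqrt_pos.mpr hk
    have h22 : Real.sqrt 2 * Real.sqrt 2 = 2 := Real.mul_self_sqrt (by norm_num)
    have hkk : Real.sqrt (Fintype.card J) * Real.sqrt (Fintype.card J) = Fintype.card J :=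
      Real.mul_self_sqrt hk.le
    have hhh : Real.sqrt ((Fintype.card J : ℝ) / 2) * Real.sqrt ((Fintype.card J : ℝ) / 2) =
        (Fintype.card J : ℝ) / 2 := Real.mul_self_sqrt (by positivity)
    have h3 : (Fintype.card J : ℝ) / 2 * (2 * Real.sqrt 2 / Real.sqrt (Fintype.card J) +
        2 / (Fintype.card J : ℝ) + 1) ≤ x := by
      rw [hx]
      apply mul_le_mul_of_nonneg_left _ (by positivity)
      linarith
    have h4 : (Fintype.card J : ℝ) / 2 * (2 * Real.sqrt 2 / Real.sqrt (Fintype.card J) +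
        2 / (Fintype.card J : ℝ) + 1) = (1 + Real.sqrt ((Fintype.card J : ℝ) / 2)) ^ 2 := by
      have h5 : (Fintype.card J : ℝ) / Real.sqrt (Fintype.card J) = Real.sqrt (Fintype.card J) := by
        rw [div_eq_iff hsk.ne', hkk]
      have h6 : (Fintype.card J : ℝ) / 2 * (2 * Real.sqrt 2 / Real.sqrt (Fintype.card J)) =
          Real.sqrt 2 * Real.sqrt (Fintype.card J) := by
        calc (Fintype.card J : ℝ) / 2 * (2 * Real.sqrt 2 / Real.sqrt (Fintype.card J))
            = Real.sqrt 2 * ((Fintype.card J : ℝ) / Real.sqrt (Fintype.card J)) := by ring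
          _ = _ := by rw [h5]
      have h7 : (Fintype.card J : ℝ) / 2 * (2 / (Fintype.card J : ℝ)) = 1 := by field_simp
      have h8 : Real.sqrt 2 * Real.sqrt (Fintype.card J) = 2 * Real.sqrt ((Fintype.card J : ℝ) / 2) := by
        rw [← hs2]
        calc Real.sqrt 2 * (Real.sqrt ((Fintype.card J : ℝ) / 2) * Real.sqrt 2)
            = (Real.sqrt 2 * Real.sqrt 2) * Real.sqrt ((Fintype.card J : ℝ) / 2) := by ring
          _ = _ := by rw [h22]
      calc (Fintype.card J : ℝ) / 2 * (2 * Real.sqrt 2 / Real.sqrt (Fintype.card J) +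
            2 / (Fintype.card J : ℝ) + 1)
          = (Fintype.card J : ℝ) / 2 * (2 * Real.sqrt 2 / Real.sqrt (Fintype.card J)) +
            (Fintype.card J : ℝ) / 2 * (2 / (Fintype.card J : ℝ)) + (Fintype.card J : ℝ) / 2 := by ring
        _ = 2 * Real.sqrt ((Fintype.card J : ℝ) / 2) + 1 + (Fintype.card J : ℝ) / 2 := by
            rw [h6, h7, h8]
        _ = _ := by
            have h9 : (1 + Real.sqrt ((Fintype.card J : ℝ) / 2)) ^ 2 =
                1 + 2 * Real.sqrt ((Fintype.card J : ℝ) / 2) +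
                  Real.sqrt ((Fintype.card J : ℝ) / 2) * Real.sqrt ((Fintype.card J : ℝ) / 2) := by
              ring
            rw [h9, hhh]
            ring
    linarith
  have hxpos : 0 < x := lt_of_lt_of_le (by positivity) hxge
  obtain ⟨r', hr', hrr'⟩ := mss_expected_det_pos_of_le (fun (_ : n) (_ : J) => 1 / (Fintype.card J : ℝ))
    (fun _ _ => by positivity) (fun _ => by
      rw [Finset.sum_const, Finset.card_univ, nsmul_eq_mul]
      field_simp) (pvuVec R) hsum (by positivity : (0 : ℝ) < (Fintype.card J : ℝ) / 2) htr hxge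
  -- translation
  have hdet : ∀ ω : n → J, (x : ℂ) ^ Fintype.card n *
      ((x : ℂ) • (1 : Matrix (n × J) (n × J) ℂ) -
        ∑ v : n, vecMulVec (pvuVec R v (ω v)) (star (pvuVec R v (ω v)))).det =
      (x : ℂ) ^ Fintype.card (n × J) * (((Fintype.card J : ℂ) / 2) ^ Fintype.card n *
        ((y : ℂ) • (1 : Matrix n n ℂ) - pvuOut A ω).det) := by
    intro ω
    rw [pvu_sum_vec, pvu_det_mul_comm, pvu_gram A R hJ hR hRR ω]
    congr 1
    rw [← Matrix.det_smul]
    congr 1
    rw [hx]
    ext a b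
    simp only [Matrix.sub_apply, Matrix.smul_apply, Matrix.add_apply, smul_eq_mul]
    push_cast
    ring
  refine ⟨x ^ Fintype.card n * r' / (x ^ Fintype.card (n × J) *
    ((Fintype.card J : ℝ) / 2) ^ Fintype.card n), by positivity, ?_⟩
  have hxc : (x : ℂ) ≠ 0 := by exact_mod_cast hxpos.ne'
  have hden : (x : ℂ) ^ Fintype.card (n × J) * ((Fintype.card J : ℂ) / 2) ^ Fintype.card n ≠ 0 :=
    mul_ne_zero (pow_ne_zero _ hxc) (pow_ne_zero _ (div_ne_zero hkc two_ne_zero))
  push_cast
  rw [div_eq_iff hden]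
  push_cast at hrr'
  rw [hrr', Finset.mul_sum, Finset.sum_mul]
  refine Finset.sum_congr rfl fun ω _ => ?_
  have := hdet ω
  calc (x : ℂ) ^ Fintype.card n * ((∏ _v : n, (1 / (Fintype.card J : ℂ))) *
        ((x : ℂ) • (1 : Matrix (n × J) (n × J) ℂ) -
          ∑ v : n, vecMulVec (pvuVec R v (ω v)) (star (pvuVec R v (ω v)))).det)
      = (∏ _v : n, (1 / (Fintype.card J : ℂ))) * ((x : ℂ) ^ Fintype.card n *
        ((x : ℂ) • (1 : Matrix (n × J) (n × J) ℂ) -
          ∑ v : n, vecMulVec (pvuVec R v (ω v)) (star (pvuVec R v (ω v)))).det) := by ring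
    _ = _ := by
        rw [this]
        ring

end matrix

/-- a Hermitian matrix whose quadratic form is bounded by the square of the norm: `1 ± A ≥ 0`. -/
theorem pvu_one_add_posSemidef {n : Type*} [Fintype n] [DecidableEq n] (A : Matrix n n ℂ)
    (hA : A.IsHermitian) (hc : ∀ x : n → ℂ, ‖star x ⬝ᵥ (A *ᵥ x)‖ ≤ ∑ u, ‖x u‖ ^ 2) :
    (1 + A).PosSemidef ∧ (1 - A).PosSemidef := by
  have hxx : ∀ x : n → ℂ, star x ⬝ᵥ x = ((∑ u, ‖x u‖ ^ 2 : ℝ) : ℂ) := by
    intro x
    rw [dotProduct]
    push_cast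
    refine Finset.sum_congr rfl fun u _ => ?_
    rw [Pi.star_apply, Complex.star_def, Complex.conj_mul']
  have him : ∀ x : n → ℂ, (star x ⬝ᵥ (A *ᵥ x)).im = 0 := fun x => hA.im_star_dotProduct_mulVec_self x
  have hre : ∀ x : n → ℂ, |(star x ⬝ᵥ (A *ᵥ x)).re| ≤ ∑ u, ‖x u‖ ^ 2 := fun x =>
    (Complex.abs_re_le_norm _).trans (hc x)
  constructor
  · refine PosSemidef.of_dotProduct_mulVec_nonneg (isHermitian_one.add hA) fun x => ?_
    rw [Matrix.add_mulVec, Matrix.one_mulVec, dotProduct_add, hxx, Complex.le_def]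
    constructor
    · simp only [Complex.zero_re, Complex.add_re, Complex.ofReal_re]
      have := abs_le.mp (hre x)
      linarith [this.1]
    · rw [Complex.add_im, Complex.ofReal_im, him x]
      simp
  · refine PosSemidef.of_dotProduct_mulVec_nonneg (isHermitian_one.sub hA) fun x => ?_
    rw [Matrix.sub_mulVec, Matrix.one_mulVec, dotProduct_sub, hxx, Complex.le_def]
    constructor
    · simp only [Complex.zero_re, Complex.sub_re, Complex.ofReal_re]
      have := abs_le.mp (hre x)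
      linarith [this.2]
    · rw [Complex.sub_im, Complex.ofReal_im, him x]
      simp

variable {V : Type*} [DecidableEq V] {J : Type*} [Fintype J] [DecidableEq J]

/-- LEMMA 4.1, upper bound (from MSS15). `k = card J ≥ 2`, zero diagonal Hermitian contractions. -/
theorem mixed_upper {B : J → V → V → ℂ} {S : Finset V} (hJ : 2 ≤ Fintype.card J)
    (hB : PvHerm B) (hz : ∀ j v, B j v v = 0)
    (hc : ∀ (j : J) (x : V → ℂ),
      ‖∑ u ∈ S, ∑ v ∈ S, conj (x u) * B j u v * x v‖ ≤ ∑ u ∈ S, ‖x u‖ ^ 2) :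
    ∀ y ∈ (pvPoly (fun _ _ => 1 / (Fintype.card J : ℝ)) B S).roots,
      y.re ≤ 2 * Real.sqrt 2 / Real.sqrt (Fintype.card J) + 2 / (Fintype.card J : ℝ) := by
  intro y hy
  by_contra hlt
  have hJ0 : 0 < Fintype.card J := by omega
  have hk : (0 : ℝ) < Fintype.card J := by exact_mod_cast hJ0
  have hprob : PvProb (fun (_ : V) (_ : J) => 1 / (Fintype.card J : ℝ)) S := by
    intro v _
    refine ⟨fun _ => by positivity, ?_⟩
    rw [Finset.sum_const, Finset.card_univ, nsmul_eq_mul]
    field_simp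
  have him := pvPoly_roots_real hprob hB y hy
  have hroot : (pvPoly (fun _ _ => 1 / (Fintype.card J : ℝ)) B S).eval y = 0 :=
    (Polynomial.mem_roots'.mp hy).2
  have hyre : y = (y.re : ℂ) := Complex.ext rfl (by simp [him])
  let A : J → Matrix S S ℂ := fun j => Matrix.of fun u v => B j u v
  have hAh : ∀ j, (A j).IsHermitian := by
    intro j
    ext u v
    simp only [A, conjTranspose_apply, Matrix.of_apply]
    rw [hB j u v]
    rfl
  have hAc : ∀ j (x : S → ℂ), ‖star x ⬝ᵥ (A j *ᵥ x)‖ ≤ ∑ u, ‖x u‖ ^ 2 := by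
    intro j x
    let X : V → ℂ := fun v => if hv : v ∈ S then x ⟨v, hv⟩ else 0
    have hX : ∀ a : S, X a = x a := by
      intro a
      simp [X, a.2]
    have h1 := hc j X
    have e1 : ∑ u ∈ S, ∑ v ∈ S, conj (X u) * B j u v * X v = star x ⬝ᵥ (A j *ᵥ x) := by
      rw [← Finset.sum_coe_sort S (fun u => ∑ v ∈ S, conj (X u) * B j u v * X v), dotProduct]
      refine Finset.sum_congr rfl fun a _ => ?_
      rw [← Finset.sum_coe_sort S (fun v => conj (X a) * B j a v * X v), Matrix.mulVec, dotProduct,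
        Finset.mul_sum]
      refine Finset.sum_congr rfl fun b _ => ?_
      rw [hX, hX]
      simp only [A, Matrix.of_apply, Pi.star_apply, Complex.star_def]
      ring
    have e2 : ∑ u ∈ S, ‖X u‖ ^ 2 = ∑ u, ‖x u‖ ^ 2 := by
      rw [← Finset.sum_coe_sort S (fun u => ‖X u‖ ^ 2)]
      exact Finset.sum_congr rfl fun a _ => by rw [hX]
    rw [e1, e2] at h1
    exact h1
  obtain ⟨r, hr, hrr⟩ := pvu_mixed_pos A hJ0
    (fun j => (pvu_one_add_posSemidef (A j) (hAh j) (hAc j)).1)
    (fun j => (pvu_one_add_posSemidef (A j) (hAh j) (hAc j)).2)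
    (fun j v => hz j v) (not_le.mp hlt).le
  rw [pvPoly_eval, hyre] at hroot
  have hEq : pvMix (fun _ _ => 1 / (Fintype.card J : ℝ)) B S (fun _ => (y.re : ℂ)) = (r : ℂ) := by
    rw [hrr]
    unfold pvMix pvWt
    refine Finset.sum_congr rfl fun ω _ => ?_
    congr 1
    · push_cast
      rfl
    · congr 1
      rw [Matrix.smul_one_eq_diagonal]
      rfl
  rw [hEq] at hroot
  exact hr.ne' (by exact_mod_cast hroot)

end

end Claimed.Agent.R302
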