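/-
R302 / Poly / Bounds  (package Poly-Bounds-rest; proofs: helper261, general tools in BoundsA.lean)
Paper Q: Lemma 4.1 (mixed determinantal bounds), Lemma 4.3 (initial cost and detection of excessive norm),
root support and weight bounds of Lemma 4.5.

`mixed_upper` is the only place where MSS15 (Thm 4.1 + Thm 5.1) enters.
Derivation (RS17 is NOT needed): dilate A_j to a reflection on 2n sites, P_j = (1 + A'_j)/2 = Gram matrix of a Parseval frame
u^(j)_i in C^n; v_i = sqrt k e_j (x) u^(j)_i with probability 1/k; sum E v v^* = I, |v_i|^2 = k/2;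
MSS: maxroot <= (1 + sqrt(k/2))^2, i.e. z = 2x/k - 1 <= 2 sqrt 2/sqrt k + 2/k; delete the n added sites by `maxroot_erase`.
`mixed_lower`: decouple the sites of the member -L one after the other (arrow quotient), chi[L,0] = det(z - L/2).
-/
import Claimed.Agent.R302.Poly.Costs
import Claimed.Agent.R302.Poly.Upper
import Claimed.Agent.R302.Poly.BoundsA

set_option autoImplicit false
set_option linter.unusedSectionVars false
set_option linter.unusedSimpArgs false

namespace Claimed.Agent.R302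

open Finset Polynomial
open scoped BigOperators ComplexConjugate

noncomputable section

section General

variable {V : Type*} [DecidableEq V] {J : Type*} [Fintype J] [DecidableEq J]

/-- LEMMA 4.1, lower bound: `λ_max χ[L,-L] ≥ ‖L‖ / 2`. -/
theorem mixed_lower {L : V → V → ℂ} {S : Finset V} (hS : S.Nonempty)
    (hL : ∀ u v, L u v = conj (L v u)) (hz : ∀ v, L v v = 0) (x : V → ℂ) :
    ∃ y ∈ (pvPoly (fun _ (_ : Bool) => (1 / 2 : ℝ)) (fun σ u v => if σ then L u v else -L u v) S).roots,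
      ‖∑ u ∈ S, ∑ v ∈ S, conj (x u) * L u v * x v‖ ≤ 2 * y.re * ∑ u ∈ S, ‖x u‖ ^ 2 :=
  pvb_mixed_lower hS hL hz x

/-- no real zero above a form bound (rotation of the half plane statement) -/
theorem pvb_ne_zero_of_gt {p : V → J → ℝ} {B : J → V → V → ℂ} {S : Finset V} (hp : PvProb p S)
    {b : ℝ} (hB : ∀ (j : J) (x : V → ℂ),
      (∑ u ∈ S, ∑ v ∈ S, conj (x u) * B j u v * x v).re ≤ b * ∑ u ∈ S, ‖x u‖ ^ 2)
    {x : ℝ} (hx : b < x) : pvMix p B S (fun _ => (x : ℂ)) ≠ 0 := by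
  have hIm : PvImLe (fun j u v => (fun _ : V => Complex.I) u * B j u v * (fun _ : V => (1 : ℂ)) v) S b := by
    intro j y
    have : ∑ u ∈ S, ∑ v ∈ S, conj (y u) * (Complex.I * B j u v * 1) * y v =
        Complex.I * ∑ u ∈ S, ∑ v ∈ S, conj (y u) * B j u v * y v := by
      rw [Finset.mul_sum]
      refine Finset.sum_congr rfl fun u _ => ?_
      rw [Finset.mul_sum]
      exact Finset.sum_congr rfl fun v _ => by ring
    simp only [this, Complex.I_mul_im]
    exact hB j y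
  have h := pvMix_ne_zero (z := fun v => (fun _ : V => Complex.I) v * (fun _ : V => (x : ℂ)) v *
    (fun _ : V => (1 : ℂ)) v) hp hIm (by intro v _; simpa using hx)
  rw [pvMix_scale] at h
  exact right_ne_zero_of_mul h

/-- no real zero below a form bound -/
theorem pvb_ne_zero_of_lt {p : V → J → ℝ} {B : J → V → V → ℂ} {S : Finset V} (hp : PvProb p S)
    {b : ℝ} (hB : ∀ (j : J) (x : V → ℂ),
      -(b * ∑ u ∈ S, ‖x u‖ ^ 2) ≤ (∑ u ∈ S, ∑ v ∈ S, conj (x u) * B j u v * x v).re)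
    {x : ℝ} (hx : x < -b) : pvMix p B S (fun _ => (x : ℂ)) ≠ 0 := by
  have hIm : PvImLe (fun j u v => (fun _ : V => -Complex.I) u * B j u v * (fun _ : V => (1 : ℂ)) v) S b := by
    intro j y
    have : ∑ u ∈ S, ∑ v ∈ S, conj (y u) * (-Complex.I * B j u v * 1) * y v =
        -(Complex.I * ∑ u ∈ S, ∑ v ∈ S, conj (y u) * B j u v * y v) := by
      rw [Finset.mul_sum, ← Finset.sum_neg_distrib]
      refine Finset.sum_congr rfl fun u _ => ?_
      rw [Finset.mul_sum, ← Finset.sum_neg_distrib]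
      exact Finset.sum_congr rfl fun v _ => by ring
    simp only [this, Complex.neg_im, Complex.I_mul_im]
    have := hB j y
    linarith
  have h := pvMix_ne_zero (z := fun v => (fun _ : V => -Complex.I) v * (fun _ : V => (x : ℂ)) v *
    (fun _ : V => (1 : ℂ)) v) hp hIm (by intro v _; simp; linarith)
  rw [pvMix_scale] at h
  exact right_ne_zero_of_mul h

end General

namespace PvData

variable {V : Type*} [DecidableEq V] {r : ℕ}

/-- unweighted, unshifted kernels -/
def un (D : PvData V r) (j : PvOpt r) (u v : V) : ℂ := sgn j * D.T u v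

theorem sgn_conj (j : PvOpt r) : conj (sgn j) = sgn j := by
  unfold sgn; split_ifs <;> simp

theorem sgn_norm (j : PvOpt r) : ‖sgn j‖ = 1 := by
  unfold sgn; split_ifs <;> simp

theorem un_herm {D : PvData V r} (hD : D.Good) : PvHerm D.un := by
  intro j u v
  unfold un
  rw [map_mul, sgn_conj, ← hD.herm u v]

theorem un_diag {D : PvData V r} (hD : D.Good) (j : PvOpt r) (v : V) : D.un j v v = 0 := by
  unfold un; rw [hD.zdiag]; simp

theorem un_contr {D : PvData V r} (hD : D.Good) (S : Finset V) (j : PvOpt r) (x : V → ℂ) :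
    ‖∑ u ∈ S, ∑ v ∈ S, conj (x u) * D.un j u v * x v‖ ≤ ∑ u ∈ S, ‖x u‖ ^ 2 := by
  have : ∑ u ∈ S, ∑ v ∈ S, conj (x u) * D.un j u v * x v =
      sgn j * ∑ u ∈ S, ∑ v ∈ S, conj (x u) * D.T u v * x v := by
    rw [Finset.mul_sum]
    refine Finset.sum_congr rfl fun u _ => ?_
    rw [Finset.mul_sum]
    exact Finset.sum_congr rfl fun v _ => by unfold un; ring
  rw [this, norm_mul, sgn_norm, one_mul]
  exact hD.contr S x

/-- (4.10): removal of the weights and of the shifts -/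
theorem poly_eval_unweight (D : PvData V r) (hW : ∀ v, 0 < D.W v) (S : Finset V) (x : ℝ) :
    (D.poly S).eval (x : ℂ) = ((∏ v ∈ S, D.W v : ℝ) : ℂ) *
      pvMix D.law D.un S (fun v => ((D.τ v + x / D.W v : ℝ) : ℂ)) := by
  rw [poly_eval]
  unfold P
  have hk : D.ker = fun j u v =>
      (fun j u v => (fun v => (Real.sqrt (D.W v) : ℂ)) u * D.un j u v *
        (fun v => (Real.sqrt (D.W v) : ℂ)) v) j u v -
        if u = v then (fun v => (D.a v : ℂ)) v else 0 := by
    funext j u v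
    unfold ker un
    ring
  rw [hk, pvb_shift]
  have hs : ∀ v, (Real.sqrt (D.W v) : ℂ) * (Real.sqrt (D.W v) : ℂ) = (D.W v : ℂ) := by
    intro v
    rw [← Complex.ofReal_mul, Real.mul_self_sqrt (hW v).le]
  have hz : (fun v => (x : ℂ) + (D.a v : ℂ)) = fun v => (fun v => (Real.sqrt (D.W v) : ℂ)) v *
      (fun v => ((D.τ v + x / D.W v : ℝ) : ℂ)) v * (fun v => (Real.sqrt (D.W v) : ℂ)) v := by
    funext v
    have h0 : (D.W v : ℂ) ≠ 0 := by exact_mod_cast (hW v).ne'
    have : (Real.sqrt (D.W v) : ℂ) * ((D.τ v + x / D.W v : ℝ) : ℂ) * (Real.sqrt (D.W v) : ℂ) =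
        ((D.τ v + x / D.W v : ℝ) : ℂ) * ((Real.sqrt (D.W v) : ℂ) * (Real.sqrt (D.W v) : ℂ)) := by
      ring
    simp only [this, hs]
    unfold a
    push_cast
    field_simp
    ring
  rw [hz, pvMix_scale]
  congr 1
  push_cast
  exact Finset.prod_congr rfl fun v _ => hs v

theorem card_opt (r : ℕ) : (Fintype.card (PvOpt r) : ℝ) = 2 * r := by
  simp [Fintype.card_prod]
  ring

theorem upper_num {r : ℕ} (hr : 0 < r) :
    2 * Real.sqrt 2 / Real.sqrt (2 * r) + 2 / (2 * r : ℝ) ≤ 3 / Real.sqrt r := by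
  have hr1 : (1 : ℝ) ≤ r := by exact_mod_cast hr
  have hs : 0 < Real.sqrt r := Real.sqrt_pos.mpr (by linarith)
  have h2 : 0 < Real.sqrt 2 := Real.sqrt_pos.mpr (by norm_num)
  have e1 : 2 * Real.sqrt 2 / Real.sqrt (2 * r) = 2 / Real.sqrt r := by
    rw [Real.sqrt_mul (by norm_num : (0 : ℝ) ≤ 2)]
    field_simp
  have e2 : 2 / (2 * r : ℝ) ≤ 1 / Real.sqrt r := by
    have : 2 / (2 * r : ℝ) = 1 / r := by field_simp
    rw [this]
    exact one_div_le_one_div_of_le hs (Real.sqrt_le_self_iff.mpr (Or.inr hr1))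
  rw [e1]
  have : 3 / Real.sqrt r = 2 / Real.sqrt r + 1 / Real.sqrt r := by ring
  linarith

/-- all unweighted principal evaluations are positive above `3 / √r` (all sites unassigned) -/
theorem un_pos {D : PvData V r} (hD : D.Good) (hr : 0 < r) {S : Finset V} {t : ℝ}
    (ht : 3 / Real.sqrt r < t) (hc : ∀ v ∈ S, D.c v = none) :
    0 < (pvMix D.law D.un S (fun _ => (t : ℂ))).re := by
  have e : pvMix D.law D.un S (fun _ => (t : ℂ)) =
      (pvPoly (fun _ _ => 1 / (Fintype.card (PvOpt r) : ℝ)) D.un S).eval (t : ℂ) := by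
    rw [pvPoly_eval]
    refine pvMix_congr (fun v hv => ?_) (fun _ _ _ _ _ => rfl) fun _ _ => rfl
    funext j
    rw [card_opt]
    simp [law, hc v hv]
  rw [e]
  have hprob : PvProb (fun (_ : V) (_ : PvOpt r) => 1 / (Fintype.card (PvOpt r) : ℝ)) S := by
    intro v _
    have hr0 : (0 : ℝ) < r := by exact_mod_cast hr
    refine ⟨fun j => by rw [card_opt]; positivity, ?_⟩
    rw [Finset.sum_const, Finset.card_univ, nsmul_eq_mul, card_opt]
    field_simp
  refine pvPoly_pos_of_gt hprob (un_herm hD) fun y hy => ?_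
  have hJ : 2 ≤ Fintype.card (PvOpt r) := by
    simp [Fintype.card_prod]
    omega
  have h := mixed_upper hJ (un_herm hD) (un_diag hD) (un_contr hD S) y hy
  rw [card_opt] at h
  exact (h.trans (upper_num hr)).trans_lt ht

/-- LEMMA 4.3 (1): zero initial cost. -/
theorem initial_pos {D : PvData V r} (hD : D.Good) (hr : 0 < r) {S : Finset V} {t : ℝ}
    (ht : 3 / Real.sqrt r < t) (hc : ∀ v ∈ S, D.c v = none) (hτ : ∀ v ∈ S, D.τ v = t) {x : ℝ}
    (hx : 0 ≤ x) : 0 < ((D.poly S).eval (x : ℂ)).re := by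
  rw [poly_eval_unweight D hD.Wpos, Complex.re_ofReal_mul]
  refine mul_pos (Finset.prod_pos fun v _ => hD.Wpos v) ?_
  refine pvb_pos_mono (fun v hv => (D.law_prob hr S v hv).2) (fun _ => t) _ ?_ ?_
  · intro v hv
    rw [hτ v hv]
    have := div_nonneg hx (hD.Wpos v).le
    linarith
  · intro S' hS'
    exact un_pos hD hr ht fun v hv => hc v (hS' hv)

theorem initial_cost {D : PvData V r} (hD : D.Good) (hr : 0 < r) {S : Finset V} {t : ℝ}
    (ht : 3 / Real.sqrt r < t) (hc : ∀ v ∈ S, D.c v = none) (hτ : ∀ v ∈ S, D.τ v = t) :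
    pvSPos (D.poly S) = 0 := by
  unfold pvSPos
  refine Multiset.sum_eq_zero fun y hy => ?_
  obtain ⟨μ, hμ, rfl⟩ := Multiset.mem_map.mp hy
  apply max_eq_right
  by_contra hcon
  rw [not_le] at hcon
  have him := poly_roots_real hD hr S μ hμ
  have hμ' : μ = (μ.re : ℂ) := Complex.ext (by simp) (by simpa using him)
  have h1 := initial_pos hD hr ht hc hτ hcon.le
  rw [← hμ', (Polynomial.mem_roots'.mp hμ).2] at h1
  simp at h1

theorem Tc_herm {D : PvData V r} (hD : D.Good) (u v : V) : D.Tc u v = conj (D.Tc v u) := by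
  unfold Tc
  by_cases h : D.c u = D.c v
  · simp only [h, if_true]
    exact hD.herm u v
  · have h' : ¬ D.c v = D.c u := fun e => h e.symm
    simp [h, h']

theorem Tc_diag {D : PvData V r} (hD : D.Good) (v : V) : D.Tc v v = 0 := by
  unfold Tc
  simp [hD.zdiag]

/-- fully assigned sites: the unweighted polynomial is `χ[T_c, -T_c]` -/
theorem un_assigned (D : PvData V r) {S : Finset V} (hc : ∀ v ∈ S, D.c v ≠ none) (z : V → ℂ) :
    pvMix D.law D.un S z =
      pvMix pvbCoin (fun σ u v => if σ then D.Tc u v else -D.Tc u v) S z := by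
  have hex : ∀ v : S, ∃ i, D.c v = some i := fun v => Option.ne_none_iff_exists'.mp (hc v v.2)
  choose col hcol using hex
  set emb : (S → Bool) → (S → PvOpt r) := fun ω' v => (col v, ω' v) with hemb
  have hinj : Function.Injective emb := by
    intro a b hab
    funext v
    have := congrFun hab v
    simpa [hemb] using this
  unfold pvMix
  rw [← Finset.sum_subset (Finset.subset_univ (univ.image emb)), Finset.sum_image hinj.injOn]
  · refine Finset.sum_congr rfl fun ω' _ => ?_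
    congr 1
    · unfold pvWt
      refine Finset.prod_congr rfl fun v _ => ?_
      simp [law, hcol v, hemb, pvbCoin]
    · congr 2
      ext u w
      simp only [pvOutMat, Matrix.of_apply, hemb, Prod.mk.injEq, un, sgn, Tc, hcol u, hcol w,
        Option.some.injEq]
      by_cases h1 : ω' u = ω' w <;> by_cases h2 : col u = col w <;> cases h3 : ω' u <;>
        simp [h1, h2, h3]
  · intro ω _ hω
    have : ∃ v : S, (ω v).1 ≠ col v := by
      by_contra hcon
      apply hω
      refine Finset.mem_image.mpr ⟨fun v => (ω v).2, Finset.mem_univ _, ?_⟩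
      funext v
      have : (ω v).1 = col v := by_contra fun h => hcon ⟨v, h⟩
      simp [hemb, ← this]
    obtain ⟨v, hv⟩ := this
    have : pvWt D.law S ω = 0 := by
      unfold pvWt
      refine Finset.prod_eq_zero (Finset.mem_univ v) ?_
      simp [law, hcol v, hv]
    rw [this, zero_mul]

theorem pvSPos_nonneg (P : ℂ[X]) : 0 ≤ pvSPos P := by
  unfold pvSPos
  refine Multiset.sum_nonneg fun y hy => ?_
  obtain ⟨μ, _, rfl⟩ := Multiset.mem_map.mp hy
  exact le_max_right _ _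

theorem re_le_pvSPos {P : ℂ[X]} {y : ℂ} (hy : y ∈ P.roots) : y.re ≤ pvSPos P := by
  unfold pvSPos
  refine (le_max_left y.re 0).trans ?_
  refine Multiset.single_le_sum (fun t ht => ?_) _ (Multiset.mem_map_of_mem _ hy)
  obtain ⟨μ, _, rfl⟩ := Multiset.mem_map.mp ht
  exact le_max_right _ _

/-- LEMMA 4.3 (2): excessive pinched norm forces positive cost. `τ₁ = β t`. -/
theorem bad_cost {D : PvData V r} (hD : D.Good) (hr : 0 < r) {S : Finset V} {τ₁ α w₀ : ℝ}
    (hα : 0 < α) (hc : ∀ v ∈ S, D.c v ≠ none) (hτ : ∀ v ∈ S, D.τ v = τ₁) (hw : ∀ v ∈ S, w₀ ≤ D.W v)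
    (x : V → ℂ)
    (hx : (2 * τ₁ + α) * ∑ u ∈ S, ‖x u‖ ^ 2 < ‖∑ u ∈ S, ∑ v ∈ S, conj (x u) * D.Tc u v * x v‖) :
    α / 2 * w₀ ≤ pvSPos (D.poly S) := by
  rcases le_or_gt w₀ 0 with hw0 | hw0
  · have := pvSPos_nonneg (D.poly S)
    nlinarith
  by_contra hcon
  rw [not_le] at hcon
  have hroots : ∀ y ∈ (D.poly S).roots, y.re ≤ pvSPos (D.poly S) := fun y hy => re_le_pvSPos hy
  have hS : S.Nonempty := by
    by_contra h
    rw [Finset.not_nonempty_iff_eq_empty] at h
    subst h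
    simp at hx
  obtain ⟨y, hy, hyx⟩ := pvb_mixed_lower hS (Tc_herm hD) (Tc_diag hD) x
  have hN0 : 0 ≤ ∑ u ∈ S, ‖x u‖ ^ 2 := Finset.sum_nonneg fun u _ => sq_nonneg _
  have hN : 0 < ∑ u ∈ S, ‖x u‖ ^ 2 := by
    rcases hN0.lt_or_eq with h | h
    · exact h
    · rw [← h] at hx hyx
      linarith
  have hy1 : τ₁ + α / 2 < y.re := by
    have := hx.trans_le hyx
    have h2 : (2 * τ₁ + α) < 2 * y.re := lt_of_mul_lt_mul_right this hN0
    linarith
  have hb : ∀ S' ⊆ S,
      0 < (pvMix D.law D.un S' (fun v => ((D.τ v + α / 2 * w₀ / D.W v : ℝ) : ℂ))).re := by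
    intro S' hS'
    have h1 : 0 < ((D.poly S').eval ((α / 2 * w₀ : ℝ) : ℂ)).re :=
      pvPoly_pos_of_gt (D.law_prob hr S') (ker_herm hD) fun y hy =>
        lt_of_le_of_lt (maxroot_subset (D.law_prob hr S) (ker_herm hD) hS' hroots y hy) hcon
    rw [poly_eval_unweight D hD.Wpos, Complex.re_ofReal_mul] at h1
    exact (mul_pos_iff_of_pos_left (Finset.prod_pos fun v _ => hD.Wpos v)).mp h1
  have hq := pvb_pos_mono (fun v hv => (D.law_prob hr S v hv).2)
    (fun v => D.τ v + α / 2 * w₀ / D.W v) (fun _ => y.re) (by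
      intro v hv
      rw [hτ v hv]
      have h1 : α / 2 * w₀ / D.W v ≤ α / 2 := by
        rw [div_le_iff₀ (hD.Wpos v)]
        exact mul_le_mul_of_nonneg_left (hw v hv) (by linarith)
      show τ₁ + α / 2 * w₀ / D.W v ≤ y.re
      linarith) hb
  rw [un_assigned D hc, ← pvPoly_eval] at hq
  have hherm : PvHerm (fun (σ : Bool) u v => if σ then D.Tc u v else -D.Tc u v) := by
    intro σ u v
    cases σ
    · simp only [Bool.false_eq_true, if_false, map_neg]
      rw [← Tc_herm hD u v]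
    · simpa using Tc_herm hD u v
  have him := pvPoly_roots_real (pvbCoin_prob S) hherm y hy
  have hy' : y = (y.re : ℂ) := Complex.ext (by simp) (by simpa using him)
  rw [← hy'] at hq
  have h0 : (pvPoly pvbCoin (fun σ u v => if σ then D.Tc u v else -D.Tc u v) S).eval y = 0 :=
    (Polynomial.mem_roots'.mp hy).2
  rw [h0] at hq
  simp at hq

/-- form bound of the option kernels -/
theorem ker_form_le {D : PvData V r} (hD : D.Good) {S : Finset V} {H₀ τ₁ : ℝ}
    (hW : ∀ v ∈ S, D.W v ≤ H₀) (hτ : ∀ v ∈ S, |D.τ v| ≤ τ₁) (j : PvOpt r) (x : V → ℂ) :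
    ‖∑ u ∈ S, ∑ v ∈ S, conj (x u) * D.ker j u v * x v‖ ≤ (1 + τ₁) * H₀ * ∑ u ∈ S, ‖x u‖ ^ 2 := by
  have e : ∑ u ∈ S, ∑ v ∈ S, conj (x u) * D.ker j u v * x v =
      sgn j * (∑ u ∈ S, ∑ v ∈ S, conj ((Real.sqrt (D.W u) : ℂ) * x u) * D.T u v *
        ((Real.sqrt (D.W v) : ℂ) * x v)) - ((∑ u ∈ S, D.a u * ‖x u‖ ^ 2 : ℝ) : ℂ) := by
    push_cast
    rw [Finset.mul_sum, ← Finset.sum_sub_distrib]
    refine Finset.sum_congr rfl fun u hu => ?_
    have h1 : ∀ v ∈ S, conj (x u) * D.ker j u v * x v =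
        sgn j * (conj ((Real.sqrt (D.W u) : ℂ) * x u) * D.T u v *
          ((Real.sqrt (D.W v) : ℂ) * x v)) - (if u = v then conj (x u) * (D.a v : ℂ) * x v else 0) := by
      intro v _
      unfold ker
      rw [map_mul, Complex.conj_ofReal]
      split_ifs <;> ring
    rw [Finset.sum_congr rfl h1, Finset.sum_sub_distrib, Finset.sum_ite_eq, if_pos hu,
      Finset.mul_sum]
    congr 1
    rw [← Complex.conj_mul' (x u)]
    ring
  rw [e]
  refine (norm_sub_le _ _).trans ?_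
  rw [norm_mul, sgn_norm, one_mul, Complex.norm_real, Real.norm_eq_abs]
  have h1 := hD.contr S fun u => (Real.sqrt (D.W u) : ℂ) * x u
  have h2 : ∑ u ∈ S, ‖(Real.sqrt (D.W u) : ℂ) * x u‖ ^ 2 ≤ H₀ * ∑ u ∈ S, ‖x u‖ ^ 2 := by
    rw [Finset.mul_sum]
    refine Finset.sum_le_sum fun u hu => ?_
    rw [norm_mul, mul_pow, Complex.norm_real, Real.norm_eq_abs, sq_abs,
      Real.sq_sqrt (hD.Wpos u).le]
    exact mul_le_mul_of_nonneg_right (hW u hu) (sq_nonneg _)
  have h3 : |∑ u ∈ S, D.a u * ‖x u‖ ^ 2| ≤ τ₁ * H₀ * ∑ u ∈ S, ‖x u‖ ^ 2 := by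
    refine (Finset.abs_sum_le_sum_abs _ _).trans ?_
    rw [Finset.mul_sum]
    refine Finset.sum_le_sum fun u hu => ?_
    rw [abs_mul, abs_of_nonneg (sq_nonneg ‖x u‖)]
    refine mul_le_mul_of_nonneg_right ?_ (sq_nonneg _)
    unfold a
    rw [abs_mul, abs_of_pos (hD.Wpos u)]
    exact mul_le_mul (hτ u hu) (hW u hu) (hD.Wpos u).le ((abs_nonneg _).trans (hτ u hu))
  nlinarith

/-- root support (4.18) -/
theorem roots_bdd {D : PvData V r} (hD : D.Good) (hr : 0 < r) {S : Finset V} {H₀ τ₁ : ℝ}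
    (hW : ∀ v ∈ S, D.W v ≤ H₀) (hτ : ∀ v ∈ S, |D.τ v| ≤ τ₁) :
    ∀ x ∈ (D.poly S).roots, |x.re| ≤ (1 + τ₁) * H₀ := by
  intro x hx
  have him := poly_roots_real hD hr S x hx
  have hx' : x = (x.re : ℂ) := Complex.ext (by simp) (by simpa using him)
  have h0 : pvMix D.law D.ker S (fun _ => ((x.re : ℝ) : ℂ)) = 0 := by
    rw [← hx', ← pvPoly_eval]
    exact (Polynomial.mem_roots'.mp hx).2
  rw [abs_le]
  constructor
  · by_contra hcon
    rw [not_le] at hcon
    refine pvb_ne_zero_of_lt (D.law_prob hr S) (b := (1 + τ₁) * H₀) (fun j y => ?_) hcon h0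
    have h1 := ker_form_le hD hW hτ j y
    have h2 := Complex.abs_re_le_norm (∑ u ∈ S, ∑ v ∈ S, conj (y u) * D.ker j u v * y v)
    have h3 := neg_abs_le (∑ u ∈ S, ∑ v ∈ S, conj (y u) * D.ker j u v * y v).re
    linarith
  · by_contra hcon
    rw [not_le] at hcon
    refine pvb_ne_zero_of_gt (D.law_prob hr S) (b := (1 + τ₁) * H₀) (fun j y => ?_) hcon h0
    have h1 := ker_form_le hD hW hτ j y
    have h2 := Complex.re_le_norm (∑ u ∈ S, ∑ v ∈ S, conj (y u) * D.ker j u v * y v)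
    linarith

/-- the rows of a Hermitian form contraction have norm at most one -/
theorem Good.row_sq_le {D : PvData V r} (hD : D.Good) (S : Finset V) (v : V) :
    ∑ u ∈ S, ‖D.T v u‖ ^ 2 ≤ 1 := by
  set S' := insert v S with hS'
  have hv : v ∈ S' := Finset.mem_insert_self v S
  have hmono : ∑ u ∈ S, ‖D.T v u‖ ^ 2 ≤ ∑ u ∈ S', ‖D.T v u‖ ^ 2 :=
    Finset.sum_le_sum_of_subset_of_nonneg (Finset.subset_insert v S) fun _ _ _ => sq_nonneg _
  refine hmono.trans ?_
  set N := ∑ u ∈ S', ‖D.T v u‖ ^ 2 with hN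
  set e : V → ℂ := fun u => if u = v then 1 else 0 with he
  set y : V → ℂ := fun u => D.T u v with hy
  have hp := hD.contr S' (fun u => e u + y u)
  have hm := hD.contr S' (fun u => e u - y u)
  -- the norms
  have hnorm : ∀ s : ℂ, s = 1 ∨ s = -1 → ∑ u ∈ S', ‖e u + s * y u‖ ^ 2 = 1 + N := by
    intro s hs
    have hs1 : ‖s‖ = 1 := by rcases hs with rfl | rfl <;> simp
    have h1 : ∀ u ∈ S', ‖e u + s * y u‖ ^ 2 = (if u = v then 1 else 0) + ‖D.T v u‖ ^ 2 := by
      intro u _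
      by_cases huv : u = v
      · subst huv
        simp [he, hy, hD.zdiag]
      · simp only [he, hy, huv, if_false, zero_add, norm_mul, hs1, one_mul]
        rw [hD.herm u v, RCLike.norm_conj]
    rw [Finset.sum_congr rfl h1, Finset.sum_add_distrib, Finset.sum_ite_eq', if_pos hv]
  have hnp : ∑ u ∈ S', ‖e u + y u‖ ^ 2 = 1 + N := by
    have := hnorm 1 (Or.inl rfl)
    simpa using this
  have hnm : ∑ u ∈ S', ‖e u - y u‖ ^ 2 = 1 + N := by
    have := hnorm (-1) (Or.inr rfl)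
    simpa [sub_eq_add_neg] using this
  rw [hnp] at hp
  rw [hnm] at hm
  -- polarisation
  have hdiff : (∑ u ∈ S', ∑ w ∈ S', conj (e u + y u) * D.T u w * (e w + y w)) -
      (∑ u ∈ S', ∑ w ∈ S', conj (e u - y u) * D.T u w * (e w - y w)) = ((4 * N : ℝ) : ℂ) := by
    have h1 : (∑ u ∈ S', ∑ w ∈ S', conj (e u + y u) * D.T u w * (e w + y w)) -
        (∑ u ∈ S', ∑ w ∈ S', conj (e u - y u) * D.T u w * (e w - y w)) =
        2 * (∑ u ∈ S', ∑ w ∈ S', conj (e u) * (D.T u w * y w)) +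
          2 * ∑ w ∈ S', ∑ u ∈ S', (conj (y u) * D.T u w) * e w := by
      rw [Finset.sum_comm (f := fun w u => (conj (y u) * D.T u w) * e w), Finset.mul_sum,
        Finset.mul_sum, ← Finset.sum_sub_distrib, ← Finset.sum_add_distrib]
      refine Finset.sum_congr rfl fun u _ => ?_
      rw [Finset.mul_sum, Finset.mul_sum, ← Finset.sum_sub_distrib, ← Finset.sum_add_distrib]
      refine Finset.sum_congr rfl fun w _ => ?_
      rw [map_add, map_sub]
      ring
    have h2 : ∑ u ∈ S', ∑ w ∈ S', conj (e u) * (D.T u w * y w) = (N : ℂ) := by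
      have : ∀ u ∈ S', ∑ w ∈ S', conj (e u) * (D.T u w * y w) =
          if u = v then ∑ w ∈ S', D.T v w * y w else 0 := by
        intro u _
        by_cases huv : u = v
        · subst huv; simp [he]
        · simp [he, huv]
      rw [Finset.sum_congr rfl this, Finset.sum_ite_eq', if_pos hv, hN]
      push_cast
      refine Finset.sum_congr rfl fun w _ => ?_
      rw [hy]
      simp only
      rw [hD.herm w v, Complex.mul_conj']
    have h3 : ∑ w ∈ S', ∑ u ∈ S', (conj (y u) * D.T u w) * e w = (N : ℂ) := by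
      have : ∀ w ∈ S', ∑ u ∈ S', (conj (y u) * D.T u w) * e w =
          if w = v then ∑ u ∈ S', conj (y u) * D.T u v else 0 := by
        intro w _
        by_cases hwv : w = v
        · subst hwv; simp [he]
        · simp [he, hwv]
      rw [Finset.sum_congr rfl this, Finset.sum_ite_eq', if_pos hv, hN]
      push_cast
      refine Finset.sum_congr rfl fun u _ => ?_
      rw [hy]
      simp only
      rw [Complex.conj_mul', hD.herm u v, RCLike.norm_conj]
    rw [h1, h2, h3]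
    push_cast
    ring
  have h4 := congrArg Complex.re hdiff
  rw [Complex.sub_re, Complex.ofReal_re] at h4
  have h5 := (Complex.re_le_norm _).trans hp
  have h6 := (Complex.abs_re_le_norm _).trans hm
  have h7 := neg_abs_le (∑ u ∈ S', ∑ w ∈ S', conj (e u - y u) * D.T u w * (e w - y w)).re
  linarith

theorem coll_nonneg (D : PvData V r) (hr : 0 < r) (u v : V) : 0 ≤ D.coll u v := by
  unfold coll
  exact Finset.sum_nonneg fun j _ =>
    mul_nonneg ((D.law_prob hr {u} u (by simp)).1 j) ((D.law_prob hr {v} v (by simp)).1 j)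

theorem coll_le_one (D : PvData V r) (hr : 0 < r) (u v : V) : D.coll u v ≤ 1 := by
  unfold coll
  have hu := D.law_prob hr {u} u (by simp)
  have hv := D.law_prob hr {v} v (by simp)
  rw [← hu.2]
  refine Finset.sum_le_sum fun j _ => ?_
  have : D.law v j ≤ 1 := by
    rw [← hv.2]
    exact Finset.single_le_sum (fun i _ => hv.1 i) (Finset.mem_univ j)
  nlinarith [hu.1 j]

/-- (4.17), residue mass -/
theorem kap_one_le {D : PvData V r} (hD : D.Good) (hr : 0 < r) {S : Finset V} {v : V} (hv : v ∈ S)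
    {K : ℝ} (hK0 : 0 ≤ K) (hK : ∀ u ∈ S, D.T v u ≠ 0 → D.W u ≤ K * D.W v) :
    D.kap S v (fun _ => 1) ≤ K * D.W v ^ 2 := by
  rw [kap_one hD hr hv]
  have hWv := hD.Wpos v
  calc ∑ u ∈ S.erase v, D.W v * D.W u * ‖D.T v u‖ ^ 2 * D.coll u v
      ≤ ∑ u ∈ S.erase v, K * D.W v ^ 2 * ‖D.T v u‖ ^ 2 := by
        refine Finset.sum_le_sum fun u hu => ?_
        by_cases h0 : D.T v u = 0
        · simp [h0]
        · have h1 := hK u (Finset.mem_of_mem_erase hu) h0
          have h2 := coll_le_one D hr u v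
          have h3 := coll_nonneg D hr u v
          have h4 : 0 ≤ D.W v * D.W u * ‖D.T v u‖ ^ 2 :=
            mul_nonneg (mul_nonneg hWv.le (hD.Wpos u).le) (sq_nonneg _)
          calc D.W v * D.W u * ‖D.T v u‖ ^ 2 * D.coll u v
              ≤ D.W v * D.W u * ‖D.T v u‖ ^ 2 * 1 := mul_le_mul_of_nonneg_left h2 h4
            _ = D.W v * D.W u * ‖D.T v u‖ ^ 2 := mul_one _
            _ ≤ D.W v * (K * D.W v) * ‖D.T v u‖ ^ 2 :=
                mul_le_mul_of_nonneg_right (mul_le_mul_of_nonneg_left h1 hWv.le) (sq_nonneg _)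
            _ = K * D.W v ^ 2 * ‖D.T v u‖ ^ 2 := by ring
    _ = K * D.W v ^ 2 * ∑ u ∈ S.erase v, ‖D.T v u‖ ^ 2 := by rw [Finset.mul_sum]
    _ ≤ K * D.W v ^ 2 * 1 :=
        mul_le_mul_of_nonneg_left (hD.row_sq_le _ v) (mul_nonneg hK0 (sq_nonneg _))
    _ = K * D.W v ^ 2 := mul_one _

/-- (4.17), rooted cost -/
theorem m_le {D : PvData V r} (hD : D.Good) (hr : 0 < r) {S : Finset V} {v : V} (hv : v ∈ S)
    {K : ℝ} (hK0 : 0 ≤ K) (hK : ∀ u ∈ S, D.T v u ≠ 0 → D.W u ≤ K * D.W v) :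
    D.m S v ≤ Real.sqrt (D.τ v ^ 2 + K) * D.W v := by
  have hw := (rho_spec hD hr hv).1
  set w := pvResW (D.poly S) (D.poly (S.erase v)) with hwdef
  set R := (D.poly S).roots.toFinset with hR
  have h1 : ∑ μ ∈ R, w μ * 1 = 1 := rho_one hD hr hv
  have h2 : ∑ μ ∈ R, w μ * μ.re ^ 2 = D.a v ^ 2 + D.kap S v fun _ => 1 := rho_sq hD hr hv
  have hm : D.m S v = ∑ μ ∈ R, w μ * max μ.re 0 := rfl
  set m := D.m S v with hmdef
  -- variance
  have h3 : 0 ≤ ∑ μ ∈ R, w μ * (max μ.re 0 - m) ^ 2 :=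
    Finset.sum_nonneg fun μ _ => mul_nonneg (hw μ) (sq_nonneg _)
  have h4 : ∑ μ ∈ R, w μ * (max μ.re 0 - m) ^ 2 =
      ∑ μ ∈ R, w μ * (max μ.re 0) ^ 2 - 2 * m * ∑ μ ∈ R, w μ * max μ.re 0 +
        m ^ 2 * ∑ μ ∈ R, w μ * 1 := by
    rw [Finset.mul_sum, Finset.mul_sum, ← Finset.sum_sub_distrib, ← Finset.sum_add_distrib]
    exact Finset.sum_congr rfl fun μ _ => by ring
  have h5 : ∑ μ ∈ R, w μ * (max μ.re 0) ^ 2 ≤ ∑ μ ∈ R, w μ * μ.re ^ 2 := by
    refine Finset.sum_le_sum fun μ _ => mul_le_mul_of_nonneg_left ?_ (hw μ)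
    rcases le_total μ.re 0 with h | h
    · rw [max_eq_right h]; nlinarith [sq_nonneg μ.re]
    · rw [max_eq_left h]
  rw [h4, ← hm, h1] at h3
  have h6 := kap_one_le hD hr hv hK0 hK
  have h7 : m ^ 2 ≤ (D.τ v ^ 2 + K) * D.W v ^ 2 := by
    have : D.a v ^ 2 = D.τ v ^ 2 * D.W v ^ 2 := by unfold a; ring
    nlinarith
  have h8 : Real.sqrt (D.τ v ^ 2 + K) * D.W v = Real.sqrt ((D.τ v ^ 2 + K) * D.W v ^ 2) := by
    rw [Real.sqrt_mul (by positivity), Real.sqrt_sq (hD.Wpos v).le]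
  rw [h8]
  exact Real.le_sqrt_of_sq_le h7

end PvData

end

end Claimed.Agent.R302
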