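/-
R302 / Poly / LocalSwap  (package Poly-Local, owner helper107)
Abstract combinatorial core of Lemma 4.5 of paper Q (rooted locality).

`c : Finset V → ℂ` is a set function which factorises along empty level sets of `δ : V → ℕ`
(`LocSep`), `locHc c S = ∑_{A ⊆ S} c A X^{|A|}`.  If `δ v = 0` and `K < δ u` then
`H_{S-v} H_{S-u} - H_S H_{S-u-v}` is divisible by `X^(K+1)`.
Proof: the pairs `(A, A')` with `|A| + |A'| ≤ K` miss a level `j ≤ K`; exchanging the parts of `A` and `A'`
below the first missed level is a sign reversing involution.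
-/
import Mathlib

set_option autoImplicit false
set_option linter.unusedSectionVars false

namespace Claimed.Agent.R302

open Finset Polynomial

noncomputable section

variable {V : Type*} [DecidableEq V]

theorem loc_exists_lvl (δ : V → ℕ) (U : Finset V) : ∃ j, ∀ w ∈ U, δ w ≠ j := by
  by_contra hcon
  push Not at hcon
  have hsub : Finset.range (U.card + 1) ⊆ U.image δ := by
    intro j _
    obtain ⟨w, hw, hj⟩ := hcon j
    exact Finset.mem_image.mpr ⟨w, hw, hj⟩
  have h1 := Finset.card_le_card hsub
  have h2 := Finset.card_image_le (s := U) (f := δ)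
  rw [Finset.card_range] at h1
  omega

/-- the first level of `δ` which is not met by `U` -/
def locLvl (δ : V → ℕ) (U : Finset V) : ℕ := Nat.find (loc_exists_lvl δ U)

theorem locLvl_spec (δ : V → ℕ) (U : Finset V) : ∀ w ∈ U, δ w ≠ locLvl δ U :=
  Nat.find_spec (loc_exists_lvl δ U)

theorem locLvl_min (δ : V → ℕ) (U : Finset V) {i : ℕ} (hi : i < locLvl δ U) : ∃ w ∈ U, δ w = i := by
  have := Nat.find_min (loc_exists_lvl δ U) hi
  push Not at this
  exact this

theorem locLvl_le_card (δ : V → ℕ) (U : Finset V) : locLvl δ U ≤ U.card := by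
  have hsub : Finset.range (locLvl δ U) ⊆ U.image δ := by
    intro j hj
    obtain ⟨w, hw, hj'⟩ := locLvl_min δ U (Finset.mem_range.mp hj)
    exact Finset.mem_image.mpr ⟨w, hw, hj'⟩
  have h1 := Finset.card_le_card hsub
  have h2 := Finset.card_image_le (s := U) (f := δ)
  rw [Finset.card_range] at h1
  omega

theorem locLvl_pos (δ : V → ℕ) {U : Finset V} {v : V} (hv : v ∈ U) (h0 : δ v = 0) :
    0 < locLvl δ U := by
  have := locLvl_spec δ U v hv
  omega

/-- exchange the parts below the first missed level -/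
def locSwp (δ : V → ℕ) (x : Finset V × Finset V) : Finset V × Finset V :=
  (x.1.filter (fun w => locLvl δ (x.1 ∪ x.2) < δ w) ∪ x.2.filter (fun w => δ w < locLvl δ (x.1 ∪ x.2)),
    x.2.filter (fun w => locLvl δ (x.1 ∪ x.2) < δ w) ∪ x.1.filter (fun w => δ w < locLvl δ (x.1 ∪ x.2)))

theorem mem_locSwp_fst (δ : V → ℕ) (x : Finset V × Finset V) (w : V) :
    w ∈ (locSwp δ x).1 ↔ (w ∈ x.1 ∧ locLvl δ (x.1 ∪ x.2) < δ w) ∨
      (w ∈ x.2 ∧ δ w < locLvl δ (x.1 ∪ x.2)) := by
  simp only [locSwp, Finset.mem_union, Finset.mem_filter]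

theorem mem_locSwp_snd (δ : V → ℕ) (x : Finset V × Finset V) (w : V) :
    w ∈ (locSwp δ x).2 ↔ (w ∈ x.2 ∧ locLvl δ (x.1 ∪ x.2) < δ w) ∨
      (w ∈ x.1 ∧ δ w < locLvl δ (x.1 ∪ x.2)) := by
  simp only [locSwp, Finset.mem_union, Finset.mem_filter]

theorem locSwp_union (δ : V → ℕ) (x : Finset V × Finset V) :
    (locSwp δ x).1 ∪ (locSwp δ x).2 = x.1 ∪ x.2 := by
  ext w
  rw [Finset.mem_union, mem_locSwp_fst, mem_locSwp_snd, Finset.mem_union]
  constructor
  · tauto
  · intro hw
    have h := locLvl_spec δ (x.1 ∪ x.2) w (Finset.mem_union.mpr hw)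
    rcases lt_or_gt_of_ne h with h1 | h1 <;> tauto

theorem locSwp_locSwp (δ : V → ℕ) (x : Finset V × Finset V) : locSwp δ (locSwp δ x) = x := by
  have hspec := locLvl_spec δ (x.1 ∪ x.2)
  apply Prod.ext
  · ext w
    rw [mem_locSwp_fst, locSwp_union, mem_locSwp_fst, mem_locSwp_snd]
    constructor
    · rintro (⟨h1 | h1, h2⟩ | ⟨h1 | h1, h2⟩)
      · exact h1.1
      · omega
      · omega
      · exact h1.1
    · intro hw
      have h := hspec w (Finset.mem_union_left _ hw)
      rcases lt_or_gt_of_ne h with h1 | h1 <;> tauto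
  · ext w
    rw [mem_locSwp_snd, locSwp_union, mem_locSwp_fst, mem_locSwp_snd]
    constructor
    · rintro (⟨h1 | h1, h2⟩ | ⟨h1 | h1, h2⟩)
      · exact h1.1
      · omega
      · omega
      · exact h1.1
    · intro hw
      have h := hspec w (Finset.mem_union_right _ hw)
      rcases lt_or_gt_of_ne h with h1 | h1 <;> tauto

theorem loc_card_split (δ : V → ℕ) (A : Finset V) (j : ℕ) (h : ∀ w ∈ A, δ w ≠ j) :
    (A.filter fun w => j < δ w).card + (A.filter fun w => δ w < j).card = A.card := by
  rw [← Finset.card_union_of_disjoint]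
  · congr 1
    ext w
    simp only [Finset.mem_union, Finset.mem_filter]
    constructor
    · tauto
    · intro hw
      rcases lt_or_gt_of_ne (h w hw) with h1 | h1 <;> tauto
  · rw [Finset.disjoint_left]
    intro w h1 h2
    rw [Finset.mem_filter] at h1 h2
    omega

theorem locSwp_card (δ : V → ℕ) (x : Finset V × Finset V) :
    (locSwp δ x).1.card + (locSwp δ x).2.card = x.1.card + x.2.card := by
  have hspec := locLvl_spec δ (x.1 ∪ x.2)
  have h1 := loc_card_split δ x.1 _ fun w hw => hspec w (Finset.mem_union_left _ hw)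
  have h2 := loc_card_split δ x.2 _ fun w hw => hspec w (Finset.mem_union_right _ hw)
  have hd : ∀ A B : Finset V, Disjoint (A.filter fun w => locLvl δ (x.1 ∪ x.2) < δ w)
      (B.filter fun w => δ w < locLvl δ (x.1 ∪ x.2)) := by
    intro A B
    rw [Finset.disjoint_left]
    intro w h1 h2
    rw [Finset.mem_filter] at h1 h2
    omega
  simp only [locSwp]
  rw [Finset.card_union_of_disjoint (hd _ _), Finset.card_union_of_disjoint (hd _ _)]
  omega

/-- `c` factorises along empty levels of `δ`. -/
def LocSep (c : Finset V → ℂ) (δ : V → ℕ) : Prop :=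
  ∀ (j : ℕ) (A : Finset V), (∀ w ∈ A, δ w ≠ j) →
    c A = c (A.filter fun w => j < δ w) * c (A.filter fun w => δ w < j)

theorem locSwp_c {c : Finset V → ℂ} {δ : V → ℕ} (hc : LocSep c δ) (x : Finset V × Finset V) :
    c (locSwp δ x).1 * c (locSwp δ x).2 = c x.1 * c x.2 := by
  have hspec := locLvl_spec δ (x.1 ∪ x.2)
  set j := locLvl δ (x.1 ∪ x.2) with hj
  have h1 := hc j x.1 fun w hw => hspec w (Finset.mem_union_left _ hw)
  have h2 := hc j x.2 fun w hw => hspec w (Finset.mem_union_right _ hw)
  have hspec' : ∀ w ∈ (locSwp δ x).1 ∪ (locSwp δ x).2, δ w ≠ j := by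
    rw [locSwp_union]
    exact hspec
  have h3 := hc j (locSwp δ x).1 fun w hw => hspec' w (Finset.mem_union_left _ hw)
  have h4 := hc j (locSwp δ x).2 fun w hw => hspec' w (Finset.mem_union_right _ hw)
  have e1 : ((locSwp δ x).1.filter fun w => j < δ w) = x.1.filter fun w => j < δ w := by
    ext w
    rw [Finset.mem_filter, mem_locSwp_fst, Finset.mem_filter, ← hj]
    constructor
    · rintro ⟨h | h, h'⟩
      · exact h
      · omega
    · intro h
      exact ⟨Or.inl h, h.2⟩
  have e2 : ((locSwp δ x).1.filter fun w => δ w < j) = x.2.filter fun w => δ w < j := by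
    ext w
    rw [Finset.mem_filter, mem_locSwp_fst, Finset.mem_filter, ← hj]
    constructor
    · rintro ⟨h | h, h'⟩
      · omega
      · exact h
    · intro h
      exact ⟨Or.inr h, h.2⟩
  have e3 : ((locSwp δ x).2.filter fun w => j < δ w) = x.2.filter fun w => j < δ w := by
    ext w
    rw [Finset.mem_filter, mem_locSwp_snd, Finset.mem_filter, ← hj]
    constructor
    · rintro ⟨h | h, h'⟩
      · exact h
      · omega
    · intro h
      exact ⟨Or.inl h, h.2⟩
  have e4 : ((locSwp δ x).2.filter fun w => δ w < j) = x.1.filter fun w => δ w < j := by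
    ext w
    rw [Finset.mem_filter, mem_locSwp_snd, Finset.mem_filter, ← hj]
    constructor
    · rintro ⟨h | h, h'⟩
      · omega
      · exact h
    · intro h
      exact ⟨Or.inr h, h.2⟩
  rw [h3, h4, e1, e2, e3, e4, h1, h2]
  ring

/-- generating polynomial `∑_{A ⊆ S} c A X^{|A|}` -/
def locHc (c : Finset V → ℂ) (S : Finset V) : ℂ[X] := ∑ A ∈ S.powerset, C (c A) * X ^ A.card

/-- the term of a pair -/
def locT (c : Finset V → ℂ) (x : Finset V × Finset V) : ℂ[X] :=
  C (c x.1 * c x.2) * X ^ (x.1.card + x.2.card)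

theorem locHc_mul (c : Finset V → ℂ) (S S' : Finset V) :
    locHc c S * locHc c S' = ∑ x ∈ S.powerset ×ˢ S'.powerset, locT c x := by
  unfold locHc locT
  rw [Finset.sum_mul_sum, Finset.sum_product]
  refine Finset.sum_congr rfl fun A _ => Finset.sum_congr rfl fun A' _ => ?_
  rw [C_mul, pow_add]
  ring

theorem locHc_coeff_zero (c : Finset V → ℂ) (S : Finset V) : (locHc c S).coeff 0 = c ∅ := by
  unfold locHc
  rw [Polynomial.finsetSum_coeff, Finset.sum_eq_single ∅]
  · simp
  · intro A _ hA
    rw [Polynomial.coeff_C_mul, Polynomial.coeff_X_pow, if_neg, mul_zero]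
    intro h
    exact hA (Finset.card_eq_zero.mp h.symm)
  · intro h
    exact absurd (Finset.empty_mem_powerset S) h

/-- KEY LEMMA (abstract form). -/
theorem loc_swap_dvd {c : Finset V → ℂ} {δ : V → ℕ} (hc : LocSep c δ) (S : Finset V) {u v : V}
    (hv : δ v = 0) {K : ℕ} (hu : K < δ u) :
    (X : ℂ[X]) ^ (K + 1) ∣ locHc c (S.erase v) * locHc c (S.erase u) -
      locHc c S * locHc c ((S.erase u).erase v) := by
  set Ω := S.powerset ×ˢ (S.erase u).powerset with hΩ
  have e1 : (S.erase v).powerset ×ˢ (S.erase u).powerset = Ω.filter fun x => v ∉ x.1 := by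
    ext x
    simp only [hΩ, Finset.mem_product, Finset.mem_powerset, Finset.mem_filter,
      Finset.subset_erase]
    tauto
  have e2 : S.powerset ×ˢ ((S.erase u).erase v).powerset = Ω.filter fun x => v ∉ x.2 := by
    ext x
    simp only [hΩ, Finset.mem_product, Finset.mem_powerset, Finset.mem_filter,
      Finset.subset_erase]
    tauto
  rw [locHc_mul, locHc_mul, e1, e2, Finset.sum_filter, Finset.sum_filter, ← Finset.sum_sub_distrib]
  set f : Finset V × Finset V → ℂ[X] := fun x =>
    (if v ∉ x.1 then locT c x else 0) - (if v ∉ x.2 then locT c x else 0) with hf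
  rw [← Finset.sum_filter_add_sum_filter_not Ω (fun x => x.1.card + x.2.card ≤ K) f]
  have hsmall : ∑ x ∈ Ω.filter (fun x => x.1.card + x.2.card ≤ K), f x = 0 := by
    have hT : ∀ x, locT c (locSwp δ x) = locT c x := by
      intro x
      unfold locT
      rw [locSwp_c hc, locSwp_card]
    have hflip : ∀ x : Finset V × Finset V, (v ∈ (locSwp δ x).1 ↔ v ∈ x.2) ∧
        (v ∈ (locSwp δ x).2 ↔ v ∈ x.1) := by
      intro x
      rw [mem_locSwp_fst, mem_locSwp_snd, hv]
      constructor
      · constructor
        · rintro (h | h)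
          · omega
          · exact h.1
        · intro h
          exact Or.inr ⟨h, locLvl_pos δ (Finset.mem_union_right _ h) hv⟩
      · constructor
        · rintro (h | h)
          · omega
          · exact h.1
        · intro h
          exact Or.inr ⟨h, locLvl_pos δ (Finset.mem_union_left _ h) hv⟩
    refine Finset.sum_involution (fun x _ => locSwp δ x) ?_ ?_ ?_ ?_
    · intro x _
      simp only [hf, hT, (hflip x).1, (hflip x).2]
      ring
    · intro x _ hx heq
      apply hx
      have h1 := (hflip x).1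
      rw [heq] at h1
      simp only [hf, h1]
      ring
    · intro x hx
      rw [Finset.mem_filter, hΩ, Finset.mem_product, Finset.mem_powerset, Finset.mem_powerset] at hx ⊢
      obtain ⟨⟨hx1, hx2⟩, hx3⟩ := hx
      have hx2' := Finset.subset_erase.mp hx2
      have hlvl : locLvl δ (x.1 ∪ x.2) ≤ K :=
        (locLvl_le_card δ _).trans ((Finset.card_union_le _ _).trans hx3)
      refine ⟨⟨?_, ?_⟩, ?_⟩
      · intro w hw
        rw [mem_locSwp_fst] at hw
        rcases hw with h | h
        · exact hx1 h.1
        · exact hx2'.1 h.1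
      · rw [Finset.subset_erase]
        constructor
        · intro w hw
          rw [mem_locSwp_snd] at hw
          rcases hw with h | h
          · exact hx2'.1 h.1
          · exact hx1 h.1
        · rw [mem_locSwp_snd]
          rintro (h | h)
          · exact hx2'.2 h.1
          · omega
      · rw [locSwp_card]
        exact hx3
    · intro x _
      exact locSwp_locSwp δ x
  rw [hsmall, zero_add]
  refine Finset.dvd_sum fun x hx => ?_
  rw [Finset.mem_filter] at hx
  have hT : (X : ℂ[X]) ^ (K + 1) ∣ locT c x := by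
    unfold locT
    exact Dvd.dvd.mul_left (pow_dvd_pow _ (by omega)) _
  simp only [hf]
  refine dvd_sub ?_ ?_ <;> split_ifs <;> first | exact hT | exact dvd_zero _

end

end Claimed.Agent.R302
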