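/-
R302 / Poly / LocalSeries  (package Poly-Local, owner helper107)
Moment series of the residue measures: if `N / D = ∑ w μ / (z - μ)` then, as formal power series in `t = 1 / z`,
`rev D * (t * ∑_k m_k t^k) = rev N`.  Reversed mixed polynomials `∑_{A ⊆ S} c_A t^{|A|}`.
General (pv-level) form of the far deletion lemma.
-/
import Claimed.Agent.R302.Poly.Root
import Claimed.Agent.R302.Poly.LocalSwap

set_option autoImplicit false
set_option linter.unusedSectionVars false

namespace Claimed.Agent.R302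

open Finset Polynomial
open scoped BigOperators ComplexConjugate

noncomputable section

/-- moment series of the atomic measure `∑ w μ δ_μ` on the roots of `D` -/
def locMom (D : ℂ[X]) (w : ℂ → ℝ) : PowerSeries ℂ :=
  PowerSeries.mk fun k => ∑ μ ∈ D.roots.toFinset, (w μ : ℂ) * μ ^ k

theorem loc_geom (μ : ℂ) :
    (1 - PowerSeries.C μ * PowerSeries.X) * PowerSeries.mk (fun k => μ ^ k) = 1 := by
  ext n
  rw [sub_mul, one_mul, mul_assoc, map_sub, PowerSeries.coeff_C_mul, PowerSeries.coeff_mk]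
  cases n with
  | zero => simp
  | succ n =>
    rw [PowerSeries.coeff_succ_X_mul, PowerSeries.coeff_mk, PowerSeries.coeff_one,
      if_neg (Nat.succ_ne_zero n)]
    ring

theorem loc_reflect_sum {ι : Type*} (s : Finset ι) (f : ι → ℂ[X]) (n : ℕ) :
    reflect n (∑ i ∈ s, f i) = ∑ i ∈ s, reflect n (f i) := by
  classical
  induction s using Finset.induction_on with
  | empty => simp
  | insert a s ha ih => rw [Finset.sum_insert ha, Finset.sum_insert ha, reflect_add, ih]

theorem loc_coe_sum {ι : Type*} (s : Finset ι) (f : ι → ℂ[X]) :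
    ((∑ i ∈ s, f i : ℂ[X]) : PowerSeries ℂ) = ∑ i ∈ s, (f i : PowerSeries ℂ) :=
  map_sum (Polynomial.coeToPowerSeries.ringHom (R := ℂ)) f s

theorem loc_res_poly {D N : ℂ[X]} {w : ℂ → ℝ} (h : IsResW D N w) (hD : D ≠ 0) :
    N = ∑ μ ∈ D.roots.toFinset, C (w μ : ℂ) * (D /ₘ (X - C μ)) := by
  apply Polynomial.eq_of_infinite_eval_eq
  have hfin : {z | D.eval z = 0}.Finite := by
    refine (D.roots.toFinset.finite_toSet).subset ?_
    intro z hz
    simp only [Finset.mem_coe, Multiset.mem_toFinset, Polynomial.mem_roots hD]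
    exact hz
  refine (hfin.infinite_compl).mono ?_
  intro z hz
  have hz' : D.eval z ≠ 0 := hz
  have h1 := h.2.2 z hz'
  rw [div_eq_iff hz'] at h1
  simp only [Set.mem_ofPred_eq]
  rw [h1, Polynomial.eval_finsetSum, Finset.sum_mul]
  refine Finset.sum_congr rfl fun μ hμ => ?_
  have hroot : D.IsRoot μ := (Polynomial.mem_roots hD).mp (Multiset.mem_toFinset.mp hμ)
  have hfac := mul_divByMonic_eq_iff_isRoot.mpr hroot
  have hzμ : z - μ ≠ 0 := by
    intro h0
    apply hz'
    rw [sub_eq_zero.mp h0]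
    exact hroot
  rw [eval_mul, eval_C]
  conv_lhs => rw [← hfac, eval_mul]
  simp only [eval_sub, eval_X, eval_C]
  field_simp

/-- the moment series identity -/
theorem loc_series {D N : ℂ[X]} {w : ℂ → ℝ} (h : IsResW D N w) (hD : D ≠ 0) :
    ((reflect D.natDegree D : ℂ[X]) : PowerSeries ℂ) * (PowerSeries.X * locMom D w) =
      ((reflect D.natDegree N : ℂ[X]) : PowerSeries ℂ) := by
  have hM : locMom D w =
      ∑ μ ∈ D.roots.toFinset, PowerSeries.C (w μ : ℂ) * PowerSeries.mk (fun k => μ ^ k) := by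
    ext k
    rw [locMom, PowerSeries.coeff_mk, map_sum]
    refine Finset.sum_congr rfl fun μ _ => ?_
    rw [PowerSeries.coeff_C_mul, PowerSeries.coeff_mk]
  conv_rhs => rw [loc_res_poly h hD]
  rw [hM, loc_reflect_sum, loc_coe_sum, Finset.mul_sum, Finset.mul_sum]
  refine Finset.sum_congr rfl fun μ hμ => ?_
  have hroot : D.IsRoot μ := (Polynomial.mem_roots hD).mp (Multiset.mem_toFinset.mp hμ)
  have hfac := mul_divByMonic_eq_iff_isRoot.mpr hroot
  set Q := D /ₘ (X - C μ) with hQ
  have hn : 1 ≤ D.natDegree := by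
    rcases Nat.eq_zero_or_pos D.natDegree with h0 | h0
    · exfalso
      rw [Polynomial.eq_C_of_natDegree_eq_zero h0] at hroot hD
      simp only [IsRoot.def, eval_C] at hroot
      rw [hroot] at hD
      simp at hD
    · exact h0
  obtain ⟨m, hm⟩ : ∃ m, D.natDegree = 1 + m := ⟨D.natDegree - 1, by omega⟩
  have hQdeg : Q.natDegree ≤ m := by
    rw [hQ, natDegree_divByMonic D (monic_X_sub_C μ), natDegree_X_sub_C]
    omega
  have e1 : reflect (1 + m) D = (1 - C μ * X) * reflect m Q := by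
    have h3 := reflect_mul (X - C μ) Q (natDegree_X_sub_C_le μ) hQdeg
    rw [hfac] at h3
    rw [h3, reflect_sub, reflect_one_X, reflect_C, pow_one]
  have e2 : reflect (1 + m) Q = X * reflect m Q := by
    have h3 := reflect_mul (1 : ℂ[X]) Q (F := 1) (by simp) hQdeg
    rw [one_mul] at h3
    rw [h3, reflect_one, pow_one]
  rw [hm, reflect_C_mul, e1, e2]
  simp only [Polynomial.coe_mul, Polynomial.coe_sub, Polynomial.coe_one, Polynomial.coe_C,
    Polynomial.coe_X]
  have hg := loc_geom μ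
  calc (1 - PowerSeries.C μ * PowerSeries.X) * ((reflect m Q : ℂ[X]) : PowerSeries ℂ) *
        (PowerSeries.X * (PowerSeries.C (w μ : ℂ) * PowerSeries.mk fun k => μ ^ k))
      = PowerSeries.C (w μ : ℂ) * (PowerSeries.X * ((reflect m Q : ℂ[X]) : PowerSeries ℂ)) *
        ((1 - PowerSeries.C μ * PowerSeries.X) * PowerSeries.mk fun k => μ ^ k) := by ring
    _ = _ := by rw [hg, mul_one]

/-- the moments of `pvRho` are the coefficients of the moment series -/
theorem loc_rho_coe {D N : ℂ[X]} (hreal : ∀ x ∈ D.roots, x.im = 0) (k : ℕ) :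
    ((pvRho D N (fun x => x ^ k) : ℝ) : ℂ) = PowerSeries.coeff k (locMom D (pvResW D N)) := by
  rw [locMom, PowerSeries.coeff_mk, pvRho, Complex.ofReal_sum]
  refine Finset.sum_congr rfl fun μ hμ => ?_
  have h1 : ((μ.re : ℝ) : ℂ) = μ := Complex.ext (by simp) (by simp [hreal μ (Multiset.mem_toFinset.mp hμ)])
  rw [Complex.ofReal_mul, Complex.ofReal_pow, h1]

/-- Laurent expansion at infinity -/
theorem loc_hasSum {D N : ℂ[X]} {w : ℂ → ℝ} (h : IsResW D N w) (hD : D ≠ 0) {L : ℝ}
    (hL : ∀ x ∈ D.roots, ‖x‖ ≤ L) {z : ℂ} (hz : L < ‖z‖) :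
    HasSum (fun k : ℕ => PowerSeries.coeff k (locMom D w) / z ^ (k + 1)) (N.eval z / D.eval z) := by
  have hDz : D.eval z ≠ 0 := by
    intro h0
    have := hL z ((Polynomial.mem_roots hD).mpr h0)
    linarith
  rw [h.2.2 z hDz]
  have e : (fun k : ℕ => PowerSeries.coeff k (locMom D w) / z ^ (k + 1)) =
      fun k => ∑ μ ∈ D.roots.toFinset, (w μ : ℂ) * μ ^ k / z ^ (k + 1) := by
    funext k
    rw [locMom, PowerSeries.coeff_mk, Finset.sum_div]
  rw [e]
  apply hasSum_sum
  intro μ hμ
  have hμL := hL μ (Multiset.mem_toFinset.mp hμ)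
  have hz0 : z ≠ 0 := by
    intro h0
    rw [h0, norm_zero] at hz
    have := norm_nonneg μ
    linarith
  have hq : ‖μ / z‖ < 1 := by
    rw [norm_div, div_lt_one (norm_pos_iff.mpr hz0)]
    linarith
  have hzμ : z - μ ≠ 0 := by
    intro h0
    rw [sub_eq_zero.mp h0] at hz
    linarith
  have hg := (hasSum_geometric_of_norm_lt_one hq).mul_left ((w μ : ℂ) / z)
  have e1 : (fun k : ℕ => (w μ : ℂ) * μ ^ k / z ^ (k + 1)) =
      fun i => (w μ : ℂ) / z * (μ / z) ^ i := by
    funext k
    rw [div_pow, pow_succ]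
    field_simp
  have e2 : (w μ : ℂ) / (z - μ) = (w μ : ℂ) / z * (1 - μ / z)⁻¹ := by
    have h1 : 1 - μ / z = (z - μ) / z := by field_simp
    rw [h1, inv_div]
    field_simp
  rw [e1, e2]
  exact hg

variable {V : Type*} [DecidableEq V] {J : Type*} [Fintype J] [DecidableEq J]

/-- the coefficients `c_A = E det(- B_ω |_A)` -/
def locC (p : V → J → ℝ) (B : J → V → V → ℂ) (A : Finset V) : ℂ := pvMix p B A 0

/-- the reversed polynomial `∑_{A ⊆ S} c_A t^{|A|}` -/
def locH (p : V → J → ℝ) (B : J → V → V → ℂ) (S : Finset V) : ℂ[X] := locHc (locC p B) S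

theorem loc_pvPoly_eq_sum {p : V → J → ℝ} (B : J → V → V → ℂ) {S : Finset V}
    (hp : ∀ v ∈ S, ∑ j, p v j = 1) :
    pvPoly p B S = ∑ R ∈ S.powerset, C (locC p B (S \ R)) * X ^ R.card := by
  refine Polynomial.funext fun x => ?_
  rw [pvPoly_eval, Polynomial.eval_finsetSum]
  have h := pvMix_add p B S 0 (fun _ => x) hp
  rw [zero_add] at h
  rw [h]
  refine Finset.sum_congr rfl fun R _ => ?_
  rw [Finset.prod_const, eval_mul, eval_C, eval_pow, eval_X, mul_comm]
  rfl

theorem loc_reflect_pvPoly {p : V → J → ℝ} (B : J → V → V → ℂ) {S : Finset V}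
    (hp : ∀ v ∈ S, ∑ j, p v j = 1) (i : ℕ) :
    reflect (S.card + i) (pvPoly p B S) = X ^ i * locH p B S := by
  rw [loc_pvPoly_eq_sum B hp, loc_reflect_sum, locH, locHc, Finset.mul_sum]
  refine Finset.sum_nbij' (fun R => S \ R) (fun R => S \ R) ?_ ?_ ?_ ?_ ?_
  · intro R _
    exact Finset.mem_powerset.mpr Finset.sdiff_subset
  · intro R _
    exact Finset.mem_powerset.mpr Finset.sdiff_subset
  · intro R hR
    exact Finset.sdiff_sdiff_eq_self (Finset.mem_powerset.mp hR)
  · intro R hR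
    exact Finset.sdiff_sdiff_eq_self (Finset.mem_powerset.mp hR)
  · intro R hR
    have hR' := Finset.mem_powerset.mp hR
    have hc := Finset.card_le_card hR'
    rw [reflect_C_mul_X_pow, revAt_le (by omega), Finset.card_sdiff_of_subset hR']
    have : S.card + i - R.card = i + (S.card - R.card) := by omega
    rw [this, pow_add]
    ring

theorem locH_coeff_zero (p : V → J → ℝ) (B : J → V → V → ℂ) (S : Finset V) :
    (locH p B S).coeff 0 = 1 := by
  rw [locH, locHc_coeff_zero, locC, pvMix_empty]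

theorem locH_isUnit (p : V → J → ℝ) (B : J → V → V → ℂ) (S : Finset V) :
    IsUnit ((locH p B S : ℂ[X]) : PowerSeries ℂ) := by
  rw [PowerSeries.isUnit_iff_constantCoeff, ← PowerSeries.coeff_zero_eq_constantCoeff_apply,
    Polynomial.coeff_coe, locH_coeff_zero]
  exact isUnit_one

/-- `H_S * M_{S,v} = H_{S - v}` -/
theorem locH_mul_mom {p : V → J → ℝ} {B : J → V → V → ℂ} {S : Finset V} (hp : PvProb p S)
    (hB : PvHerm B) {v : V} (hv : v ∈ S) :
    ((locH p B S : ℂ[X]) : PowerSeries ℂ) *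
        locMom (pvPoly p B S) (pvResW (pvPoly p B S) (pvPoly p B (S.erase v))) =
      ((locH p B (S.erase v) : ℂ[X]) : PowerSeries ℂ) := by
  have hp1 : ∀ u ∈ S, ∑ j, p u j = 1 := fun u hu => (hp u hu).2
  have hp2 : ∀ u ∈ S.erase v, ∑ j, p u j = 1 := fun u hu => hp1 u (Finset.mem_of_mem_erase hu)
  have h := loc_series (pv_rho_spec hp hB hv) (pvPoly_monic B hp1).ne_zero
  rw [pvPoly_natDegree B hp1] at h
  have e1 := loc_reflect_pvPoly B hp1 0
  have e2 := loc_reflect_pvPoly B hp2 1
  rw [Finset.card_erase_of_mem hv, Nat.sub_add_cancel (Finset.card_pos.mpr ⟨v, hv⟩)] at e2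
  rw [add_zero, pow_zero, one_mul] at e1
  rw [e1, e2, pow_one, Polynomial.coe_mul, Polynomial.coe_X, mul_left_comm] at h
  exact mul_left_cancel₀ PowerSeries.X_ne_zero h

/-- `c` factorises along empty levels when the kernels do not jump levels -/
theorem locC_sep (p : V → J → ℝ) {B : J → V → V → ℂ} {δ : V → ℕ}
    (hδ : ∀ j a b, B j a b ≠ 0 → δ b ≤ δ a + 1 ∧ δ a ≤ δ b + 1) : LocSep (locC p B) δ := by
  intro j A hA
  unfold locC
  rw [← pvMix_union]
  · congr 1
    ext w
    simp only [Finset.mem_union, Finset.mem_filter]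
    constructor
    · intro hw
      rcases lt_or_gt_of_ne (hA w hw) with h1 | h1 <;> tauto
    · tauto
  · rw [Finset.disjoint_left]
    intro w h1 h2
    rw [Finset.mem_filter] at h1 h2
    omega
  · intro i a ha b hb
    rw [Finset.mem_filter] at ha hb
    constructor
    · by_contra hne
      have := hδ i a b hne
      omega
    · by_contra hne
      have := hδ i b a hne
      omega

/-- KEY (general form): deleting a site at level `> k` does not change the rooted moments of order `≤ k`. -/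
theorem pv_rho_pow_far_erase {p : V → J → ℝ} {B : J → V → V → ℂ} {S : Finset V} (hp : PvProb p S)
    (hB : PvHerm B) {δ : V → ℕ} (hδ : ∀ j a b, B j a b ≠ 0 → δ b ≤ δ a + 1 ∧ δ a ≤ δ b + 1)
    {u v : V} (hv : v ∈ S) (hv0 : δ v = 0) {k : ℕ} (hu : k < δ u) :
    pvRho (pvPoly p B S) (pvPoly p B (S.erase v)) (fun x => x ^ k) =
      pvRho (pvPoly p B (S.erase u)) (pvPoly p B ((S.erase u).erase v)) fun x => x ^ k := by
  have huv : v ≠ u := by
    rintro rfl
    omega
  have hp' : PvProb p (S.erase u) := hp.mono (Finset.erase_subset _ _)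
  have hv' : v ∈ S.erase u := Finset.mem_erase.mpr ⟨huv, hv⟩
  have h1 := locH_mul_mom hp hB hv
  have h2 := locH_mul_mom hp' hB hv'
  set M := locMom (pvPoly p B S) (pvResW (pvPoly p B S) (pvPoly p B (S.erase v))) with hM
  set M' := locMom (pvPoly p B (S.erase u))
    (pvResW (pvPoly p B (S.erase u)) (pvPoly p B ((S.erase u).erase v))) with hM'
  obtain ⟨g, hg⟩ := loc_swap_dvd (locC_sep p hδ) S hv0 hu
  have hg' := congrArg (fun f : ℂ[X] => (f : PowerSeries ℂ)) hg
  simp only [Polynomial.coe_mul, Polynomial.coe_sub, Polynomial.coe_pow, Polynomial.coe_X] at hg'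
  change ((locH p B (S.erase v) : ℂ[X]) : PowerSeries ℂ) * ((locH p B (S.erase u) : ℂ[X]) : PowerSeries ℂ) -
    ((locH p B S : ℂ[X]) : PowerSeries ℂ) * ((locH p B ((S.erase u).erase v) : ℂ[X]) : PowerSeries ℂ) =
      PowerSeries.X ^ (k + 1) * (g : PowerSeries ℂ) at hg'
  rw [← h1, ← h2] at hg'
  have hdvd : (PowerSeries.X : PowerSeries ℂ) ^ (k + 1) ∣
      (((locH p B S : ℂ[X]) : PowerSeries ℂ) * ((locH p B (S.erase u) : ℂ[X]) : PowerSeries ℂ)) *
        (M - M') := by
    refine ⟨(g : PowerSeries ℂ), ?_⟩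
    rw [← hg']
    ring
  rw [IsUnit.dvd_mul_left ((locH_isUnit p B S).mul (locH_isUnit p B (S.erase u))),
    PowerSeries.X_pow_dvd_iff] at hdvd
  have h3 := hdvd k (Nat.lt_succ_self k)
  rw [map_sub, sub_eq_zero, hM, hM', ← loc_rho_coe (pvPoly_roots_real hp hB),
    ← loc_rho_coe (pvPoly_roots_real hp' hB)] at h3
  exact_mod_cast h3

end

end Claimed.Agent.R302
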