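/-
R302 / Poly / Local  (package Poly-Local)
Paper Q, Lemma 4.5 (rooted locality): the k-th moment of the rooted measure only depends on the radius-k ball.

PROOF PLANS (any one is fine).
 (A) paper: H_I(u) = P_I(Z) prod u_v is multiplicative over graph components, so log H_I has only monomials with connected
     support; G_v = d/dz_v log P_I.
 (B) polymer recursion: H_S = H_{S-v} + sum_{gamma ∋ v connected} c_gamma u^gamma H_{S - closure(gamma)}, induction on the order.
 (C) single far deletion: for u ≠ v,  G_{S,v} - G_{S-u,v} = Δ / (P_S P_{S-u}),  Δ = P_{S-v} P_{S-u} - P_S P_{S-u-v};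
     every sphere C_j (1 ≤ j < dist(u,v)) about v is a cut set, the coefficient of Δ of full degree in C_j is Δ_{S - C_j} = 0
     (factorisation) and the coefficients of deficiency one vanish by the cut vertex identity
     Δ_R = p_U p_{U-u} p_V p_{V-v} (f - f')(g - g'), so deg Δ ≤ 2|S| - 2 - 2 dist(u,v).
 It suffices to prove `G_far_erase`; `rho_pow_local` follows by deleting the far sites one at a time.
-/
import Claimed.Agent.R302.Poly.Costs
import Claimed.Agent.R302.Poly.LocalSeries

set_option autoImplicit false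
set_option linter.unusedSectionVars false

namespace Claimed.Agent.R302

open Finset Polynomial
open scoped BigOperators ComplexConjugate

noncomputable section

namespace PvData

variable {V : Type*} [DecidableEq V] {r : ℕ}

/-- the graph `Γ` supports `T` -/
def Supp (D : PvData V r) (Γ : SimpleGraph V) : Prop := ∀ u v, D.T u v ≠ 0 → Γ.Adj u v

/-- truncated distances are 1-Lipschitz along edges -/
theorem loc_trunc_lip (Γ : SimpleGraph V) (v a b : V) (K : ℕ) (hab : Γ.Adj a b) :
    (min (Γ.edist v b) (K : ℕ∞)).toNat ≤ (min (Γ.edist v a) (K : ℕ∞)).toNat + 1 := by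
  have h1 : Γ.edist v b ≤ Γ.edist v a + 1 := by
    have := SimpleGraph.edist_triangle (G := Γ) (u := v) (v := a) (w := b)
    rwa [SimpleGraph.edist_eq_one_iff_adj.mpr hab] at this
  have hne : min (Γ.edist v a) (K : ℕ∞) ≠ ⊤ := by
    intro h
    have h2 : min (Γ.edist v a) (K : ℕ∞) ≤ K := min_le_right _ _
    rw [h] at h2
    exact absurd h2 (by simp)
  apply ENat.toNat_le_of_le_natCast
  rw [Nat.cast_add, ENat.natCast_toNat hne, Nat.cast_one]
  rcases le_total (Γ.edist v a) (K : ℕ∞) with h | h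
  · rw [min_eq_left h]
    exact (min_le_left _ _).trans h1
  · rw [min_eq_right h]
    exact (min_le_right _ _).trans le_self_add

theorem ker_ne_zero_adj {D : PvData V r} {Γ : SimpleGraph V} (hΓ : D.Supp Γ) {j : PvOpt r} {a b : V}
    (hab : a ≠ b) (h : D.ker j a b ≠ 0) : Γ.Adj a b := by
  apply hΓ
  intro h0
  apply h
  simp [ker, h0, hab]

/-- deleting one site at distance `> k` from `v` does not change the moments of order `≤ k` -/
theorem rho_pow_far_erase {D : PvData V r} (hD : D.Good) (hr : 0 < r) {Γ : SimpleGraph V}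
    (hΓ : D.Supp Γ) {S : Finset V} {u v : V} (hv : v ∈ S) (k : ℕ) (hu : (k : ℕ∞) < Γ.edist v u) :
    D.rho S v (fun x => x ^ k) = D.rho (S.erase u) v fun x => x ^ k := by
  refine pv_rho_pow_far_erase (D.law_prob hr S) (ker_herm hD)
    (δ := fun w => (min (Γ.edist v w) ((k + 1 : ℕ) : ℕ∞)).toNat) ?_ hv ?_ ?_
  · intro j a b hab
    by_cases h : a = b
    · subst h
      exact ⟨Nat.le_succ _, Nat.le_succ _⟩
    · have hadj := ker_ne_zero_adj hΓ h hab
      exact ⟨loc_trunc_lip Γ v a b _ hadj, loc_trunc_lip Γ v b a _ hadj.symm⟩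
  · simp
  · have h1 : ((k + 1 : ℕ) : ℕ∞) ≤ Γ.edist v u := by
      rw [Nat.cast_add, Nat.cast_one]
      exact (ENat.add_one_le_iff (ENat.natCast_ne_top k)).mpr hu
    simp only [min_eq_right h1, ENat.toNat_natCast]
    exact Nat.lt_succ_self k

/-- deleting a set of far sites -/
theorem rho_pow_far_sdiff {D : PvData V r} (hD : D.Good) (hr : 0 < r) {Γ : SimpleGraph V}
    (hΓ : D.Supp Γ) {S : Finset V} {v : V} (hv : v ∈ S) (k : ℕ) (F : Finset V)
    (hF : ∀ u ∈ F, (k : ℕ∞) < Γ.edist v u) :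
    D.rho S v (fun x => x ^ k) = D.rho (S \ F) v fun x => x ^ k := by
  induction F using Finset.induction_on with
  | empty => simp
  | insert a F _ ih =>
    have hvF : v ∈ S \ F := by
      rw [Finset.mem_sdiff]
      refine ⟨hv, fun hvF => ?_⟩
      have := hF v (Finset.mem_insert_of_mem hvF)
      simp at this
    rw [ih fun u hu => hF u (Finset.mem_insert_of_mem hu), Finset.sdiff_insert]
    exact rho_pow_far_erase hD hr hΓ hvF k (hF a (Finset.mem_insert_self _ _))

/-- LEMMA 4.5, locality of the rooted moments. -/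
theorem rho_pow_local {D D' : PvData V r} (hD : D.Good) (hD' : D'.Good) (hr : 0 < r)
    {Γ : SimpleGraph V} (hΓ : D.Supp Γ) (hΓ' : D'.Supp Γ) {S S' : Finset V} {v : V} (k : ℕ)
    (hv : v ∈ S)
    (hS : ∀ u, Γ.edist v u ≤ k → (u ∈ S ↔ u ∈ S'))
    (hW : ∀ u ∈ S, Γ.edist v u ≤ k → D.W u = D'.W u)
    (hc : ∀ u ∈ S, Γ.edist v u ≤ k → D.c u = D'.c u)
    (hτ : ∀ u ∈ S, Γ.edist v u ≤ k → D.τ u = D'.τ u)
    (hT : ∀ u ∈ S, ∀ w ∈ S, Γ.edist v u ≤ k → Γ.edist v w ≤ k → D.T u w = D'.T u w) :
    D.rho S v (fun x => x ^ k) = D'.rho S' v fun x => x ^ k := by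
  classical
  set Bl : Finset V := S.filter fun u => Γ.edist v u ≤ k with hBl
  have hv' : v ∈ S' := (hS v (by simp)).mp hv
  have e1 : S \ (S.filter fun u => (k : ℕ∞) < Γ.edist v u) = Bl := by
    ext u
    simp only [hBl, Finset.mem_sdiff, Finset.mem_filter, not_and, not_lt]
    tauto
  have e2 : S' \ (S'.filter fun u => (k : ℕ∞) < Γ.edist v u) = Bl := by
    ext u
    simp only [hBl, Finset.mem_sdiff, Finset.mem_filter, not_and, not_lt]
    constructor
    · rintro ⟨h1, h2⟩
      exact ⟨(hS u (h2 h1)).mpr h1, h2 h1⟩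
    · rintro ⟨h1, h2⟩
      exact ⟨(hS u h2).mp h1, fun _ => h2⟩
  rw [rho_pow_far_sdiff hD hr hΓ hv k (S.filter fun u => (k : ℕ∞) < Γ.edist v u)
      (fun u hu => (Finset.mem_filter.mp hu).2), e1,
    rho_pow_far_sdiff hD' hr hΓ' hv' k (S'.filter fun u => (k : ℕ∞) < Γ.edist v u)
      (fun u hu => (Finset.mem_filter.mp hu).2), e2]
  have hmem : ∀ u ∈ Bl, u ∈ S ∧ Γ.edist v u ≤ k := fun u hu => Finset.mem_filter.mp hu
  have p1 : D.poly Bl = D'.poly Bl :=
    poly_congr (fun u hu w hw => hT u (hmem u hu).1 w (hmem w hw).1 (hmem u hu).2 (hmem w hw).2)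
      (fun u hu => hW u (hmem u hu).1 (hmem u hu).2) (fun u hu => hc u (hmem u hu).1 (hmem u hu).2)
      (fun u hu => hτ u (hmem u hu).1 (hmem u hu).2)
  have hmem' : ∀ u ∈ Bl.erase v, u ∈ S ∧ Γ.edist v u ≤ k :=
    fun u hu => hmem u (Finset.mem_of_mem_erase hu)
  have p2 : D.poly (Bl.erase v) = D'.poly (Bl.erase v) :=
    poly_congr (fun u hu w hw => hT u (hmem' u hu).1 w (hmem' w hw).1 (hmem' u hu).2 (hmem' w hw).2)
      (fun u hu => hW u (hmem' u hu).1 (hmem' u hu).2)
      (fun u hu => hc u (hmem' u hu).1 (hmem' u hu).2)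
      (fun u hu => hτ u (hmem' u hu).1 (hmem' u hu).2)
  unfold rho
  rw [p1, p2]

/-- locality of the polynomial increments `d_{S,v}[x^k]`: radius `2 k` (use `df_eq_sum`, `rho_pow_far_erase`,
`rho_pow_local`) -/
theorem df_pow_local {D D' : PvData V r} (hD : D.Good) (hD' : D'.Good) (hr : 0 < r)
    {Γ : SimpleGraph V} (hΓ : D.Supp Γ) (hΓ' : D'.Supp Γ) {S S' : Finset V} {v : V} (k : ℕ)
    (hv : v ∈ S)
    (hS : ∀ u, Γ.edist v u ≤ ((2 * k : ℕ) : ℕ∞) → (u ∈ S ↔ u ∈ S'))
    (hW : ∀ u ∈ S, Γ.edist v u ≤ ((2 * k : ℕ) : ℕ∞) → D.W u = D'.W u)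
    (hc : ∀ u ∈ S, Γ.edist v u ≤ ((2 * k : ℕ) : ℕ∞) → D.c u = D'.c u)
    (hτ : ∀ u ∈ S, Γ.edist v u ≤ ((2 * k : ℕ) : ℕ∞) → D.τ u = D'.τ u)
    (hT : ∀ u ∈ S, ∀ w ∈ S, Γ.edist v u ≤ ((2 * k : ℕ) : ℕ∞) → Γ.edist v w ≤ ((2 * k : ℕ) : ℕ∞) →
      D.T u w = D'.T u w) :
    D.df S v (fun x => x ^ k) = D'.df S' v fun x => x ^ k := by
  classical
  have hv' : v ∈ S' := (hS v (by simp)).mp hv
  have hk2 : ((k : ℕ) : ℕ∞) ≤ ((2 * k : ℕ) : ℕ∞) := by exact_mod_cast (by omega : k ≤ 2 * k)
  rw [df_eq_sum hD hr hv, df_eq_sum hD' hr hv']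
  have t1 : D.rho S v (fun x => x ^ k) = D'.rho S' v fun x => x ^ k :=
    rho_pow_local hD hD' hr hΓ hΓ' k hv (fun u hu => hS u (hu.trans hk2))
      (fun u hu h => hW u hu (h.trans hk2)) (fun u hu h => hc u hu (h.trans hk2))
      (fun u hu h => hτ u hu (h.trans hk2))
      (fun u hu w hw h h' => hT u hu w hw (h.trans hk2) (h'.trans hk2))
  have r1 : ∑ u ∈ S.erase v, (D.rho S u (fun x => x ^ k) - D.rho (S.erase v) u fun x => x ^ k) =
      ∑ u ∈ (S.erase v).filter (fun u => Γ.edist v u ≤ k),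
        (D.rho S u (fun x => x ^ k) - D.rho (S.erase v) u fun x => x ^ k) := by
    rw [Finset.sum_filter]
    refine Finset.sum_congr rfl fun u hu => ?_
    split_ifs with h
    · rfl
    · rw [sub_eq_zero]
      exact rho_pow_far_erase hD hr hΓ (Finset.mem_of_mem_erase hu) k
        (by rw [SimpleGraph.edist_comm]; exact not_le.mp h)
  have r2 : ∑ u ∈ S'.erase v, (D'.rho S' u (fun x => x ^ k) - D'.rho (S'.erase v) u fun x => x ^ k) =
      ∑ u ∈ (S'.erase v).filter (fun u => Γ.edist v u ≤ k),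
        (D'.rho S' u (fun x => x ^ k) - D'.rho (S'.erase v) u fun x => x ^ k) := by
    rw [Finset.sum_filter]
    refine Finset.sum_congr rfl fun u hu => ?_
    split_ifs with h
    · rfl
    · rw [sub_eq_zero]
      exact rho_pow_far_erase hD' hr hΓ' (Finset.mem_of_mem_erase hu) k
        (by rw [SimpleGraph.edist_comm]; exact not_le.mp h)
  have hN : (S'.erase v).filter (fun u => Γ.edist v u ≤ k) =
      (S.erase v).filter (fun u => Γ.edist v u ≤ k) := by
    ext u
    simp only [Finset.mem_filter, Finset.mem_erase]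
    constructor
    · rintro ⟨⟨h1, h2⟩, h3⟩
      exact ⟨⟨h1, (hS u (h3.trans hk2)).mpr h2⟩, h3⟩
    · rintro ⟨⟨h1, h2⟩, h3⟩
      exact ⟨⟨h1, (hS u (h3.trans hk2)).mp h2⟩, h3⟩
  rw [t1, r1, r2, hN]
  congr 1
  refine Finset.sum_congr rfl fun u hu => ?_
  obtain ⟨hu1, hu2⟩ := Finset.mem_filter.mp hu
  have huS : u ∈ S := Finset.mem_of_mem_erase hu1
  have tri : ∀ w, Γ.edist u w ≤ k → Γ.edist v w ≤ ((2 * k : ℕ) : ℕ∞) := by
    intro w hw
    calc Γ.edist v w ≤ Γ.edist v u + Γ.edist u w := SimpleGraph.edist_triangle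
      _ ≤ (k : ℕ∞) + k := add_le_add hu2 hw
      _ = ((2 * k : ℕ) : ℕ∞) := by push_cast; ring
  congr 1
  · exact rho_pow_local hD hD' hr hΓ hΓ' k huS (fun w hw => hS w (tri w hw))
      (fun w hw h => hW w hw (tri w h)) (fun w hw h => hc w hw (tri w h))
      (fun w hw h => hτ w hw (tri w h))
      (fun w hw w' hw' h h' => hT w hw w' hw' (tri w h) (tri w' h'))
  · exact rho_pow_local hD hD' hr hΓ hΓ' k hu1
      (fun w hw => by simp only [Finset.mem_erase, hS w (tri w hw)])
      (fun w hw h => hW w (Finset.mem_of_mem_erase hw) (tri w h))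
      (fun w hw h => hc w (Finset.mem_of_mem_erase hw) (tri w h))
      (fun w hw h => hτ w (Finset.mem_of_mem_erase hw) (tri w h))
      (fun w hw w' hw' h h' => hT w (Finset.mem_of_mem_erase hw) w' (Finset.mem_of_mem_erase hw')
        (tri w h) (tri w' h'))

/-- rooted moment series -/
def locM (D : PvData V r) (S : Finset V) (v : V) : PowerSeries ℂ :=
  locMom (D.poly S) (pvResW (D.poly S) (D.poly (S.erase v)))

/-- residue moment series -/
def locK (D : PvData V r) (S : Finset V) (v : V) : PowerSeries ℂ :=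
  locMom (D.poly (S.erase v))
    (pvResW (D.poly (S.erase v)) ((X + C (D.a v : ℂ)) * D.poly (S.erase v) - D.poly S))

/-- reversed polynomial as a power series -/
def locHs (D : PvData V r) (S : Finset V) : PowerSeries ℂ := ((locH D.law D.ker S : ℂ[X]) : PowerSeries ℂ)

theorem rho_pow_coe {D : PvData V r} (hD : D.Good) (hr : 0 < r) (S : Finset V) (v : V) (k : ℕ) :
    ((D.rho S v (fun x => x ^ k) : ℝ) : ℂ) = PowerSeries.coeff k (D.locM S v) :=
  loc_rho_coe (poly_roots_real hD hr S) k

theorem kap_pow_coe {D : PvData V r} (hD : D.Good) (hr : 0 < r) (S : Finset V) (v : V) (k : ℕ) :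
    ((D.kap S v (fun x => x ^ k) : ℝ) : ℂ) = PowerSeries.coeff k (D.locK S v) :=
  loc_rho_coe (poly_roots_real hD hr (S.erase v)) k

theorem locHs_isUnit (D : PvData V r) (S : Finset V) : IsUnit (D.locHs S) := locH_isUnit _ _ _

theorem locHs_mul_locM {D : PvData V r} (hD : D.Good) (hr : 0 < r) {S : Finset V} {v : V}
    (hv : v ∈ S) : D.locHs S * D.locM S v = D.locHs (S.erase v) :=
  locH_mul_mom (D.law_prob hr S) (ker_herm hD) hv

theorem locM_isUnit {D : PvData V r} (hD : D.Good) (hr : 0 < r) {S : Finset V} {v : V}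
    (hv : v ∈ S) : IsUnit (D.locM S v) := by
  have h := D.locHs_isUnit (S.erase v)
  rw [← locHs_mul_locM hD hr hv] at h
  exact isUnit_of_mul_isUnit_right h

theorem locHs_locK {D : PvData V r} (hD : D.Good) (hr : 0 < r) {S : Finset V} {v : V}
    (hv : v ∈ S) :
    PowerSeries.X ^ 2 * (D.locHs (S.erase v) * D.locK S v) =
      (1 + PowerSeries.C (D.a v : ℂ) * PowerSeries.X) * D.locHs (S.erase v) - D.locHs S := by
  have hp1 : ∀ u ∈ S, ∑ j, D.law u j = 1 := fun u hu => (D.law_prob hr S u hu).2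
  have hp2 : ∀ u ∈ S.erase v, ∑ j, D.law u j = 1 := fun u hu => hp1 u (Finset.mem_of_mem_erase hu)
  set m := (S.erase v).card with hm
  have hSm : S.card = 1 + m := by
    rw [hm, Finset.card_erase_of_mem hv]
    have := Finset.card_pos.mpr ⟨v, hv⟩
    omega
  set P' := D.poly (S.erase v) with hP'
  set P := D.poly S with hP
  set N := (X + C (D.a v : ℂ)) * P' - P with hN
  have hP'm : P'.Monic := D.poly_monic hr _
  have hPm : P.Monic := D.poly_monic hr _
  have hP'd : P'.natDegree = m := D.poly_natDegree hr _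
  have hPd : P.natDegree = 1 + m := by rw [hP, D.poly_natDegree hr, hSm]
  have hAm : ((X + C (D.a v : ℂ)) * P').Monic := (monic_X_add_C _).mul hP'm
  have hAd : ((X + C (D.a v : ℂ)) * P').natDegree = 1 + m := by
    rw [(monic_X_add_C _).natDegree_mul hP'm, natDegree_X_add_C, hP'd]
  have hNd : N.natDegree ≤ m := by
    by_cases hN0 : N = 0
    · rw [hN0]; simp
    · have hlt : N.degree < ((X + C (D.a v : ℂ)) * P').degree := by
        apply degree_sub_lt_left
        · rw [degree_eq_natDegree hAm.ne_zero, degree_eq_natDegree hPm.ne_zero, hAd, hPd]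
        · exact hAm.ne_zero
        · rw [hAm.leadingCoeff, hPm.leadingCoeff]
      have := natDegree_lt_natDegree hN0 hlt
      omega
  have h := loc_series (kap_spec hD hr hv) hP'm.ne_zero
  rw [← hP', ← hP, ← hN, hP'd] at h
  have e1 : reflect m P' = locH D.law D.ker (S.erase v) := by
    have := loc_reflect_pvPoly D.ker hp2 0
    rwa [add_zero, pow_zero, one_mul] at this
  have e2 : reflect (1 + m) P = locH D.law D.ker S := by
    have := loc_reflect_pvPoly D.ker hp1 0
    rwa [add_zero, pow_zero, one_mul, hSm] at this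
  have e3 : reflect (1 + m) N = X * reflect m N := by
    have h3 := reflect_mul (1 : ℂ[X]) N (F := 1) (by simp) hNd
    rw [one_mul] at h3
    rw [h3, reflect_one, pow_one]
  have e4 : reflect (1 + m) N = (1 + C (D.a v : ℂ) * X) * locH D.law D.ker (S.erase v) -
      locH D.law D.ker S := by
    rw [hN, reflect_sub, e2, reflect_mul _ _ (natDegree_X_add_C _).le hP'd.le, e1, reflect_add,
      reflect_one_X, reflect_C, pow_one]
  rw [e1] at h
  have h5 := congrArg (fun f : ℂ[X] => (f : PowerSeries ℂ)) (e3.symm.trans e4)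
  simp only [Polynomial.coe_mul, Polynomial.coe_sub, Polynomial.coe_add, Polynomial.coe_one,
    Polynomial.coe_C, Polynomial.coe_X] at h5
  rw [← h] at h5
  unfold locHs locK
  rw [← h5, ← hP', ← hP, ← hN]
  ring

/-- `t^2 M K = (1 + a t) M - 1` -/
theorem locM_locK {D : PvData V r} (hD : D.Good) (hr : 0 < r) {S : Finset V} {v : V}
    (hv : v ∈ S) :
    PowerSeries.X ^ 2 * (D.locM S v * D.locK S v) =
      (1 + PowerSeries.C (D.a v : ℂ) * PowerSeries.X) * D.locM S v - 1 := by
  have h := locHs_locK hD hr hv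
  rw [← locHs_mul_locM hD hr hv] at h
  apply (D.locHs_isUnit S).mul_left_cancel
  calc D.locHs S * (PowerSeries.X ^ 2 * (D.locM S v * D.locK S v))
      = PowerSeries.X ^ 2 * (D.locHs S * D.locM S v * D.locK S v) := by ring
    _ = _ := by rw [h]; ring

/-- the moments of the residue measure are determined by the moments of the rooted measure
(`F G = 1`): if the rooted moments agree up to order `k + 2` and the shifts agree,
then the residue moments agree up to order `k` -/
theorem kap_pow_of_rho_pow {D D' : PvData V r} (hD : D.Good) (hD' : D'.Good) (hr : 0 < r)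
    {S S' : Finset V} {v : V} (hv : v ∈ S) (hv' : v ∈ S') (k : ℕ)
    (h : ∀ j ≤ k + 2, D.rho S v (fun x => x ^ j) = D'.rho S' v fun x => x ^ j) :
    ∀ j ≤ k, D.kap S v (fun x => x ^ j) = D'.kap S' v fun x => x ^ j := by
  have ha : D.a v = D'.a v := by
    have h1 := h 1 (by omega)
    simp only [pow_one] at h1
    rw [rho_id hD hr hv, rho_id hD' hr hv'] at h1
    linarith
  have hM : (PowerSeries.X : PowerSeries ℂ) ^ (k + 3) ∣ D.locM S v - D'.locM S' v := by
    rw [PowerSeries.X_pow_dvd_iff]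
    intro j hj
    rw [map_sub, ← rho_pow_coe hD hr, ← rho_pow_coe hD' hr, h j (by omega), sub_self]
  have e := locM_locK hD hr hv
  have e' := locM_locK hD' hr hv'
  rw [← ha] at e'
  have h2 : (PowerSeries.X : PowerSeries ℂ) ^ 2 * PowerSeries.X ^ (k + 1) ∣
      PowerSeries.X ^ 2 * (D.locM S v * D.locK S v - D'.locM S' v * D'.locK S' v) := by
    rw [mul_sub, e, e', ← pow_add]
    have : (1 + PowerSeries.C (D.a v : ℂ) * PowerSeries.X) * D.locM S v - 1 -
        ((1 + PowerSeries.C (D.a v : ℂ) * PowerSeries.X) * D'.locM S' v - 1) =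
        (1 + PowerSeries.C (D.a v : ℂ) * PowerSeries.X) * (D.locM S v - D'.locM S' v) := by ring
    rw [this, show 2 + (k + 1) = k + 3 by omega]
    exact Dvd.dvd.mul_left hM _
  rw [mul_dvd_mul_iff_left (pow_ne_zero 2 PowerSeries.X_ne_zero)] at h2
  have hM' : (PowerSeries.X : PowerSeries ℂ) ^ (k + 1) ∣ D.locM S v - D'.locM S' v :=
    (pow_dvd_pow _ (by omega)).trans hM
  have h3 : (PowerSeries.X : PowerSeries ℂ) ^ (k + 1) ∣
      D.locM S v * (D.locK S v - D'.locK S' v) := by
    have : D.locM S v * (D.locK S v - D'.locK S' v) =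
        (D.locM S v * D.locK S v - D'.locM S' v * D'.locK S' v) -
          (D.locM S v - D'.locM S' v) * D'.locK S' v := by ring
    rw [this]
    exact dvd_sub h2 (Dvd.dvd.mul_right hM' _)
  rw [IsUnit.dvd_mul_left (locM_isUnit hD hr hv), PowerSeries.X_pow_dvd_iff] at h3
  intro j hj
  have h4 := h3 j (by omega)
  rw [map_sub, sub_eq_zero, ← kap_pow_coe hD hr, ← kap_pow_coe hD' hr] at h4
  exact_mod_cast h4

theorem loc_norm_of_real {x : ℂ} (hx : x.im = 0) : ‖x‖ = |x.re| := by
  have h1 : ((x.re : ℝ) : ℂ) = x := Complex.ext (by simp) (by simp [hx])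
  rw [← h1, Complex.norm_real, Real.norm_eq_abs, Complex.ofReal_re]

/-- Laurent expansion of `G` -/
theorem G_hasSum {D : PvData V r} (hD : D.Good) (hr : 0 < r) {S : Finset V} {v : V} (hv : v ∈ S)
    {L : ℝ} (hL : ∀ x ∈ (D.poly S).roots, |x.re| ≤ L) {z : ℂ} (hz : L < ‖z‖) :
    HasSum (fun k : ℕ => (D.rho S v (fun x => x ^ k) : ℂ) / z ^ (k + 1)) (D.G S v z) := by
  simp only [rho_pow_coe hD hr]
  exact loc_hasSum (rho_spec hD hr hv) (D.poly_monic hr S).ne_zero
    (fun x hx => by rw [loc_norm_of_real (poly_roots_real hD hr S x hx)]; exact hL x hx) hz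

/-- the roots of the deletion polynomial satisfy the same two sided bound -/
theorem roots_erase_abs_le {D : PvData V r} (hD : D.Good) (hr : 0 < r) {S : Finset V} {v : V}
    (hv : v ∈ S) {L : ℝ} (hL : ∀ x ∈ (D.poly S).roots, |x.re| ≤ L) :
    ∀ x ∈ (D.poly (S.erase v)).roots, |x.re| ≤ L := by
  intro x hx
  rw [abs_le]
  constructor
  · by_contra hcon
    have hlt : x.re < -L := not_le.mp hcon
    have h := (count_interlace hD hr hv x.re).2
    have c1 : pvCount (D.poly S) x.re = S.card := by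
      unfold pvCount
      rw [Multiset.filter_eq_self.mpr, splits_iff_card_roots.mp (IsAlgClosed.splits _),
        D.poly_natDegree hr]
      intro y hy
      have := (abs_le.mp (hL y hy)).1
      linarith
    have c2 : pvCount (D.poly (S.erase v)) x.re + 1 ≤ (S.erase v).card := by
      unfold pvCount
      have h1 := Multiset.filter_add_not (fun y : ℂ => x.re < y.re) (D.poly (S.erase v)).roots
      have h2 := congrArg Multiset.card h1
      rw [Multiset.card_add, splits_iff_card_roots.mp (IsAlgClosed.splits _),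
        D.poly_natDegree hr] at h2
      have h3 : 0 < Multiset.card (Multiset.filter (fun y : ℂ => ¬ x.re < y.re)
          (D.poly (S.erase v)).roots) := by
        rw [Multiset.card_pos_iff_exists_mem]
        exact ⟨x, Multiset.mem_filter.mpr ⟨hx, lt_irrefl _⟩⟩
      omega
    have c3 := Finset.card_erase_of_mem hv
    omega
  · by_contra hcon
    have hlt : L < x.re := not_le.mp hcon
    have h := (count_interlace hD hr hv L).1
    have c1 : pvCount (D.poly S) L = 0 := by
      unfold pvCount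
      rw [Multiset.card_eq_zero, Multiset.filter_eq_nil]
      intro y hy
      have := (abs_le.mp (hL y hy)).2
      linarith
    have c2 : 0 < pvCount (D.poly (S.erase v)) L := by
      unfold pvCount
      rw [Multiset.card_pos_iff_exists_mem]
      exact ⟨x, Multiset.mem_filter.mpr ⟨hx, hlt⟩⟩
    omega

/-- Laurent expansion of `F` -/
theorem F_hasSum {D : PvData V r} (hD : D.Good) (hr : 0 < r) {S : Finset V} {v : V} (hv : v ∈ S)
    {L : ℝ} (hL : ∀ x ∈ (D.poly S).roots, |x.re| ≤ L) {z : ℂ} (hz : L < ‖z‖) :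
    HasSum (fun k : ℕ => (D.kap S v (fun x => x ^ k) : ℂ) / z ^ (k + 1))
      (z + D.a v - D.F S v z) := by
  simp only [kap_pow_coe hD hr]
  have hL' := roots_erase_abs_le hD hr hv hL
  have hb : ∀ x ∈ (D.poly (S.erase v)).roots, ‖x‖ ≤ L := fun x hx => by
    rw [loc_norm_of_real (poly_roots_real hD hr _ x hx)]; exact hL' x hx
  have h := loc_hasSum (kap_spec hD hr hv) (D.poly_monic hr (S.erase v)).ne_zero hb hz
  have hne : (D.poly (S.erase v)).eval z ≠ 0 := by
    intro h0
    have := hb z ((Polynomial.mem_roots (D.poly_monic hr (S.erase v)).ne_zero).mpr h0)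
    linarith
  have e : z + D.a v - D.F S v z =
      ((X + C (D.a v : ℂ)) * D.poly (S.erase v) - D.poly S).eval z / (D.poly (S.erase v)).eval z := by
    unfold F
    simp only [eval_sub, eval_mul, eval_add, eval_X, eval_C]
    field_simp
  rw [e]
  exact h

end PvData

end

end Claimed.Agent.R302
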