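/-
R302 / Poly / Comap  (owner: helper165)
Requested by the captain (Secs 5-6): pull back of the data along a map of sites, and the moments of the rooted measure
as limits of finitely many evaluations of `G` (measurability of moments).
-/
import Claimed.Agent.R302.Poly.Costs

set_option autoImplicit false

namespace Claimed.Agent.R302

open Finset Polynomial Filter
open scoped BigOperators ComplexConjugate Topology

noncomputable section

/-- pull back of the mixed determinant along a map which is injective on the principal set -/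
theorem pvMix_comap {V V' : Type*} [DecidableEq V] [DecidableEq V'] {J : Type*} [Fintype J]
    [DecidableEq J] (p : V → J → ℝ) (B : J → V → V → ℂ) (z : V → ℂ) (e : V' → V) (S' : Finset V')
    (he : Set.InjOn e S') :
    pvMix (fun u => p (e u)) (fun j u v => B j (e u) (e v)) S' (fun u => z (e u)) =
      pvMix p B (S'.image e) z := by
  let E : S' ≃ (S'.image e : Finset V) :=
    Equiv.ofBijective (fun a => ⟨e a.1, Finset.mem_image_of_mem e a.2⟩) (by
      constructor
      · intro a b hab
        exact Subtype.ext (he a.2 b.2 (congrArg Subtype.val hab))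
      · rintro ⟨w, hw⟩
        obtain ⟨u, hu, rfl⟩ := Finset.mem_image.1 hw
        exact ⟨⟨u, hu⟩, rfl⟩)
  rw [pvMix_eq_T p B (S'.image e) z, ← pvMixT_equiv E]
  rfl

theorem pv_geom_tail {z μ : ℂ} (hz : z ≠ 0) (hzμ : z - μ ≠ 0) (k : ℕ) :
    1 / (z - μ) - ∑ j ∈ range k, μ ^ j / z ^ (j + 1) = μ ^ k / (z ^ k * (z - μ)) := by
  induction k with
  | zero => simp
  | succ k ih =>
    rw [Finset.sum_range_succ, ← sub_sub, ih]
    field_simp
    ring

/-- moments of a residue family as limits of evaluations -/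
theorem isResW_pow_tendsto {D N : ℂ[X]} {w : ℂ → ℝ} (h : IsResW D N w) (hD0 : D ≠ 0) (k : ℕ) :
    Tendsto (fun n : ℕ => (n : ℂ) ^ (k + 1) *
        (N.eval (n : ℂ) / D.eval (n : ℂ) -
          ∑ j ∈ range k, (∑ μ ∈ D.roots.toFinset, (w μ : ℂ) * μ ^ j) / (n : ℂ) ^ (j + 1)))
      atTop (𝓝 (∑ μ ∈ D.roots.toFinset, (w μ : ℂ) * μ ^ k)) := by
  have h1 : Tendsto (fun n : ℕ => ∑ μ ∈ D.roots.toFinset, (w μ : ℂ) * μ ^ k * ((n : ℂ) / (n + -μ)))
      atTop (𝓝 (∑ μ ∈ D.roots.toFinset, (w μ : ℂ) * μ ^ k * 1)) :=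
    tendsto_finsetSum _ fun μ _ => (tendsto_natCast_div_add_atTop (-μ)).const_mul _
  simp only [mul_one] at h1
  refine h1.congr' ?_
  -- eventually `n` is not a root
  have hev : ∀ᶠ n : ℕ in atTop, (n : ℂ) ∉ D.roots.toFinset := by
    have hinj : Function.Injective (fun n : ℕ => (n : ℂ)) := Nat.cast_injective
    have hfin : {n : ℕ | (n : ℂ) ∈ D.roots.toFinset}.Finite :=
      (D.roots.toFinset.finite_toSet).preimage hinj.injOn
    have h5 := hfin.compl_mem_cofinite
    rw [Nat.cofinite_eq_atTop] at h5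
    exact h5
  filter_upwards [hev, eventually_ne_atTop 0] with n hn hn0
  have hz : (n : ℂ) ≠ 0 := by exact_mod_cast hn0
  have hDz : D.eval (n : ℂ) ≠ 0 := fun h0 => hn (Multiset.mem_toFinset.2 ((mem_roots hD0).2 h0))
  rw [h.2.2 _ hDz]
  simp_rw [Finset.sum_div]
  rw [Finset.sum_comm, ← Finset.sum_sub_distrib, Finset.mul_sum]
  refine Finset.sum_congr rfl fun μ hμ => ?_
  have hzμ : (n : ℂ) - μ ≠ 0 := sub_ne_zero.2 fun h0 => hn (h0 ▸ hμ)
  have h2 := pv_geom_tail hz hzμ k
  have h3 : (w μ : ℂ) / ((n : ℂ) - μ) - ∑ j ∈ range k, (w μ : ℂ) * μ ^ j / (n : ℂ) ^ (j + 1) =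
      (w μ : ℂ) * (1 / ((n : ℂ) - μ) - ∑ j ∈ range k, μ ^ j / (n : ℂ) ^ (j + 1)) := by
    rw [mul_sub, Finset.mul_sum]
    congr 1
    · ring
    · exact Finset.sum_congr rfl fun j _ => by ring
  rw [h3, h2, ← sub_eq_add_neg]
  field_simp
  ring

namespace PvData

variable {V V' : Type*} [DecidableEq V] [DecidableEq V'] {r : ℕ}

/-- pull back of the data along a map of sites -/
def comap (D : PvData V r) (e : V' → V) : PvData V' r where
  T u v := D.T (e u) (e v)
  W u := D.W (e u)
  c u := D.c (e u)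
  τ u := D.τ (e u)

theorem poly_comap (D : PvData V r) (e : V' → V) (S' : Finset V') (he : Set.InjOn e S') :
    (D.comap e).poly S' = D.poly (S'.image e) := by
  refine Polynomial.funext fun x => ?_
  unfold poly
  rw [pvPoly_eval, pvPoly_eval, ← pvMix_comap D.law D.ker (fun _ => x) e S' he]
  refine pvMix_congr (fun _ _ => rfl) (fun j u hu v hv => ?_) (fun _ _ => rfl)
  unfold ker a comap
  by_cases huv : u = v
  · subst huv; simp
  · have : e u ≠ e v := fun h => huv (he hu hv h)
    simp [huv, this]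

theorem image_erase_of_injOn (e : V' → V) {S' : Finset V'} (he : Set.InjOn e S') {v : V'}
    (hv : v ∈ S') : (S'.erase v).image e = (S'.image e).erase (e v) := by
  ext w
  simp only [Finset.mem_image, Finset.mem_erase]
  constructor
  · rintro ⟨u, ⟨hne, hu⟩, rfl⟩
    exact ⟨fun h => hne (he hu hv h), u, hu, rfl⟩
  · rintro ⟨hne, u, hu, rfl⟩
    exact ⟨u, ⟨fun h => hne (by rw [h]), hu⟩, rfl⟩

theorem poly_comap_erase (D : PvData V r) (e : V' → V) {S' : Finset V'} (he : Set.InjOn e S')
    {v : V'} (hv : v ∈ S') : (D.comap e).poly (S'.erase v) = D.poly ((S'.image e).erase (e v)) := by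
  rw [poly_comap D e _ (he.mono (by exact_mod_cast Finset.erase_subset v S')),
    image_erase_of_injOn e he hv]

theorem rho_comap (D : PvData V r) (e : V' → V) {S' : Finset V'} (he : Set.InjOn e S')
    {v : V'} (hv : v ∈ S') (f : ℝ → ℝ) : (D.comap e).rho S' v f = D.rho (S'.image e) (e v) f := by
  unfold rho
  rw [poly_comap D e S' he, poly_comap_erase D e he hv]

theorem kap_comap (D : PvData V r) (e : V' → V) {S' : Finset V'} (he : Set.InjOn e S')
    {v : V'} (hv : v ∈ S') (f : ℝ → ℝ) : (D.comap e).kap S' v f = D.kap (S'.image e) (e v) f := by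
  unfold kap
  rw [poly_comap D e S' he, poly_comap_erase D e he hv]
  rfl

theorem df_comap (D : PvData V r) (e : V' → V) {S' : Finset V'} (he : Set.InjOn e S')
    {v : V'} (hv : v ∈ S') (f : ℝ → ℝ) : (D.comap e).df S' v f = D.df (S'.image e) (e v) f := by
  unfold df
  rw [poly_comap D e S' he, poly_comap_erase D e he hv]

theorem m_comap (D : PvData V r) (e : V' → V) {S' : Finset V'} (he : Set.InjOn e S')
    {v : V'} (hv : v ∈ S') : (D.comap e).m S' v = D.m (S'.image e) (e v) :=
  rho_comap D e he hv _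

theorem d_comap (D : PvData V r) (e : V' → V) {S' : Finset V'} (he : Set.InjOn e S')
    {v : V'} (hv : v ∈ S') : (D.comap e).d S' v = D.d (S'.image e) (e v) :=
  df_comap D e he hv (fun x => max x 0)

theorem G_comap (D : PvData V r) (e : V' → V) {S' : Finset V'} (he : Set.InjOn e S')
    {v : V'} (hv : v ∈ S') (z : ℂ) : (D.comap e).G S' v z = D.G (S'.image e) (e v) z := by
  unfold G
  rw [poly_comap D e S' he, poly_comap_erase D e he hv]

theorem F_comap (D : PvData V r) (e : V' → V) {S' : Finset V'} (he : Set.InjOn e S')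
    {v : V'} (hv : v ∈ S') (z : ℂ) : (D.comap e).F S' v z = D.F (S'.image e) (e v) z := by
  unfold F
  rw [poly_comap D e S' he, poly_comap_erase D e he hv]

theorem comap_good {D : PvData V r} (hD : D.Good) {e : V' → V} (he : Function.Injective e) :
    (D.comap e).Good := by
  refine ⟨fun u v => hD.herm _ _, fun v => hD.zdiag _, fun S x => ?_, fun v => hD.Wpos _⟩
  have h := hD.contr (S.image e) (fun w => if h : ∃ u ∈ S, e u = w then x h.choose else 0)
  have hx : ∀ u ∈ S, (fun w => if h : ∃ u ∈ S, e u = w then x h.choose else 0) (e u) = x u := by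
    intro u hu
    have hex : ∃ u' ∈ S, e u' = e u := ⟨u, hu, rfl⟩
    simp only [dif_pos hex]
    rw [he hex.choose_spec.2]
  rw [Finset.sum_image (fun a _ b _ hab => he hab), Finset.sum_image (fun a _ b _ hab => he hab)] at h
  have e1 : ∑ u ∈ S, ∑ v ∈ S, conj (x u) * (D.comap e).T u v * x v =
      ∑ u ∈ S, ∑ w ∈ S.image e,
        conj ((fun w => if h : ∃ u ∈ S, e u = w then x h.choose else 0) (e u)) * D.T (e u) w *
          (fun w => if h : ∃ u ∈ S, e u = w then x h.choose else 0) w := by
    refine Finset.sum_congr rfl fun u hu => ?_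
    rw [Finset.sum_image (fun a _ b _ hab => he hab)]
    refine Finset.sum_congr rfl fun v hv => ?_
    rw [hx u hu, hx v hv]
    rfl
  rw [e1]
  refine h.trans (le_of_eq ?_)
  exact Finset.sum_congr rfl fun u hu => by
    have := hx u hu
    simp only at this
    rw [this]

theorem rho_pow_cast {D : PvData V r} (hD : D.Good) (hr : 0 < r) (S : Finset V) (v : V) (k : ℕ) :
    ((D.rho S v fun x => x ^ k : ℝ) : ℂ) = ∑ μ ∈ (D.poly S).roots.toFinset,
      (pvResW (D.poly S) (D.poly (S.erase v)) μ : ℂ) * μ ^ k := by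
  unfold rho pvRho
  push_cast
  refine Finset.sum_congr rfl fun μ hμ => ?_
  have : ((μ.re : ℝ) : ℂ) = μ :=
    Complex.ext rfl (by simp [poly_roots_real hD hr S μ (Multiset.mem_toFinset.1 hμ)])
  rw [this]

/-- the moments of the rooted measure are limits of finitely many evaluations of `G` -/
theorem rho_pow_tendsto {D : PvData V r} (hD : D.Good) (hr : 0 < r) {S : Finset V} {v : V}
    (hv : v ∈ S) (k : ℕ) :
    Tendsto (fun n : ℕ => (n : ℂ) ^ (k + 1) *
        (D.G S v n - ∑ j ∈ range k, ((D.rho S v fun x => x ^ j : ℝ) : ℂ) / (n : ℂ) ^ (j + 1)))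
      atTop (𝓝 ((D.rho S v fun x => x ^ k : ℝ) : ℂ)) := by
  simp_rw [rho_pow_cast hD hr]
  exact isResW_pow_tendsto (rho_spec hD hr hv) (D.poly_monic hr S).ne_zero k

end PvData

end

end Claimed.Agent.R302
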