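/-
R302 / Poly / PertA  (package Poly-Pert, helper247)
Tools for the analytic perturbation estimates: derivative estimate for functions with imaginary part in `[0, π]`,
logarithmic derivative of a quotient with positive imaginary part, choice of phases, derivative of `P_S` along a line
in the diagonal variables.
-/
import Claimed.Agent.R302.Poly.Costs

set_option autoImplicit false

namespace Claimed.Agent.R302

open Finset Polynomial
open scoped BigOperators ComplexConjugate

noncomputable section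

/-- Elementary derivative estimate (Borel-Caratheodory + Schwarz). -/
theorem pert_deriv_le_of_im_mem {f : ℂ → ℂ} {R : ℝ} (hR : 0 < R)
    (hf : DifferentiableOn ℂ f (Metric.ball 0 R))
    (him : ∀ ζ ∈ Metric.ball (0 : ℂ) R, (f ζ).im ∈ Set.Icc 0 Real.pi) :
    ‖deriv f 0‖ ≤ 4 * Real.pi / R := by
  set g : ℂ → ℂ := fun ζ => -Complex.I * (f ζ - f 0) with hg
  have h0 : (0 : ℂ) ∈ Metric.ball (0 : ℂ) R := Metric.mem_ball_self hR
  have hgd : DifferentiableOn ℂ g (Metric.ball 0 R) := (hf.sub_const _).const_mul _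
  have hg0 : g 0 = 0 := by simp [hg]
  have hmaps : Set.MapsTo g (Metric.ball 0 R) {w | w.re ≤ Real.pi} := by
    intro ζ hζ
    have h1 := him ζ hζ
    have h2 := him 0 h0
    simp only [hg, Set.mem_ofPred_eq, Complex.mul_re, Complex.neg_re, Complex.I_re, Complex.neg_im,
      Complex.I_im, Complex.sub_re, Complex.sub_im]
    linarith [h1.2, h2.1]
  have hbound : Set.MapsTo g (Metric.ball 0 (R / 2)) (Metric.closedBall (g 0) (2 * Real.pi)) := by
    intro ζ hζ
    have hζ' : ‖ζ‖ < R / 2 := by simpa using hζ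
    have hζR : ζ ∈ Metric.ball (0 : ℂ) R := by
      rw [mem_ball_zero_iff]; linarith
    have h1 := Complex.borelCaratheodory_zero Real.pi_pos hgd hmaps hR hζR hg0
    rw [hg0, mem_closedBall_zero_iff]
    refine h1.trans ?_
    rw [div_le_iff₀ (by linarith)]
    have := Real.pi_pos
    nlinarith [norm_nonneg ζ]
  have hder := Complex.norm_deriv_le_div_of_mapsTo_ball
    (hgd.mono (Metric.ball_subset_ball (by linarith))) hbound (by positivity : 0 < R / 2)
  have hfd : DifferentiableAt ℂ f 0 := hf.differentiableAt (Metric.isOpen_ball.mem_nhds h0)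
  have hgder : deriv g 0 = -Complex.I * deriv f 0 := by
    have : HasDerivAt g (-Complex.I * deriv f 0) 0 := (hfd.hasDerivAt.sub_const _).const_mul _
    exact this.deriv
  rw [hgder, norm_mul, norm_neg, Complex.norm_I, one_mul] at hder
  refine hder.trans (le_of_eq ?_)
  field_simp
  ring

/-- logarithmic derivative of a function with positive imaginary part -/
theorem pert_logDeriv_le {Φ : ℂ → ℂ} {R : ℝ} (hR : 0 < R)
    (hΦ : DifferentiableOn ℂ Φ (Metric.ball 0 R))
    (him : ∀ ζ ∈ Metric.ball (0 : ℂ) R, 0 < (Φ ζ).im) :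
    ‖deriv Φ 0 / Φ 0‖ ≤ 4 * Real.pi / R := by
  have h0 : (0 : ℂ) ∈ Metric.ball (0 : ℂ) R := Metric.mem_ball_self hR
  have hslit : ∀ ζ ∈ Metric.ball (0 : ℂ) R, Φ ζ ∈ Complex.slitPlane := fun ζ hζ =>
    Complex.mem_slitPlane_iff.2 (Or.inr (him ζ hζ).ne')
  have hf : DifferentiableOn ℂ (fun ζ => Complex.log (Φ ζ)) (Metric.ball 0 R) :=
    hΦ.clog hslit
  have h1 := pert_deriv_le_of_im_mem hR hf (fun ζ hζ => by
    rw [Complex.log_im]
    exact ⟨Complex.arg_nonneg_iff.2 (him ζ hζ).le, Complex.arg_le_pi _⟩)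
  have hd : HasDerivAt (fun ζ => Complex.log (Φ ζ)) (deriv Φ 0 / Φ 0) 0 :=
    (hΦ.differentiableAt (Metric.isOpen_ball.mem_nhds h0)).hasDerivAt.clog (hslit 0 h0)
  rwa [hd.deriv] at h1

/-- the same for a quotient -/
theorem pert_quot_bound {A B : ℂ → ℂ} {A' B' : ℂ} {R : ℝ} (hR : 0 < R)
    (hA : DifferentiableOn ℂ A (Metric.ball 0 R)) (hB : DifferentiableOn ℂ B (Metric.ball 0 R))
    (hB0 : ∀ ζ ∈ Metric.ball (0 : ℂ) R, B ζ ≠ 0)
    (him : ∀ ζ ∈ Metric.ball (0 : ℂ) R, 0 < (A ζ / B ζ).im)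
    (hA' : HasDerivAt A A' 0) (hB' : HasDerivAt B B' 0) :
    ‖A' / A 0 - B' / B 0‖ ≤ 4 * Real.pi / R := by
  have h0 : (0 : ℂ) ∈ Metric.ball (0 : ℂ) R := Metric.mem_ball_self hR
  have h1 := pert_logDeriv_le hR (hA.div hB hB0) him
  have hd : HasDerivAt (fun ζ => A ζ / B ζ) ((A' * B 0 - A 0 * B') / B 0 ^ 2) 0 :=
    hA'.div hB' (hB0 0 h0)
  have hA0 : A 0 ≠ 0 := by
    intro h
    have := him 0 h0
    rw [h, zero_div] at this
    simp at this
  have hB00 := hB0 0 h0
  have e : (fun ζ => A ζ / B ζ) = A / B := rfl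
  rw [← e, hd.deriv] at h1
  have : (A' * B 0 - A 0 * B') / B 0 ^ 2 / (A 0 / B 0) = A' / A 0 - B' / B 0 := by
    field_simp
  rwa [this] at h1

/-- choice of phases -/
theorem pert_sum_norm_le {ι : Type*} (s : Finset ι) (w : ι → ℂ) (C : ℝ)
    (h : ∀ lam : ι → ℂ, (∀ i, ‖lam i‖ ≤ 1) → (∀ i, w i = 0 → lam i = 0) →
      ‖∑ i ∈ s, lam i * w i‖ ≤ C) :
    ∑ i ∈ s, ‖w i‖ ≤ C := by
  have h1 := h (fun i => conj (w i) / ‖w i‖) (fun i => by
    rcases eq_or_ne (w i) 0 with h0 | h0
    · simp [h0]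
    · rw [norm_div, RCLike.norm_conj, Complex.norm_real, norm_norm, div_self (norm_ne_zero_iff.2 h0)])
    (fun i h0 => by simp [h0])
  have h2 : ∑ i ∈ s, conj (w i) / (‖w i‖ : ℂ) * w i = ((∑ i ∈ s, ‖w i‖ : ℝ) : ℂ) := by
    rw [Complex.ofReal_sum]
    refine Finset.sum_congr rfl fun i _ => ?_
    rcases eq_or_ne (w i) 0 with h0 | h0
    · simp [h0]
    · have hn : (‖w i‖ : ℂ) ≠ 0 := by exact_mod_cast norm_ne_zero_iff.2 h0
      rw [div_mul_eq_mul_div, Complex.conj_mul', div_eq_iff hn]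
      ring
  rw [h2, Complex.norm_real, Real.norm_of_nonneg (Finset.sum_nonneg fun i _ => norm_nonneg _)] at h1
  exact h1

section Line

variable {V : Type*} [DecidableEq V] {J : Type*} [Fintype J] [DecidableEq J]

/-- derivative of `P_S` along a line in the diagonal variables -/
theorem pert_hasDerivAt_line (p : V → J → ℝ) (B : J → V → V → ℂ) (S : Finset V) (z lam : V → ℂ)
    (hp : ∀ v ∈ S, ∑ j, p v j = 1) (ζ₀ : ℂ) :
    HasDerivAt (fun ζ : ℂ => pvMix p B S fun v => z v + ζ * lam v)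
      (∑ v ∈ S, lam v * pvMix p B (S.erase v) fun w => z w + ζ₀ * lam w) ζ₀ := by
  set z₀ : V → ℂ := fun w => z w + ζ₀ * lam w with hz₀
  have hfun : (fun ζ : ℂ => pvMix p B S fun v => z v + ζ * lam v) = fun ζ : ℂ =>
      ∑ R ∈ S.powerset, (ζ - ζ₀) ^ R.card * ((∏ v ∈ R, lam v) * pvMix p B (S \ R) z₀) := by
    funext ζ
    have h1 : (fun v => z v + ζ * lam v) = z₀ + fun v => (ζ - ζ₀) * lam v := by
      funext v
      simp only [hz₀, Pi.add_apply]
      ring
    rw [h1, pvMix_add p B S z₀ _ hp]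
    refine Finset.sum_congr rfl fun R _ => ?_
    rw [Finset.prod_mul_distrib, Finset.prod_const, mul_assoc]
  rw [hfun]
  have hterm : ∀ R ∈ S.powerset, HasDerivAt
      (fun ζ : ℂ => (ζ - ζ₀) ^ R.card * ((∏ v ∈ R, lam v) * pvMix p B (S \ R) z₀))
      ((if R.card = 1 then 1 else 0) * ((∏ v ∈ R, lam v) * pvMix p B (S \ R) z₀)) ζ₀ := by
    intro R _
    have h2 : HasDerivAt (fun ζ : ℂ => (ζ - ζ₀) ^ R.card)
        ((R.card : ℂ) * (ζ₀ - ζ₀) ^ (R.card - 1) * 1) ζ₀ :=
      ((hasDerivAt_id ζ₀).sub_const ζ₀).pow R.card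
    have h3 : ((R.card : ℂ) * (ζ₀ - ζ₀) ^ (R.card - 1) * 1) = if R.card = 1 then 1 else 0 := by
      rw [sub_self, mul_one]
      rcases Nat.lt_trichotomy R.card 1 with h | h | h
      · have : R.card = 0 := by omega
        simp [this]
      · simp [h]
      · have h3 : R.card - 1 ≠ 0 := by omega
        have h4 : R.card ≠ 1 := by omega
        simp [h3, h4]
    rw [h3] at h2
    exact h2.mul_const _
  have hsum := HasDerivAt.fun_sum hterm
  have hval : (∑ v ∈ S, lam v * pvMix p B (S.erase v) z₀) = ∑ R ∈ S.powerset,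
      (if R.card = 1 then 1 else 0) * ((∏ v ∈ R, lam v) * pvMix p B (S \ R) z₀) := by
    have hsub : S.image (fun v => ({v} : Finset V)) ⊆ S.powerset := by
      intro R hR
      obtain ⟨v, hv, rfl⟩ := Finset.mem_image.1 hR
      exact Finset.mem_powerset.2 (Finset.singleton_subset_iff.2 hv)
    rw [← Finset.sum_subset hsub]
    · rw [Finset.sum_image (fun a _ b _ h => Finset.singleton_injective h)]
      refine Finset.sum_congr rfl fun v _ => ?_
      simp [Finset.sdiff_singleton_eq_erase]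
    · intro R hR hR'
      have : R.card ≠ 1 := by
        intro hc
        obtain ⟨v, rfl⟩ := Finset.card_eq_one.1 hc
        exact hR' (Finset.mem_image.2
          ⟨v, Finset.singleton_subset_iff.1 (Finset.mem_powerset.1 hR), rfl⟩)
      simp [this]
  rw [hval]
  exact hsum

end Line

namespace PvData

variable {V : Type*} [DecidableEq V] {r : ℕ}

theorem pert_single_G {D : PvData V r} (hD : D.Good) (hr : 0 < r) {S : Finset V} {u : V} (hu : u ∈ S)
    {z : ℂ} (hz : 0 < z.im) :
    ‖D.G S u z‖ + ∑ v ∈ S.erase u, ‖D.G S v z - D.G (S.erase u) v z‖ ≤ 8 * Real.pi / z.im := by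
  set w : V → ℂ := fun v => if v = u then D.G S u z else D.G S v z - D.G (S.erase u) v z with hw
  have hLHS : ‖D.G S u z‖ + ∑ v ∈ S.erase u, ‖D.G S v z - D.G (S.erase u) v z‖ = ∑ v ∈ S, ‖w v‖ := by
    rw [← Finset.add_sum_erase S _ hu]
    congr 1
    · simp [hw]
    · refine Finset.sum_congr rfl fun v hv => ?_
      simp [hw, Finset.ne_of_mem_erase hv]
  rw [hLHS]
  refine pert_sum_norm_le S w _ fun lam hlam _ => ?_
  have hp := D.law_prob hr S
  have hB : PvImLe D.ker S 0 := (ker_herm hD).imLe S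
  have hsub : S.erase u ⊆ S := Finset.erase_subset _ _
  have hR : 0 < z.im / 2 := by positivity
  have him : ∀ ζ ∈ Metric.ball (0 : ℂ) (z.im / 2), ∀ v : V, 0 < (z + ζ * lam v).im := by
    intro ζ hζ v
    have h1 : ‖ζ * lam v‖ < z.im / 2 := by
      rw [norm_mul]
      have : ‖ζ‖ < z.im / 2 := by simpa using hζ
      calc ‖ζ‖ * ‖lam v‖ ≤ ‖ζ‖ * 1 := by gcongr; exact hlam v
        _ < z.im / 2 := by rwa [mul_one]
    have h2 := Complex.abs_im_le_norm (ζ * lam v)
    rw [Complex.add_im]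
    have := (abs_le.1 h2).1
    linarith
  have key := pert_quot_bound (A := fun ζ : ℂ => pvMix D.law D.ker S fun v => z + ζ * lam v)
    (B := fun ζ : ℂ => pvMix D.law D.ker (S.erase u) fun v => z + ζ * lam v) hR
    (fun ζ _ => (pert_hasDerivAt_line D.law D.ker S (fun _ => z) lam
      (fun v hv => (hp v hv).2) ζ).differentiableAt.differentiableWithinAt)
    (fun ζ _ => (pert_hasDerivAt_line D.law D.ker (S.erase u) (fun _ => z) lam
      (fun v hv => (hp v (hsub hv)).2) ζ).differentiableAt.differentiableWithinAt)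
    (fun ζ hζ => pvMix_ne_zero (hp.mono hsub) (hB.mono hsub) (fun v _ => him ζ hζ v))
    (fun ζ hζ => lt_of_lt_of_le (by simpa using him ζ hζ u)
      (pvMix_quot_im hp hB (fun v _ => him ζ hζ v) hu))
    (pert_hasDerivAt_line D.law D.ker S (fun _ => z) lam (fun v hv => (hp v hv).2) 0)
    (pert_hasDerivAt_line D.law D.ker (S.erase u) (fun _ => z) lam
      (fun v hv => (hp v (hsub hv)).2) 0)
  have hconst : (4 * Real.pi / (z.im / 2)) = 8 * Real.pi / z.im := by
    field_simp
    ring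
  rw [hconst] at key
  refine le_of_eq_of_le (congrArg _ ?_) key
  simp only [zero_mul, add_zero]
  rw [Finset.sum_div, Finset.sum_div, ← Finset.add_sum_erase S _ hu, ← Finset.add_sum_erase S _ hu,
    add_sub_assoc, ← Finset.sum_sub_distrib]
  congr 1
  · simp only [hw, if_true, G, poly_eval, P]
    ring
  · refine Finset.sum_congr rfl fun v hv => ?_
    simp only [hw, if_neg (Finset.ne_of_mem_erase hv), G, poly_eval, P]
    ring

end PvData

end

end Claimed.Agent.R302
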