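/-
R302 / Poly / PertB  (package Poly-Pert, helper247)
Matrix calculus for the colour perturbation (5.10) of paper Q: derivative of a determinant along a polynomial curve
(Jacobi), two sided diagonal scaling of the off-diagonal part.
-/
import Claimed.Agent.R302.Poly.PertA
import Claimed.Agent.R302.MSS.DetPoly

set_option autoImplicit false

namespace Claimed.Agent.R302

open Finset Polynomial
open scoped BigOperators ComplexConjugate

noncomputable section

section Mat

variable {n : Type*} [Fintype n] [DecidableEq n]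

/-- the determinant along a quadratic curve of matrices is a polynomial, with Jacobi's derivative at `0` -/
theorem pert_det_curve (N K₁ K₂ : Matrix n n ℂ) :
    ∃ q : ℂ[X], (∀ ζ : ℂ, (N + ζ • K₁ + ζ ^ 2 • K₂).det = q.eval ζ) ∧
      (derivative q).eval 0 = (N.adjugate * K₁).trace := by
  set M : Matrix n n ℂ[X] := N.map C + (X : ℂ[X]) • K₁.map C + (X : ℂ[X]) ^ 2 • K₂.map C with hM
  have hmap : ∀ ζ : ℂ, (evalRingHom ζ).mapMatrix M = N + ζ • K₁ + ζ ^ 2 • K₂ := by
    intro ζ
    refine Matrix.ext fun a b => ?_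
    simp [hM]
    ring
  refine ⟨M.det, fun ζ => ?_, ?_⟩
  · rw [← hmap ζ, ← RingHom.map_det]
    rfl
  · have hJ := mss_jacobi ((Polynomial.derivative' : Derivation ℂ ℂ[X] ℂ[X]).restrictScalars ℤ) M
    have hJ' : derivative M.det = (M.adjugate * M.map (fun p => derivative p)).trace := hJ
    rw [hJ']
    have h3 := AddMonoidHom.map_trace (evalRingHom (0 : ℂ)).toAddMonoidHom
      (M.adjugate * M.map (fun p => derivative p))
    have h4 : (M.adjugate * M.map (fun p => derivative p)).map (evalRingHom (0 : ℂ)).toAddMonoidHom =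
        N.adjugate * K₁ := by
      have h5 := (evalRingHom (0 : ℂ)).mapMatrix.map_mul M.adjugate (M.map (fun p => derivative p))
      have h6 : (evalRingHom (0 : ℂ)).mapMatrix (M.map (fun p => derivative p)) = K₁ := by
        refine Matrix.ext fun a b => ?_
        simp [hM]
      have h7 : (evalRingHom (0 : ℂ)).mapMatrix M = N := by
        rw [hmap]; simp
      rw [h6, RingHom.map_adjugate, h7] at h5
      exact h5
    rw [h4] at h3
    exact h3

theorem pert_hasDerivAt_det (N K₁ K₂ : Matrix n n ℂ) :
    HasDerivAt (fun ζ : ℂ => (N + ζ • K₁ + ζ ^ 2 • K₂).det) ((N.adjugate * K₁).trace) 0 := by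
  obtain ⟨q, hq, hq'⟩ := pert_det_curve N K₁ K₂
  have : (fun ζ : ℂ => (N + ζ • K₁ + ζ ^ 2 • K₂).det) = fun ζ => q.eval ζ := funext hq
  rw [this, ← hq']
  exact q.hasDerivAt 0

theorem pert_differentiable_det (N K₁ K₂ : Matrix n n ℂ) :
    Differentiable ℂ (fun ζ : ℂ => (N + ζ • K₁ + ζ ^ 2 • K₂).det) := by
  obtain ⟨q, hq, -⟩ := pert_det_curve N K₁ K₂
  have : (fun ζ : ℂ => (N + ζ • K₁ + ζ ^ 2 • K₂).det) = fun ζ => q.eval ζ := funext hq
  rw [this]
  exact q.differentiable

/-- removing a diagonal entry -/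
theorem pert_det_sub_single (N : Matrix n n ℂ) (v : n) (x : ℂ) :
    (N - Matrix.single v v x).det = N.det - x * N.adjugate v v := by
  have h1 : Matrix.single v v x = Matrix.vecMulVec (Pi.single v x) (Pi.single v 1) := by
    refine Matrix.ext fun a b => ?_
    rw [Matrix.single_apply, Matrix.vecMulVec_apply, Pi.single_apply, Pi.single_apply]
    by_cases ha : a = v
    · by_cases hb : b = v
      · simp [ha, hb]
      · simp [ha, hb, Ne.symm hb]
    · simp [ha, Ne.symm ha]
  rw [h1, mss_det_sub_vecMulVec, Matrix.mul_vecMulVec, Matrix.trace_vecMulVec]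
  congr 1
  simp [dotProduct, Matrix.mulVec, Pi.single_apply, mul_comm]

theorem pert_scaling_expand (d l : n → ℂ) (Off : Matrix n n ℂ) (ζ : ℂ) :
    Matrix.diagonal d - (1 + ζ • Matrix.diagonal l) * Off * (1 + ζ • Matrix.diagonal l) =
      (Matrix.diagonal d - Off) + ζ • (-(Matrix.diagonal l * Off + Off * Matrix.diagonal l)) +
        ζ ^ 2 • (-(Matrix.diagonal l * Off * Matrix.diagonal l)) := by
  simp only [add_mul, mul_add, one_mul, mul_one, Matrix.smul_mul, Matrix.mul_smul, smul_add, smul_neg,
    smul_smul, pow_two]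
  abel

/-- two sided diagonal scaling of the off-diagonal part: derivative of the determinant -/
theorem pert_hasDerivAt_scaling (d l : n → ℂ) (Off : Matrix n n ℂ) :
    HasDerivAt (fun ζ : ℂ => (Matrix.diagonal d -
        (1 + ζ • Matrix.diagonal l) * Off * (1 + ζ • Matrix.diagonal l)).det)
      (2 * ∑ v, l v * (Matrix.diagonal d - Off - Matrix.single v v (d v)).det) 0 := by
  set N := Matrix.diagonal d - Off with hN
  set L := Matrix.diagonal l with hL
  have hfun : (fun ζ : ℂ => (Matrix.diagonal d - (1 + ζ • L) * Off * (1 + ζ • L)).det) =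
      fun ζ : ℂ => (N + ζ • (-(L * Off + Off * L)) + ζ ^ 2 • (-(L * Off * L))).det := by
    funext ζ
    congr 1
    rw [hN]
    simp only [add_mul, mul_add, one_mul, mul_one, Matrix.smul_mul, Matrix.mul_smul, smul_add, smul_neg,
      smul_smul, pow_two]
    abel
  rw [hfun]
  have h1 := pert_hasDerivAt_det N (-(L * Off + Off * L)) (-(L * Off * L))
  convert h1 using 1
  have hOff : Off = Matrix.diagonal d - N := by rw [hN]; abel
  have e1 : (N.adjugate * (L * Off)).trace = ∑ v, l v * (d v * N.adjugate v v - N.det) := by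
    rw [← Matrix.mul_assoc, Matrix.trace_mul_comm, ← Matrix.mul_assoc, hOff, Matrix.sub_mul,
      Matrix.mul_adjugate, Matrix.sub_mul, Matrix.trace_sub]
    simp only [Matrix.trace, Matrix.diag_apply, hL, Matrix.mul_diagonal, Matrix.diagonal_mul,
      Matrix.smul_apply, Matrix.one_apply_eq, smul_eq_mul, mul_one]
    rw [← Finset.sum_sub_distrib]
    refine Finset.sum_congr rfl fun v _ => ?_
    ring
  have e2 : (N.adjugate * (Off * L)).trace = ∑ v, l v * (d v * N.adjugate v v - N.det) := by
    rw [← Matrix.mul_assoc, hOff, Matrix.mul_sub, Matrix.adjugate_mul, Matrix.sub_mul, Matrix.trace_sub]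
    simp only [Matrix.trace, Matrix.diag_apply, hL, Matrix.mul_diagonal,
      Matrix.smul_apply, Matrix.one_apply_eq, smul_eq_mul, mul_one]
    rw [← Finset.sum_sub_distrib]
    refine Finset.sum_congr rfl fun v _ => ?_
    ring
  rw [Matrix.mul_neg, Matrix.trace_neg, Matrix.mul_add, Matrix.trace_add, e1, e2, ← two_mul, ← mul_neg,
    ← Finset.sum_neg_distrib]
  congr 1
  refine Finset.sum_congr rfl fun v _ => ?_
  rw [pert_det_sub_single]
  ring

end Mat

end

end Claimed.Agent.R302
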