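/-
R302 / Poly / PertC  (package Poly-Pert, helper247)
The colour perturbation `kerPert` and formula (5.10) of paper Q: derivative of `P_S` under the perturbation.
-/
import Claimed.Agent.R302.Poly.PertB

set_option autoImplicit false

namespace Claimed.Agent.R302

open Finset Polynomial
open scoped BigOperators ComplexConjugate

noncomputable section

namespace PvData

variable {V : Type*} [DecidableEq V] {r : ℕ}

/-- kernels with the colour-`i` off-diagonal parts scaled on both sides by `1 + ζ λ_v` -/
def kerPert (D : PvData V r) (i : Fin r) (lam : V → ℂ) (ζ : ℂ) (j : PvOpt r) (u v : V) : ℂ :=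
  if j.1 = i then
    sgn j * ((1 + ζ * lam u) * ((Real.sqrt (D.W u) : ℂ) * D.T u v * (Real.sqrt (D.W v) : ℂ)) *
      (1 + ζ * lam v)) - (if u = v then (D.a v : ℂ) else 0)
  else D.ker j u v

/-- off-diagonal part of the outcome matrix -/
def pertOff (D : PvData V r) (S : Finset V) (ω : S → PvOpt r) : Matrix S S ℂ :=
  Matrix.of fun a b => if ω a = ω b then
    sgn (ω a) * ((Real.sqrt (D.W a) : ℂ) * D.T a b * (Real.sqrt (D.W b) : ℂ)) else 0

/-- the outcome matrix of the perturbed kernels -/
theorem pert_outMat (D : PvData V r) (i : Fin r) (lam : V → ℂ) (ζ : ℂ) (S : Finset V)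
    (ω : S → PvOpt r) (z : ℂ) :
    Matrix.diagonal (fun _ : S => z) - pvOutMat (D.kerPert i lam ζ) S ω =
      Matrix.diagonal (fun a : S => z + D.a a) -
        (1 + ζ • Matrix.diagonal (fun a : S => if (ω a).1 = i then lam a else 0)) * D.pertOff S ω *
          (1 + ζ • Matrix.diagonal (fun a : S => if (ω a).1 = i then lam a else 0)) := by
  have h1 : (1 + ζ • Matrix.diagonal (fun a : S => if (ω a).1 = i then lam a else 0)) =
      Matrix.diagonal (fun a : S => 1 + ζ * (if (ω a).1 = i then lam a else 0)) := by
    rw [← Matrix.diagonal_one, ← Matrix.diagonal_smul, Matrix.diagonal_add]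
    rfl
  rw [h1]
  refine Matrix.ext fun a b => ?_
  rw [Matrix.sub_apply, Matrix.sub_apply, Matrix.mul_diagonal, Matrix.diagonal_mul]
  simp only [pvOutMat, pertOff, Matrix.of_apply, Matrix.diagonal_apply, kerPert, ker]
  by_cases hab : a = b
  · subst hab
    by_cases hi : (ω a).1 = i
    · simp only [if_true, hi]
      ring
    · simp only [if_true, hi, if_false]
      ring
  · have hab' : (a : V) ≠ b := fun h => hab (Subtype.ext h)
    by_cases hω : ω a = ω b
    · by_cases hi : (ω a).1 = i
      · have hi' : (ω b).1 = i := hω ▸ hi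
        simp only [if_neg hab, if_neg hab', if_pos hω, if_pos hi, if_pos hi']
        ring
      · have hi' : ¬ (ω b).1 = i := hω ▸ hi
        simp only [if_neg hab, if_neg hab', if_pos hω, if_neg hi, if_neg hi']
        ring
    · simp only [if_neg hab, if_neg hω]
      ring

/-- removing the diagonal entry at `a` = evaluating at `z_a = -a_a` -/
theorem pert_outMat_single (D : PvData V r) (S : Finset V) (ω : S → PvOpt r) (z : ℂ) (a : S) :
    Matrix.diagonal (fun b : S => z + D.a b) - D.pertOff S ω - Matrix.single a a (z + D.a a) =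
      Matrix.diagonal (fun b : S => Function.update (fun _ : V => z) (a : V) (-(D.a a : ℂ)) b) -
        pvOutMat D.ker S ω := by
  refine Matrix.ext fun b c => ?_
  simp only [Matrix.sub_apply, pvOutMat, pertOff, Matrix.of_apply, Matrix.diagonal_apply, ker,
    Matrix.single_apply, Function.update_apply]
  by_cases hbc : b = c
  · subst hbc
    by_cases hba : b = a
    · subst hba
      simp
      ring
    · have hba' : (b : V) ≠ a := fun h => hba (Subtype.ext h)
      simp only [if_true, if_neg hba', Ne.symm hba, false_and, if_false]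
      ring
  · have hbc' : (b : V) ≠ c := fun h => hbc (Subtype.ext h)
    have h3 : ¬ (a = b ∧ a = c) := fun h => hbc (h.1.symm.trans h.2)
    simp only [if_neg hbc, if_neg hbc', if_neg h3]
    by_cases hω : ω b = ω c
    · simp only [if_pos hω]; ring
    · simp only [if_neg hω]; ring

theorem cond_law_of_ne (D : PvData V r) {v u : V} (i : Fin r) (h : u ≠ v) :
    (D.cond v i).law u = D.law u := by
  funext j
  simp only [law, cond, Function.update_of_ne h]

theorem cond_law_self (D : PvData V r) (v : V) (i : Fin r) (j : PvOpt r) :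
    (D.cond v i).law v j = if j.1 = i then 1 / 2 else 0 := by
  simp only [law, cond, Function.update_self]

omit [DecidableEq V] in
theorem law_of_none (D : PvData V r) {v : V} (h : D.c v = none) (j : PvOpt r) :
    D.law v j = 1 / (2 * (r : ℝ)) := by
  simp only [law, h]

/-- restricting the product law to colour `i` at an unassigned site -/
theorem pert_wt_cond (D : PvData V r) (hr : 0 < r) {S : Finset V} {v : V} (hv : v ∈ S)
    (hc : D.c v = none) (i : Fin r) (ω : S → PvOpt r) :
    pvWt D.law S ω * (if (ω ⟨v, hv⟩).1 = i then 1 else 0) =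
      (1 / (r : ℂ)) * pvWt (D.cond v i).law S ω := by
  have hr' : (r : ℂ) ≠ 0 := by exact_mod_cast hr.ne'
  rw [pvWt_split D.law hv, pvWt_split (D.cond v i).law hv, cond_law_self, law_of_none D hc]
  have h1 : ∏ u ∈ (univ : Finset S).erase ⟨v, hv⟩, ((D.cond v i).law u (ω u) : ℂ) =
      ∏ u ∈ (univ : Finset S).erase ⟨v, hv⟩, (D.law u (ω u) : ℂ) := by
    refine Finset.prod_congr rfl fun u hu => ?_
    rw [cond_law_of_ne D i (fun h => Finset.ne_of_mem_erase hu (Subtype.ext h))]
  rw [h1]
  by_cases hi : (ω ⟨v, hv⟩).1 = i
  · simp only [if_pos hi]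
    push_cast
    field_simp
  · simp only [if_neg hi]
    simp

/-- the perturbed polynomial is an entire function of `ζ` -/
theorem pert_differentiable_kerPert (D : PvData V r) (p : V → PvOpt r → ℝ) (S : Finset V) (i : Fin r)
    (lam : V → ℂ) (z : ℂ) :
    Differentiable ℂ (fun ζ : ℂ => pvMix p (D.kerPert i lam ζ) S fun _ => z) := by
  unfold pvMix
  refine Differentiable.fun_sum fun ω _ => (differentiable_const _).mul ?_
  simp_rw [pert_outMat]
  have h := fun ζ : ℂ => congrArg Matrix.det (pert_scaling_expand (fun a : S => z + D.a a)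
    (fun a : S => if (ω a).1 = i then lam a else 0) (D.pertOff S ω) ζ)
  simp_rw [h]
  exact pert_differentiable_det _ _ _

/-- (5.10): derivative of `P_S` under the colour perturbation -/
theorem hasDerivAt_kerPert {D : PvData V r} (_hD : D.Good) (hr : 0 < r) (S : Finset V) (i : Fin r)
    (lam : V → ℂ) (hlam : ∀ v ∈ S, D.c v ≠ none → lam v = 0) (z : ℂ) :
    HasDerivAt (fun ζ : ℂ => pvMix D.law (D.kerPert i lam ζ) S fun _ => z)
      (2 / (r : ℂ) * ∑ v ∈ S, lam v *
        (((D.cond v i).poly S).eval z - (z + D.a v) * (D.poly (S.erase v)).eval z)) 0 := by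
  have hr' : (r : ℂ) ≠ 0 := by exact_mod_cast hr.ne'
  -- derivative of every outcome
  have hterm : ∀ ω ∈ (univ : Finset (S → PvOpt r)), HasDerivAt
      (fun ζ : ℂ => pvWt D.law S ω *
        (Matrix.diagonal (fun _ : S => z) - pvOutMat (D.kerPert i lam ζ) S ω).det)
      (pvWt D.law S ω * (2 * ∑ a : S, (if (ω a).1 = i then lam a else 0) *
        (Matrix.diagonal (fun b : S => Function.update (fun _ : V => z) (a : V) (-(D.a a : ℂ)) b) -
          pvOutMat D.ker S ω).det)) 0 := by
    intro ω _
    refine HasDerivAt.const_mul _ ?_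
    simp_rw [pert_outMat, ← pert_outMat_single]
    exact pert_hasDerivAt_scaling _ _ _
  have hsum := HasDerivAt.fun_sum hterm
  unfold pvMix
  refine hsum.congr_deriv ?_
  symm
  -- reorganise the sum
  have hsite : ∀ a : S, lam a * (((D.cond a i).poly S).eval z -
      (z + D.a a) * (D.poly (S.erase a)).eval z) =
      (r : ℂ) * ∑ ω : S → PvOpt r, pvWt D.law S ω * ((if (ω a).1 = i then lam a else 0) *
        (Matrix.diagonal (fun b : S => Function.update (fun _ : V => z) (a : V) (-(D.a a : ℂ)) b) -
          pvOutMat D.ker S ω).det) := by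
    intro a
    by_cases hc : D.c a = none
    · have h1 : ∀ ω : S → PvOpt r, pvWt D.law S ω * ((if (ω a).1 = i then lam a else 0) *
          (Matrix.diagonal (fun b : S => Function.update (fun _ : V => z) (a : V) (-(D.a a : ℂ)) b) -
            pvOutMat D.ker S ω).det) = (lam a / r) * (pvWt (D.cond a i).law S ω *
          (Matrix.diagonal (fun b : S => Function.update (fun _ : V => z) (a : V) (-(D.a a : ℂ)) b) -
            pvOutMat D.ker S ω).det) := by
        intro ω
        have h2 := pert_wt_cond D hr a.2 hc i ω
        have h3 : (if (ω a).1 = i then lam a else 0) = (if (ω ⟨a, a.2⟩).1 = i then 1 else 0) * lam a := by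
          by_cases hi : (ω a).1 = i
          · simp [hi]
          · simp [hi]
        rw [h3, ← mul_assoc, ← mul_assoc, h2]
        ring
      simp_rw [h1]
      rw [← Finset.mul_sum]
      have h4 : ∑ ω : S → PvOpt r, pvWt (D.cond a i).law S ω *
          (Matrix.diagonal (fun b : S => Function.update (fun _ : V => z) (a : V) (-(D.a a : ℂ)) b) -
            pvOutMat D.ker S ω).det =
          pvMix (D.cond a i).law D.ker S (Function.update (fun _ : V => z) (a : V) (-(D.a a : ℂ))) := rfl
      have h5 := pvMix_update_add (D.cond a i).law D.ker (fun _ : V => z) a.2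
        (((D.cond a i).law_prob hr S) a a.2).2 (-(z + D.a a))
      have h6 : z + -(z + (D.a a : ℂ)) = -(D.a a : ℂ) := by ring
      rw [h6] at h5
      have h7 : pvMix (D.cond a i).law D.ker (S.erase a) (fun _ : V => z) =
          (D.poly (S.erase a)).eval z := by
        rw [poly_eval]
        exact pvMix_congr (fun v hv => cond_law_of_ne D i (Finset.ne_of_mem_erase hv))
          (fun _ _ _ _ _ => rfl) (fun _ _ => rfl)
      have h8 : pvMix (D.cond a i).law D.ker S (fun _ : V => z) = ((D.cond a i).poly S).eval z := by
        rw [poly_eval]; rfl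
      rw [h4, h5, h7, h8]
      field_simp
      ring
    · rw [hlam a a.2 hc]
      simp
  rw [← Finset.sum_coe_sort S (fun v => lam v * (((D.cond v i).poly S).eval z -
    (z + D.a v) * (D.poly (S.erase v)).eval z))]
  simp_rw [hsite]
  rw [← Finset.mul_sum, Finset.sum_comm, ← mul_assoc, div_mul_cancel₀ _ hr', Finset.mul_sum]
  refine Finset.sum_congr rfl fun ω _ => ?_
  rw [Finset.mul_sum, Finset.mul_sum, Finset.mul_sum]
  refine Finset.sum_congr rfl fun a _ => ?_
  ring

end PvData

end

end Claimed.Agent.R302
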