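/-
R302 / Poly / PertD  (package Poly-Pert, helper247)
Sesquilinear forms of Hermitian kernels on finite sets: polarisation, `|⟨y, T x⟩| ≤ (t |x|² + |y|² / t) / 2` from the
numerical bound `|⟨x, T x⟩| ≤ |x|²`.
-/
import Claimed.Agent.R302.Poly.PertC

set_option autoImplicit false

namespace Claimed.Agent.R302

open Finset Polynomial
open scoped BigOperators ComplexConjugate

noncomputable section

section Form

variable {V : Type*}

/-- the sesquilinear form of a kernel on a finite set -/
def pertForm (T : V → V → ℂ) (S : Finset V) (y x : V → ℂ) : ℂ :=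
  ∑ u ∈ S, ∑ v ∈ S, conj (y u) * T u v * x v

/-- squared norm on a finite set -/
def pertN (S : Finset V) (x : V → ℂ) : ℝ := ∑ u ∈ S, ‖x u‖ ^ 2

theorem pertN_nonneg (S : Finset V) (x : V → ℂ) : 0 ≤ pertN S x :=
  Finset.sum_nonneg fun _ _ => by positivity

theorem pertForm_add_right (T : V → V → ℂ) (S : Finset V) (y x x' : V → ℂ) :
    pertForm T S y (x + x') = pertForm T S y x + pertForm T S y x' := by
  simp only [pertForm, Pi.add_apply, mul_add, Finset.sum_add_distrib]

theorem pertForm_add_left (T : V → V → ℂ) (S : Finset V) (y y' x : V → ℂ) :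
    pertForm T S (y + y') x = pertForm T S y x + pertForm T S y' x := by
  simp only [pertForm, Pi.add_apply, map_add, add_mul, Finset.sum_add_distrib]

theorem pertForm_smul_right (T : V → V → ℂ) (S : Finset V) (c : ℂ) (y x : V → ℂ) :
    pertForm T S y (c • x) = c * pertForm T S y x := by
  simp only [pertForm, Pi.smul_apply, smul_eq_mul, Finset.mul_sum]
  refine Finset.sum_congr rfl fun u _ => Finset.sum_congr rfl fun v _ => ?_
  ring

theorem pertForm_smul_left (T : V → V → ℂ) (S : Finset V) (c : ℂ) (y x : V → ℂ) :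
    pertForm T S (c • y) x = conj c * pertForm T S y x := by
  simp only [pertForm, Pi.smul_apply, smul_eq_mul, Finset.mul_sum, map_mul]
  refine Finset.sum_congr rfl fun u _ => Finset.sum_congr rfl fun v _ => ?_
  ring

theorem pertForm_conj {T : V → V → ℂ} (hT : ∀ u v, T u v = conj (T v u)) (S : Finset V)
    (y x : V → ℂ) : conj (pertForm T S y x) = pertForm T S x y := by
  simp only [pertForm, map_sum, map_mul, Complex.conj_conj]
  rw [Finset.sum_comm]
  refine Finset.sum_congr rfl fun u _ => Finset.sum_congr rfl fun v _ => ?_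
  rw [← hT u v]
  ring

theorem pertN_smul (S : Finset V) (c : ℂ) (x : V → ℂ) : pertN S (c • x) = ‖c‖ ^ 2 * pertN S x := by
  simp only [pertN, Pi.smul_apply, smul_eq_mul, norm_mul, mul_pow, Finset.mul_sum]

theorem pertN_parallelogram (S : Finset V) (x y : V → ℂ) :
    pertN S (x + y) + pertN S (x + (-1 : ℂ) • y) = 2 * pertN S x + 2 * pertN S y := by
  simp only [pertN, Finset.mul_sum, ← Finset.sum_add_distrib]
  refine Finset.sum_congr rfl fun u _ => ?_
  have := parallelogram_law_with_norm ℂ (x u) (y u)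
  simp only [Pi.add_apply, Pi.smul_apply, smul_eq_mul, neg_mul, one_mul, ← sub_eq_add_neg]
  nlinarith [this]

/-- real part of the form: polarisation -/
theorem pertForm_re_le {T : V → V → ℂ} (hT : ∀ u v, T u v = conj (T v u)) {S : Finset V}
    (hc : ∀ x : V → ℂ, ‖pertForm T S x x‖ ≤ pertN S x) (y x : V → ℂ) :
    (pertForm T S y x).re ≤ (pertN S x + pertN S y) / 2 := by
  have h1 : pertForm T S (x + y) (x + y) - pertForm T S (x + (-1 : ℂ) • y) (x + (-1 : ℂ) • y) =
      2 * (pertForm T S y x + pertForm T S x y) := by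
    simp only [pertForm_add_left, pertForm_add_right, pertForm_smul_left, pertForm_smul_right, map_neg,
      map_one]
    ring
  have h2 : (pertForm T S y x + pertForm T S x y).re = 2 * (pertForm T S y x).re := by
    rw [← pertForm_conj hT S y x, Complex.add_re, Complex.conj_re]
    ring
  have h3 := congrArg Complex.re h1
  rw [Complex.sub_re, Complex.mul_re, h2] at h3
  simp only [Complex.re_ofNat, Complex.im_ofNat, zero_mul, sub_zero] at h3
  have h4 := (Complex.abs_re_le_norm _).trans (hc (x + y))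
  have h5 := (Complex.abs_re_le_norm _).trans (hc (x + (-1 : ℂ) • y))
  have h6 := pertN_parallelogram S x y
  have h7 := (abs_le.1 h4).2
  have h8 := (abs_le.1 h5).1
  linarith

/-- the form is bounded by the arithmetic mean -/
theorem pertForm_norm_le {T : V → V → ℂ} (hT : ∀ u v, T u v = conj (T v u)) {S : Finset V}
    (hc : ∀ x : V → ℂ, ‖pertForm T S x x‖ ≤ pertN S x) (y x : V → ℂ) :
    ‖pertForm T S y x‖ ≤ (pertN S x + pertN S y) / 2 := by
  set b := pertForm T S y x with hb
  rcases eq_or_ne b 0 with h0 | h0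
  · rw [h0, norm_zero]
    have := pertN_nonneg S x
    have := pertN_nonneg S y
    positivity
  have hn : (‖b‖ : ℂ) ≠ 0 := by exact_mod_cast norm_ne_zero_iff.2 h0
  set θ : ℂ := b / ‖b‖ with hθ
  have hθn : ‖θ‖ = 1 := by
    rw [hθ, norm_div, Complex.norm_real, norm_norm, div_self (norm_ne_zero_iff.2 h0)]
  have h1 := pertForm_re_le hT hc (θ • y) x
  rw [pertForm_smul_left, pertN_smul, hθn, one_pow, one_mul, ← hb] at h1
  have h2 : conj θ * b = (‖b‖ : ℂ) := by
    rw [hθ, map_div₀, Complex.conj_ofReal, div_mul_eq_mul_div, Complex.conj_mul', div_eq_iff hn]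
    ring
  rw [h2, Complex.ofReal_re] at h1
  exact h1

/-- weighted version -/
theorem pertForm_norm_le_weighted {T : V → V → ℂ} (hT : ∀ u v, T u v = conj (T v u)) {S : Finset V}
    (hc : ∀ x : V → ℂ, ‖pertForm T S x x‖ ≤ pertN S x) (y x : V → ℂ) {s : ℝ} (hs : 0 < s) :
    ‖pertForm T S y x‖ ≤ (s ^ 2 * pertN S x + pertN S y / s ^ 2) / 2 := by
  have h1 := pertForm_norm_le hT hc (((s⁻¹ : ℝ) : ℂ) • y) (((s : ℝ) : ℂ) • x)
  rw [pertForm_smul_left, pertForm_smul_right, pertN_smul, pertN_smul, Complex.conj_ofReal,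
    ← mul_assoc, ← Complex.ofReal_mul, inv_mul_cancel₀ hs.ne', Complex.ofReal_one, one_mul,
    Complex.norm_real, Complex.norm_real, Real.norm_of_nonneg hs.le,
    Real.norm_of_nonneg (inv_nonneg.2 hs.le)] at h1
  refine h1.trans (le_of_eq ?_)
  field_simp

/-- weighted version, parameter `t = s ^ 2` -/
theorem pertForm_norm_le_weighted' {T : V → V → ℂ} (hT : ∀ u v, T u v = conj (T v u)) {S : Finset V}
    (hc : ∀ x : V → ℂ, ‖pertForm T S x x‖ ≤ pertN S x) (y x : V → ℂ) {t : ℝ} (ht : 0 < t) :
    ‖pertForm T S y x‖ ≤ (t * pertN S x + pertN S y / t) / 2 := by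
  have h := pertForm_norm_le_weighted hT hc y x (Real.sqrt_pos.2 ht)
  rwa [Real.sq_sqrt ht.le] at h

theorem pertForm_congr {T : V → V → ℂ} {S : Finset V} {y y' x x' : V → ℂ}
    (h : ∀ u ∈ S, ∀ v ∈ S, conj (y u) * T u v * x v = conj (y' u) * T u v * x' v) :
    pertForm T S y x = pertForm T S y' x' :=
  Finset.sum_congr rfl fun u hu => Finset.sum_congr rfl fun v hv => h u hu v hv

theorem pertN_le_mul {S : Finset V} {y x : V → ℂ} {c : ℝ}
    (h : ∀ u ∈ S, ‖y u‖ ^ 2 ≤ c * ‖x u‖ ^ 2) : pertN S y ≤ c * pertN S x := by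
  unfold pertN
  rw [Finset.mul_sum]
  exact Finset.sum_le_sum h

end Form

end

end Claimed.Agent.R302
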