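/-
R302 / Poly / PertE  (package Poly-Pert, helper247)
Norm bound (5.9) of paper Q for the colour perturbation, in the form `PvImLe`.
-/
import Claimed.Agent.R302.Poly.PertD

set_option autoImplicit false

namespace Claimed.Agent.R302

open Finset Polynomial
open scoped BigOperators ComplexConjugate

noncomputable section

namespace PvData

variable {V : Type*} [DecidableEq V] {r : ℕ}

theorem kerPert_zero (D : PvData V r) (i : Fin r) (lam : V → ℂ) : D.kerPert i lam 0 = D.ker := by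
  funext j u v
  unfold kerPert ker
  split_ifs <;> simp

theorem norm_sgn (j : PvOpt r) : ‖sgn j‖ = 1 := by
  unfold sgn
  split_ifs <;> simp

/-- the quadratic form of the perturbed kernel -/
theorem pert_form_kerPert (D : PvData V r) (i : Fin r) (lam : V → ℂ) (ζ : ℂ) (S : Finset V)
    (j : PvOpt r) (hj : j.1 = i) (x : V → ℂ) :
    pertForm (D.kerPert i lam ζ j) S x x = pertForm (D.ker j) S x x + sgn j *
      (ζ * pertForm D.T S (fun u => conj (lam u) * ((Real.sqrt (D.W u) : ℂ) * x u))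
          (fun v => (Real.sqrt (D.W v) : ℂ) * x v) +
        ζ * pertForm D.T S (fun u => (Real.sqrt (D.W u) : ℂ) * x u)
          (fun v => lam v * ((Real.sqrt (D.W v) : ℂ) * x v)) +
        ζ ^ 2 * pertForm D.T S (fun u => conj (lam u) * ((Real.sqrt (D.W u) : ℂ) * x u))
          (fun v => lam v * ((Real.sqrt (D.W v) : ℂ) * x v))) := by
  simp only [pertForm, Finset.mul_sum, ← Finset.sum_add_distrib]
  refine Finset.sum_congr rfl fun u _ => Finset.sum_congr rfl fun v _ => ?_
  simp only [kerPert, if_pos hj, ker, map_mul, Complex.conj_conj, Complex.conj_ofReal]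
  ring

/-- norm bound (5.9) for the perturbation, as a bound on the imaginary parts of the quadratic forms -/
theorem pert_imLe {D : PvData V r} (hD : D.Good) (i : Fin r) {S U : Finset V} {b₂ K : ℝ}
    (hb₂ : 0 < b₂) (hK : 1 ≤ K) (hUW : ∀ v ∈ U, D.W v ≤ b₂)
    (hUn : ∀ v ∈ U, ∀ w ∈ S, D.T v w ≠ 0 → D.W w ≤ K * b₂)
    (lam : V → ℂ) (hlam : ∀ v, ‖lam v‖ ≤ 1) (hlamU : ∀ v, v ∉ U → lam v = 0) (ζ : ℂ) :
    PvImLe (D.kerPert i lam ζ) S (2 * ‖ζ‖ * Real.sqrt K * b₂ + ‖ζ‖ ^ 2 * b₂) := by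
  intro j x
  change (pertForm (D.kerPert i lam ζ j) S x x).im ≤ _ * pertN S x
  have hN := pertN_nonneg S x
  have hker : (pertForm (D.ker j) S x x).im ≤ 0 := by
    have := (ker_herm hD).imLe S j x
    rwa [zero_mul] at this
  have hK0 : 0 < K := by linarith
  set κ := Real.sqrt K with hκ
  have hκ0 : 0 < κ := Real.sqrt_pos.2 hK0
  have hκ2 : κ * κ = K := Real.mul_self_sqrt hK0.le
  by_cases hj : j.1 = i
  · rw [pert_form_kerPert D i lam ζ S j hj x, Complex.add_im]
    set x₁ : V → ℂ := fun v => (Real.sqrt (D.W v) : ℂ) * x v with hx₁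
    set y₁ : V → ℂ := fun u => conj (lam u) * ((Real.sqrt (D.W u) : ℂ) * x u) with hy₁
    set y₂ : V → ℂ := fun v => lam v * ((Real.sqrt (D.W v) : ℂ) * x v) with hy₂
    set x₁' : V → ℂ := fun v => if D.W v ≤ K * b₂ then x₁ v else 0 with hx₁'
    have hc : ∀ x : V → ℂ, ‖pertForm D.T S x x‖ ≤ pertN S x := fun x => hD.contr S x
    have hsq : ∀ v, ‖((Real.sqrt (D.W v) : ℂ) * x v)‖ ^ 2 = D.W v * ‖x v‖ ^ 2 := by
      intro v
      rw [norm_mul, mul_pow, Complex.norm_real, Real.norm_of_nonneg (Real.sqrt_nonneg _),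
        Real.sq_sqrt (hD.Wpos v).le]
    have hNy : ∀ c : V → ℂ, (∀ v, ‖c v‖ = ‖lam v‖) →
        pertN S (fun u => c u * ((Real.sqrt (D.W u) : ℂ) * x u)) ≤ b₂ * pertN S x := by
      intro c hcl
      refine pertN_le_mul fun u _ => ?_
      rw [norm_mul, mul_pow, hsq, hcl]
      by_cases hu : u ∈ U
      · have h1 : ‖lam u‖ ^ 2 ≤ 1 := pow_le_one₀ (norm_nonneg _) (hlam u)
        have h2 := hUW u hu
        have h3 := (hD.Wpos u).le
        have h4 : 0 ≤ ‖x u‖ ^ 2 := by positivity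
        calc ‖lam u‖ ^ 2 * (D.W u * ‖x u‖ ^ 2) ≤ 1 * (b₂ * ‖x u‖ ^ 2) := by gcongr
          _ = b₂ * ‖x u‖ ^ 2 := one_mul _
      · rw [hlamU u hu]
        simp
        positivity
    have hNy₁ : pertN S y₁ ≤ b₂ * pertN S x := hNy _ (fun v => RCLike.norm_conj _)
    have hNy₂ : pertN S y₂ ≤ b₂ * pertN S x := hNy _ (fun v => rfl)
    have hNx : pertN S x₁' ≤ K * b₂ * pertN S x := by
      refine pertN_le_mul fun u _ => ?_
      simp only [hx₁']
      split_ifs with h
      · rw [hx₁, hsq]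
        gcongr
      · simp
        positivity
    have e1 : pertForm D.T S y₁ x₁ = pertForm D.T S y₁ x₁' := by
      refine pertForm_congr fun u _ v hv => ?_
      by_cases hu : u ∈ U
      · by_cases hT : D.T u v = 0
        · simp [hT]
        · simp only [hx₁', if_pos (hUn u hu v hv hT)]
      · simp [hy₁, hlamU u hu]
    have e2 : pertForm D.T S x₁ y₂ = pertForm D.T S x₁' y₂ := by
      refine pertForm_congr fun u hu' v _ => ?_
      by_cases hv : v ∈ U
      · by_cases hT : D.T u v = 0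
        · simp [hT]
        · have hT' : D.T v u ≠ 0 := by
            intro h
            apply hT
            rw [hD.herm u v, h, map_zero]
          simp only [hx₁', if_pos (hUn v hv u hu' hT')]
      · simp [hy₂, hlamU v hv]
    have b1 : ‖pertForm D.T S y₁ x₁‖ ≤ κ * b₂ * pertN S x := by
      rw [e1]
      refine (pertForm_norm_le_weighted' hD.herm hc y₁ x₁' (inv_pos.2 hκ0)).trans ?_
      have h1 : κ⁻¹ * pertN S x₁' ≤ κ * b₂ * pertN S x := by
        calc κ⁻¹ * pertN S x₁' ≤ κ⁻¹ * (K * b₂ * pertN S x) := by gcongr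
          _ = κ * b₂ * pertN S x := by rw [← hκ2]; field_simp
      have h2 : pertN S y₁ / κ⁻¹ ≤ κ * b₂ * pertN S x := by
        rw [div_inv_eq_mul]
        calc pertN S y₁ * κ ≤ (b₂ * pertN S x) * κ := by gcongr
          _ = κ * b₂ * pertN S x := by ring
      linarith
    have b2 : ‖pertForm D.T S x₁ y₂‖ ≤ κ * b₂ * pertN S x := by
      rw [e2]
      refine (pertForm_norm_le_weighted' hD.herm hc x₁' y₂ hκ0).trans ?_
      have h1 : pertN S x₁' / κ ≤ κ * b₂ * pertN S x := by
        rw [div_le_iff₀ hκ0]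
        calc pertN S x₁' ≤ K * b₂ * pertN S x := hNx
          _ = κ * b₂ * pertN S x * κ := by rw [← hκ2]; ring
      have h2 : κ * pertN S y₂ ≤ κ * b₂ * pertN S x := by
        calc κ * pertN S y₂ ≤ κ * (b₂ * pertN S x) := by gcongr
          _ = κ * b₂ * pertN S x := by ring
      linarith
    have b3 : ‖pertForm D.T S y₁ y₂‖ ≤ b₂ * pertN S x := by
      refine (pertForm_norm_le hD.herm hc y₁ y₂).trans ?_
      linarith
    have hpert : ‖sgn j * (ζ * pertForm D.T S y₁ x₁ + ζ * pertForm D.T S x₁ y₂ +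
        ζ ^ 2 * pertForm D.T S y₁ y₂)‖ ≤ (2 * ‖ζ‖ * κ * b₂ + ‖ζ‖ ^ 2 * b₂) * pertN S x := by
      rw [norm_mul, norm_sgn, one_mul]
      refine (norm_add₃_le).trans ?_
      rw [norm_mul, norm_mul, norm_mul, norm_pow]
      have hζ := norm_nonneg ζ
      have t1 : ‖ζ‖ * ‖pertForm D.T S y₁ x₁‖ ≤ ‖ζ‖ * (κ * b₂ * pertN S x) := by gcongr
      have t2 : ‖ζ‖ * ‖pertForm D.T S x₁ y₂‖ ≤ ‖ζ‖ * (κ * b₂ * pertN S x) := by gcongr
      have t3 : ‖ζ‖ ^ 2 * ‖pertForm D.T S y₁ y₂‖ ≤ ‖ζ‖ ^ 2 * (b₂ * pertN S x) := by gcongr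
      nlinarith
    have := (Complex.abs_im_le_norm _).trans hpert
    have := (abs_le.1 this).2
    linarith
  · have : D.kerPert i lam ζ j = D.ker j := by
      funext u v
      simp only [kerPert, if_neg hj]
    rw [this]
    refine hker.trans ?_
    have := norm_nonneg ζ
    positivity

end PvData

end

end Claimed.Agent.R302
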