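/-
R302 / Poly / PertF  (package Poly-Pert, helper247)
The field `J_i` and the single deletion estimate (5.11) of paper Q.
-/
import Claimed.Agent.R302.Poly.PertE

set_option autoImplicit false

namespace Claimed.Agent.R302

open Finset Polynomial
open scoped BigOperators ComplexConjugate

noncomputable section

namespace PvData

variable {V : Type*} [DecidableEq V] {r : ℕ}

/-- the auxiliary field `J_i(v,z) = (F⁰_{v,i}(z) - z - a_v) G_v(z)` -/
def Jf (D : PvData V r) (S : Finset V) (i : Fin r) (v : V) (z : ℂ) : ℂ :=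
  ((D.cond v i).F S v z - z - D.a v) * D.G S v z

theorem poly_eval_ne_zero {D : PvData V r} (hD : D.Good) (hr : 0 < r) (S : Finset V) {z : ℂ}
    (hz : 0 < z.im) : (D.poly S).eval z ≠ 0 := by
  rw [poly_eval]
  exact pvMix_ne_zero (D.law_prob hr S) ((ker_herm hD).imLe S) (fun _ _ => hz)

theorem pert_cond_poly_erase (D : PvData V r) (S : Finset V) (v : V) (i : Fin r) (z : ℂ) :
    ((D.cond v i).poly (S.erase v)).eval z = (D.poly (S.erase v)).eval z := by
  rw [poly_eval, poly_eval]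
  exact pvMix_congr (fun u hu => cond_law_of_ne D i (Finset.ne_of_mem_erase hu))
    (fun _ _ _ _ _ => rfl) (fun _ _ => rfl)

/-- `J_i(v,z) = (P⁰_{v,i} - (z + a_v) Q_v) / P` -/
theorem Jf_eq {D : PvData V r} (hD : D.Good) (hr : 0 < r) (S : Finset V) (i : Fin r) (v : V) {z : ℂ}
    (hz : 0 < z.im) :
    D.Jf S i v z = (((D.cond v i).poly S).eval z - (z + D.a v) * (D.poly (S.erase v)).eval z) /
      (D.poly S).eval z := by
  have h1 := poly_eval_ne_zero hD hr (S.erase v) hz
  have h2 := poly_eval_ne_zero hD hr S hz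
  unfold Jf F G
  rw [pert_cond_poly_erase]
  field_simp
  ring

/-- (5.11) single deletion, field `J_i`, targets = unassigned sites of weight `≤ b₂` whose neighbours have
weight `≤ K b₂`; the deleted site `u` is not a target.  The constant does not depend on the other weights. -/
theorem single_J {D : PvData V r} (hD : D.Good) (hr : 0 < r) {S : Finset V} {u : V} (hu : u ∈ S)
    (i : Fin r) {b₂ K : ℝ} (hb₂ : 0 < b₂) (hK : 1 ≤ K) (U : Finset V) (hU : U ⊆ S.erase u)
    (hUc : ∀ v ∈ U, D.c v = none) (hUW : ∀ v ∈ U, D.W v ≤ b₂)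
    (hUn : ∀ v ∈ U, ∀ w ∈ S, D.T v w ≠ 0 → D.W w ≤ K * b₂) {z : ℂ} (hz : 0 < z.im) :
    ∑ v ∈ U, ‖D.Jf S i v z - D.Jf (S.erase u) i v z‖ ≤
      2 * Real.pi * r * (8 * Real.sqrt K * b₂ / z.im + 4) := by
  refine pert_sum_norm_le U _ _ fun lam₀ hlam₀ _ => ?_
  set lam : V → ℂ := fun v => if v ∈ U then lam₀ v else 0 with hlamdef
  have hlam : ∀ v, ‖lam v‖ ≤ 1 := by
    intro v
    simp only [hlamdef]
    split_ifs
    · exact hlam₀ v
    · simp
  have hlamU : ∀ v, v ∉ U → lam v = 0 := fun v hv => by simp only [hlamdef, if_neg hv]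
  have hsub : S.erase u ⊆ S := Finset.erase_subset _ _
  have hUS : U ⊆ S := hU.trans hsub
  have hp := D.law_prob hr S
  have hr' : (r : ℂ) ≠ 0 := by exact_mod_cast hr.ne'
  have hrR : (0 : ℝ) < r := by exact_mod_cast hr
  set y := z.im with hy
  set κ := Real.sqrt K with hκ
  have hκ1 : 1 ≤ κ := by
    rw [hκ]; exact Real.one_le_sqrt.2 hK
  set c := 8 * κ * b₂ / y + 4 with hc
  have hc0 : 0 < c := by positivity
  set R := 1 / c with hRdef
  have hR : 0 < R := by positivity
  -- the perturbation is small on the disc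
  have hsmall : ∀ ζ ∈ Metric.ball (0 : ℂ) R, 2 * ‖ζ‖ * κ * b₂ + ‖ζ‖ ^ 2 * b₂ < y / 2 := by
    intro ζ hζ
    have hζ' : ‖ζ‖ < R := by simpa using hζ
    have hζ0 := norm_nonneg ζ
    have h1 : R * (8 * κ * b₂) ≤ y := by
      rw [hRdef, one_div, inv_mul_le_iff₀ hc0, hc]
      have : 8 * κ * b₂ / y * y = 8 * κ * b₂ := by field_simp
      nlinarith [this]
    have h2 : R ≤ 1 / 4 := by
      rw [hRdef]
      apply one_div_le_one_div_of_le (by norm_num)
      rw [hc]
      have : 0 ≤ 8 * κ * b₂ / y := by positivity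
      linarith
    have h3 : ‖ζ‖ * (8 * κ * b₂) < y := by
      refine lt_of_lt_of_le ?_ h1
      have : 0 < 8 * κ * b₂ := by positivity
      exact mul_lt_mul_of_pos_right hζ' this
    have h4 : ‖ζ‖ ^ 2 * b₂ ≤ ‖ζ‖ * (κ * b₂) := by
      have : ‖ζ‖ ≤ 1 := by linarith
      have h5 : ‖ζ‖ ^ 2 ≤ ‖ζ‖ * κ := by
        rw [pow_two]
        gcongr
        linarith
      calc ‖ζ‖ ^ 2 * b₂ ≤ ‖ζ‖ * κ * b₂ := by gcongr
        _ = ‖ζ‖ * (κ * b₂) := by ring
    nlinarith
  have hIm : ∀ ζ ∈ Metric.ball (0 : ℂ) R, PvImLe (D.kerPert i lam ζ) S (y / 2) := by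
    intro ζ hζ j x
    refine (pert_imLe hD i hb₂ hK hUW hUn lam hlam hlamU ζ j x).trans ?_
    exact mul_le_mul_of_nonneg_right (hsmall ζ hζ).le (Finset.sum_nonneg fun _ _ => by positivity)
  have hzy : y / 2 < z.im := by rw [← hy]; linarith
  have hl : ∀ S' : Finset V, ∀ v ∈ S', D.c v ≠ none → lam v = 0 := by
    intro S' v _ hcv
    exact hlamU v (fun hvU => hcv (hUc v hvU))
  have key := pert_quot_bound
    (A := fun ζ : ℂ => pvMix D.law (D.kerPert i lam ζ) S fun _ => z)
    (B := fun ζ : ℂ => pvMix D.law (D.kerPert i lam ζ) (S.erase u) fun _ => z) hR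
    (D.pert_differentiable_kerPert D.law S i lam z).differentiableOn
    (D.pert_differentiable_kerPert D.law (S.erase u) i lam z).differentiableOn
    (fun ζ hζ => pvMix_ne_zero (hp.mono hsub) ((hIm ζ hζ).mono hsub) (fun _ _ => hzy))
    (fun ζ hζ => lt_of_lt_of_le (by linarith)
      (pvMix_quot_im hp (hIm ζ hζ) (fun _ _ => hzy) hu))
    (hasDerivAt_kerPert hD hr S i lam (hl S) z)
    (hasDerivAt_kerPert hD hr (S.erase u) i lam (hl _) z)
  simp only [kerPert_zero] at key
  have hA0 : pvMix D.law D.ker S (fun _ => z) = (D.poly S).eval z := (poly_eval D S z).symm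
  have hB0 : pvMix D.law D.ker (S.erase u) (fun _ => z) = (D.poly (S.erase u)).eval z :=
    (poly_eval D (S.erase u) z).symm
  rw [hA0, hB0] at key
  -- rewrite the logarithmic derivatives with `Jf`
  have hsumS : ∀ S' : Finset V, U ⊆ S' →
      2 / (r : ℂ) * (∑ v ∈ S', lam v * (((D.cond v i).poly S').eval z -
        (z + D.a v) * (D.poly (S'.erase v)).eval z)) / (D.poly S').eval z =
      2 / (r : ℂ) * ∑ v ∈ U, lam₀ v * D.Jf S' i v z := by
    intro S' hUS'
    rw [mul_div_assoc, Finset.sum_div, ← Finset.sum_subset hUS']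
    · congr 1
      refine Finset.sum_congr rfl fun v hv => ?_
      rw [Jf_eq hD hr S' i v hz, mul_div_assoc]
      simp only [hlamdef, if_pos hv]
    · intro v _ hv
      rw [hlamU v hv]
      simp
  rw [hsumS S hUS, hsumS (S.erase u) hU, ← mul_sub, ← Finset.sum_sub_distrib, norm_mul] at key
  have hnorm : ‖(2 : ℂ) / (r : ℂ)‖ = 2 / (r : ℝ) := by
    rw [norm_div, Complex.norm_natCast]
    simp
  rw [hnorm] at key
  have hsum : ∑ v ∈ U, lam₀ v * (D.Jf S i v z - D.Jf (S.erase u) i v z) =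
      ∑ v ∈ U, (lam₀ v * D.Jf S i v z - lam₀ v * D.Jf (S.erase u) i v z) :=
    Finset.sum_congr rfl fun v _ => by ring
  rw [hsum]
  have h4 : 4 * Real.pi / R = 4 * Real.pi * c := by
    rw [hRdef]; field_simp
  rw [h4] at key
  have h5 : ‖∑ v ∈ U, (lam₀ v * D.Jf S i v z - lam₀ v * D.Jf (S.erase u) i v z)‖ ≤
      (r : ℝ) / 2 * (4 * Real.pi * c) := by
    have : ‖∑ v ∈ U, (lam₀ v * D.Jf S i v z - lam₀ v * D.Jf (S.erase u) i v z)‖ =
        (r : ℝ) / 2 * (2 / (r : ℝ) *
          ‖∑ v ∈ U, (lam₀ v * D.Jf S i v z - lam₀ v * D.Jf (S.erase u) i v z)‖) := by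
      field_simp
    rw [this]
    gcongr
  refine h5.trans (le_of_eq ?_)
  ring

end PvData

end

end Claimed.Agent.R302
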