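/-
R302 / Poly / PertG  (package Poly-Pert, helper247)
The Poisson kernel: integrals over half lines, polar form of `x + i y - m`.
-/
import Claimed.Agent.R302.Poly.PertF

set_option autoImplicit false

namespace Claimed.Agent.R302

open Finset Polynomial MeasureTheory Filter Topology
open scoped BigOperators ComplexConjugate

noncomputable section

/-- the Poisson kernel (times `π`) -/
def pertPois (x y s : ℝ) : ℝ := y / ((x - s) ^ 2 + y ^ 2)

theorem pertPois_nonneg (x : ℝ) {y : ℝ} (hy : 0 < y) (s : ℝ) : 0 ≤ pertPois x y s := by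
  unfold pertPois; positivity

theorem pertPois_hasDerivAt (x : ℝ) {y : ℝ} (hy : 0 < y) (s : ℝ) :
    HasDerivAt (fun s => Real.arctan ((s - x) / y)) (pertPois x y s) s := by
  have h1 : HasDerivAt (fun s : ℝ => (s - x) / y) (1 / y) s :=
    ((hasDerivAt_id s).sub_const x).div_const y
  have h2 := h1.arctan
  convert h2 using 1
  unfold pertPois
  field_simp
  ring

theorem pertPois_integrable (x : ℝ) {y : ℝ} (hy : 0 < y) : Integrable (pertPois x y) := by
  have h1 := ((integrable_inv_one_add_sq.comp_mul_left' (inv_ne_zero hy.ne')).comp_sub_right x).const_mul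
    y⁻¹
  refine h1.congr (Eventually.of_forall fun s => ?_)
  simp only [pertPois]
  field_simp
  ring

theorem pertPois_tendsto_atBot (x : ℝ) {y : ℝ} (hy : 0 < y) :
    Tendsto (fun s => Real.arctan ((s - x) / y)) atBot (𝓝 (-(Real.pi / 2))) := by
  refine (tendsto_nhds_of_tendsto_nhdsWithin Real.tendsto_arctan_atBot).comp ?_
  exact (tendsto_atBot_add_const_right _ (-x) tendsto_id).atBot_div_const hy

theorem pertPois_tendsto_atTop (x : ℝ) {y : ℝ} (hy : 0 < y) :
    Tendsto (fun s => Real.arctan ((s - x) / y)) atTop (𝓝 (Real.pi / 2)) := by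
  refine (tendsto_nhds_of_tendsto_nhdsWithin Real.tendsto_arctan_atTop).comp ?_
  exact (tendsto_atTop_add_const_right _ (-x) tendsto_id).atTop_div_const hy

theorem pertPois_integral (x : ℝ) {y : ℝ} (hy : 0 < y) : ∫ s, pertPois x y s = Real.pi := by
  rw [integral_of_hasDerivAt_of_tendsto (pertPois_hasDerivAt x hy) (pertPois_integrable x hy)
    (pertPois_tendsto_atBot x hy) (pertPois_tendsto_atTop x hy)]
  ring

/-- the angle under which the half line `(-∞, m)` is seen -/
theorem pertPois_integral_lt (x : ℝ) {y : ℝ} (hy : 0 < y) (m : ℝ) :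
    ∫ s, pertPois x y s * (if s < m then 1 else 0) = Real.pi / 2 + Real.arctan ((m - x) / y) := by
  have h1 : (fun s => pertPois x y s * (if s < m then (1 : ℝ) else 0)) =
      (Set.Iio m).indicator (pertPois x y) := by
    funext s
    by_cases hs : s < m
    · simp [hs]
    · simp [hs]
  rw [h1, integral_indicator measurableSet_Iio, ← integral_Iic_eq_integral_Iio,
    integral_Iic_of_hasDerivAt_of_tendsto' (fun s _ => pertPois_hasDerivAt x hy s)
      (pertPois_integrable x hy).integrableOn (pertPois_tendsto_atBot x hy)]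
  ring

theorem pertPois_integrable_lt (x : ℝ) {y : ℝ} (hy : 0 < y) (m : ℝ) :
    Integrable fun s => pertPois x y s * (if s < m then 1 else 0) := by
  have h1 : (fun s => pertPois x y s * (if s < m then (1 : ℝ) else 0)) =
      (Set.Iio m).indicator (pertPois x y) := by
    funext s
    by_cases hs : s < m
    · simp [hs]
    · simp [hs]
  rw [h1]
  exact (pertPois_integrable x hy).indicator measurableSet_Iio

/-- polar form of `x + i y - m` -/
theorem pert_polar (x : ℝ) {y : ℝ} (hy : 0 < y) (m : ℝ) :
    ((x : ℂ) + y * Complex.I - m) = (Real.sqrt ((x - m) ^ 2 + y ^ 2) : ℂ) *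
      Complex.exp (((Real.pi / 2 + Real.arctan ((m - x) / y) : ℝ) : ℂ) * Complex.I) := by
  set t := (m - x) / y with ht
  have h1 : (x - m) ^ 2 + y ^ 2 = y ^ 2 * (1 + t ^ 2) := by
    rw [ht]; field_simp; ring
  have h2 : Real.sqrt ((x - m) ^ 2 + y ^ 2) = y * Real.sqrt (1 + t ^ 2) := by
    rw [h1, Real.sqrt_mul (by positivity), Real.sqrt_sq hy.le]
  have h3 : 0 < Real.sqrt (1 + t ^ 2) := Real.sqrt_pos.2 (by positivity)
  rw [Complex.exp_mul_I, ← Complex.ofReal_cos, ← Complex.ofReal_sin, Real.cos_add, Real.sin_add,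
    Real.cos_pi_div_two, Real.sin_pi_div_two, Real.sin_arctan, Real.cos_arctan, h2]
  apply Complex.ext
  · simp only [Complex.sub_re, Complex.add_re, Complex.ofReal_re, Complex.mul_re, Complex.I_re,
      Complex.I_im, Complex.ofReal_im, Complex.add_im, Complex.mul_im]
    rw [ht]
    field_simp
    ring
  · simp only [Complex.sub_im, Complex.add_im, Complex.ofReal_im, Complex.mul_im, Complex.I_re,
      Complex.I_im, Complex.ofReal_re, Complex.add_re, Complex.mul_re]
    field_simp
    ring

end

end Claimed.Agent.R302
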