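/-
R302 / Poly / PertH  (package Poly-Pert, helper247)
Formula (6.9) of paper Q: the argument of `F = P_S / P_{S - v}` is the Poisson integral of the spectral shift.
-/
import Claimed.Agent.R302.Poly.PertG

set_option autoImplicit false

namespace Claimed.Agent.R302

open Finset Polynomial MeasureTheory Filter Topology
open scoped BigOperators ComplexConjugate

noncomputable section

/-- products of linear factors with real roots: polar form, the angle is the Poisson integral of the counting
function -/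
theorem pert_prod_polar (x : ℝ) {y : ℝ} (hy : 0 < y) (M : Multiset ℂ) :
    (∀ μ ∈ M, μ.im = 0) →
    Integrable (fun s => pertPois x y s * (Multiset.card (M.filter fun w : ℂ => s < w.re) : ℝ)) ∧
    ∃ ρ : ℝ, 0 < ρ ∧ (M.map fun μ => ((x : ℂ) + y * Complex.I - μ)).prod = (ρ : ℂ) *
      Complex.exp (((∫ s, pertPois x y s * (Multiset.card (M.filter fun w : ℂ => s < w.re) : ℝ) : ℝ) : ℂ) *
        Complex.I) := by
  induction M using Multiset.induction_on with
  | empty =>
    intro _
    refine ⟨by simp, 1, one_pos, by simp⟩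
  | cons μ M ih =>
    intro hM
    obtain ⟨hint, ρ, hρ, hprod⟩ := ih (fun ν hν => hM ν (Multiset.mem_cons_of_mem hν))
    have hμ : μ = (μ.re : ℂ) := by
      apply Complex.ext
      · simp
      · simp [hM μ (Multiset.mem_cons_self μ M)]
    have hfun : (fun s => pertPois x y s *
        (Multiset.card ((μ ::ₘ M).filter fun w : ℂ => s < w.re) : ℝ)) =
        fun s => pertPois x y s * (if s < μ.re then 1 else 0) +
          pertPois x y s * (Multiset.card (M.filter fun w : ℂ => s < w.re) : ℝ) := by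
      funext s
      by_cases hs : s < μ.re
      · rw [Multiset.filter_cons_of_pos (p := fun w : ℂ => s < w.re) _ hs, Multiset.card_cons, if_pos hs]
        push_cast
        ring
      · rw [Multiset.filter_cons_of_neg (p := fun w : ℂ => s < w.re) _ hs, if_neg hs]
        ring
    refine ⟨?_, Real.sqrt ((x - μ.re) ^ 2 + y ^ 2) * ρ, ?_, ?_⟩
    · rw [hfun]
      exact (pertPois_integrable_lt x hy μ.re).add hint
    · have : 0 < Real.sqrt ((x - μ.re) ^ 2 + y ^ 2) := Real.sqrt_pos.2 (by positivity)
      positivity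
    · rw [hfun, integral_add (pertPois_integrable_lt x hy μ.re) hint, pertPois_integral_lt x hy,
        Multiset.map_cons, Multiset.prod_cons, hprod]
      conv_lhs => rw [hμ, pert_polar x hy μ.re]
      push_cast
      rw [add_mul (_ + _ : ℂ), Complex.exp_add]
      ring

namespace PvData

variable {V : Type*} [DecidableEq V] {r : ℕ}

/-- (6.9): argument of the quotient = Poisson integral of the spectral shift -/
theorem pert_arg_F {D : PvData V r} (hD : D.Good) (hr : 0 < r) {S : Finset V} {v : V} (hv : v ∈ S)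
    (x : ℝ) {y : ℝ} (hy : 0 < y) :
    Complex.arg (D.F S v (x + y * Complex.I)) =
      ∫ s : ℝ, y / ((x - s) ^ 2 + y ^ 2) *
        ((pvCount (D.poly S) s : ℝ) - (pvCount (D.poly (S.erase v)) s : ℝ)) := by
  obtain ⟨hi1, ρ₁, hρ₁, hp1⟩ := pert_prod_polar x hy (D.poly S).roots (poly_roots_real hD hr S)
  obtain ⟨hi2, ρ₂, hρ₂, hp2⟩ := pert_prod_polar x hy (D.poly (S.erase v)).roots
    (poly_roots_real hD hr (S.erase v))
  have he1 : (D.poly S).eval ((x : ℂ) + y * Complex.I) =
      ((D.poly S).roots.map fun μ => ((x : ℂ) + y * Complex.I - μ)).prod :=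
    (IsAlgClosed.splits (D.poly S)).eval_eq_prod_roots_of_monic (poly_monic D hr S) _
  have he2 : (D.poly (S.erase v)).eval ((x : ℂ) + y * Complex.I) =
      ((D.poly (S.erase v)).roots.map fun μ => ((x : ℂ) + y * Complex.I - μ)).prod :=
    (IsAlgClosed.splits (D.poly (S.erase v))).eval_eq_prod_roots_of_monic
      (poly_monic D hr (S.erase v)) _
  set I₁ := ∫ s, pertPois x y s *
    (Multiset.card ((D.poly S).roots.filter fun w : ℂ => s < w.re) : ℝ) with hI₁
  set I₂ := ∫ s, pertPois x y s *
    (Multiset.card ((D.poly (S.erase v)).roots.filter fun w : ℂ => s < w.re) : ℝ) with hI₂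
  have hint : (∫ s : ℝ, y / ((x - s) ^ 2 + y ^ 2) *
      ((pvCount (D.poly S) s : ℝ) - (pvCount (D.poly (S.erase v)) s : ℝ))) = I₁ - I₂ := by
    rw [hI₁, hI₂, ← integral_sub hi1 hi2]
    refine integral_congr_ae (Eventually.of_forall fun s => ?_)
    simp only [pertPois, pvCount]
    ring
  have hcount : ∀ s : ℝ, 0 ≤ (pvCount (D.poly S) s : ℝ) - (pvCount (D.poly (S.erase v)) s : ℝ) ∧
      (pvCount (D.poly S) s : ℝ) - (pvCount (D.poly (S.erase v)) s : ℝ) ≤ 1 := by
    intro s
    obtain ⟨h1, h2⟩ := count_interlace hD hr hv s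
    have h1' : (pvCount (D.poly (S.erase v)) s : ℝ) ≤ pvCount (D.poly S) s := by exact_mod_cast h1
    have h2' : (pvCount (D.poly S) s : ℝ) ≤ pvCount (D.poly (S.erase v)) s + 1 := by exact_mod_cast h2
    constructor <;> linarith
  have hI0 : 0 ≤ I₁ - I₂ := by
    rw [← hint]
    refine integral_nonneg fun s => ?_
    exact mul_nonneg (pertPois_nonneg x hy s) (hcount s).1
  have hIpi : I₁ - I₂ ≤ Real.pi := by
    rw [← pertPois_integral x hy, hI₁, hI₂, ← integral_sub hi1 hi2]
    refine integral_mono (hi1.sub hi2) (pertPois_integrable x hy) fun s => ?_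
    have := (hcount s).2
    have h3 := pertPois_nonneg x hy s
    simp only [pvCount] at this
    nlinarith
  rw [hint]
  unfold F
  rw [he1, he2, hp1, hp2]
  have hρ₂' : (ρ₂ : ℂ) ≠ 0 := by exact_mod_cast hρ₂.ne'
  have : (ρ₁ : ℂ) * Complex.exp ((I₁ : ℂ) * Complex.I) / ((ρ₂ : ℂ) * Complex.exp ((I₂ : ℂ) * Complex.I)) =
      ((ρ₁ / ρ₂ : ℝ) : ℂ) * (Complex.cos ((I₁ - I₂ : ℝ) : ℂ) + Complex.sin ((I₁ - I₂ : ℝ) : ℂ) * Complex.I) := by
    rw [← Complex.exp_mul_I]
    push_cast
    rw [sub_mul, Complex.exp_sub]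
    field_simp
  rw [this]
  exact Complex.arg_mul_cos_add_sin_mul_I (by positivity) ⟨by linarith [Real.pi_pos], hIpi⟩

end PvData

end

end Claimed.Agent.R302
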