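/-
R302 / Poly / Pert  (package Poly-Pert)
Analytic perturbations used in Lemma 5.3 (rank comparison) and the argument/Poisson formula (6.9) of paper Q.
The proofs are in PertA (tools, `single_G`), PertB (matrix calculus), PertC (`kerPert`, `hasDerivAt_kerPert`),
PertD (sesquilinear forms), PertE (norm bound of the perturbation), PertF (`Jf`, `single_J`), PertG (Poisson kernel), PertH (`arg_F`).
-/
import Claimed.Agent.R302.Poly.PertH

set_option autoImplicit false

namespace Claimed.Agent.R302

open Finset Polynomial
open scoped BigOperators ComplexConjugate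

noncomputable section

/-- Elementary derivative estimate: a holomorphic function on the disc of radius `R` whose imaginary part
stays in `[0, π]` has derivative at the centre bounded by `4 π / R` (any numerical constant is fine). -/
theorem deriv_le_of_im_mem {f : ℂ → ℂ} {R : ℝ} (hR : 0 < R)
    (hf : DifferentiableOn ℂ f (Metric.ball 0 R)) (him : ∀ ζ ∈ Metric.ball (0 : ℂ) R, (f ζ).im ∈ Set.Icc 0 Real.pi) :
    ‖deriv f 0‖ ≤ 4 * Real.pi / R :=
  pert_deriv_le_of_im_mem hR hf him

namespace PvData

variable {V : Type*} [DecidableEq V] {r : ℕ}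

/-- (5.8) single deletion, field `G`: no bound on the weights enters. -/
theorem single_G {D : PvData V r} (hD : D.Good) (hr : 0 < r) {S : Finset V} {u : V} (hu : u ∈ S)
    {z : ℂ} (hz : 0 < z.im) :
    ‖D.G S u z‖ + ∑ v ∈ S.erase u, ‖D.G S v z - D.G (S.erase u) v z‖ ≤ 8 * Real.pi / z.im :=
  pert_single_G hD hr hu hz

-- `kerPert`, `hasDerivAt_kerPert` (5.10) are in `PertC.lean`; `Jf`, `single_J` (5.11) are in `PertF.lean`
-- (same names, same statements).

/-- (6.9): argument of the quotient = Poisson integral of the spectral shift -/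
theorem arg_F {D : PvData V r} (hD : D.Good) (hr : 0 < r) {S : Finset V} {v : V} (hv : v ∈ S)
    (x : ℝ) {y : ℝ} (hy : 0 < y) :
    Complex.arg (D.F S v (x + y * Complex.I)) =
      ∫ s : ℝ, y / ((x - s) ^ 2 + y ^ 2) *
        ((pvCount (D.poly S) s : ℝ) - (pvCount (D.poly (S.erase v)) s : ℝ)) :=
  pert_arg_F hD hr hv x hy

end PvData

end

end Claimed.Agent.R302
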